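import Vale.Agent.P284Z.L.Spec
import Vale.Agent.P284Z.J.JG
import Vale.Agent.P284Z.F0.Cov
import Vale.Agent.P284Z.O.Alg
import Vale.Agent.P284.H625.NS.Strt

/-!
# P284Z, block L: shared tools
-/

open scoped ContDiff Topology ComplexOrder ComplexConjugate ENNReal
open Filter Set Function Metric MeasureTheory

noncomputable section

namespace Vale.Agent.P284Z.L

open Vale.Agent.P272.K Vale.Agent.P284.H650 J Real

/-! ### the function `Gc` -/

theorem hasDerivAt_Gc (x : ℝ) : HasDerivAt Gc (smoothTransition x) x :=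
  (smoothTransition.continuous.integral_hasStrictDerivAt 0 x).hasDerivAt

theorem deriv_Gc : deriv Gc = smoothTransition := funext fun x => (hasDerivAt_Gc x).deriv

theorem contDiff_Gc : ContDiff ℝ ∞ Gc := by
  rw [contDiff_infty_iff_deriv, deriv_Gc]
  exact ⟨fun x => (hasDerivAt_Gc x).differentiableAt, smoothTransition.contDiff⟩

theorem Gc_mono : Monotone Gc := monotone_of_deriv_nonneg
  (fun x => (hasDerivAt_Gc x).differentiableAt) fun x => deriv_Gc ▸ smoothTransition.nonneg x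

theorem Gc_lip {x y : ℝ} (h : x ≤ y) : Gc y - Gc x ≤ y - x := by
  have : Antitone fun x => Gc x - x := antitone_of_deriv_nonpos
    (fun x => ((hasDerivAt_Gc x).sub (hasDerivAt_id x)).differentiableAt) fun x => by
      rw [((hasDerivAt_Gc x).fun_sub (hasDerivAt_id' x)).deriv]
      linarith [smoothTransition.le_one x]
  linarith [this h]

theorem Gc_of_nonpos {x : ℝ} (h : x ≤ 0) : Gc x = 0 := by
  rw [Gc, intervalIntegral.integral_congr (g := fun _ => 0), intervalIntegral.integral_zero]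
  intro t ht
  rw [uIcc_of_ge h] at ht
  exact smoothTransition.zero_of_nonpos ht.2

theorem Gc_nonneg (x : ℝ) : 0 ≤ Gc x := by
  rcases le_total x 0 with h | h
  · exact (Gc_of_nonpos h).ge
  · exact (Gc_of_nonpos le_rfl).ge.trans (Gc_mono h)

theorem Gc_le (x : ℝ) : Gc x ≤ max x 0 := by
  rcases le_total x 0 with h | h
  · rw [Gc_of_nonpos h]
    exact le_max_right _ _
  · linarith [Gc_lip h, Gc_of_nonpos (le_refl (0 : ℝ)), le_max_left x 0]

theorem Gc_of_one_le {x : ℝ} (h : 1 ≤ x) : Gc x = x - 1 + Gc 1 := by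
  have h1 : ∫ t in (1 : ℝ)..x, smoothTransition t = x - 1 := by
    rw [intervalIntegral.integral_congr (g := fun _ => 1), intervalIntegral.integral_const,
      smul_eq_mul, mul_one]
    intro t ht
    rw [uIcc_of_le h] at ht
    exact smoothTransition.one_of_one_le ht.1
  rw [Gc, ← intervalIntegral.integral_add_adjacent_intervals (b := 1)
    (smoothTransition.continuous.intervalIntegrable _ _)
    (smoothTransition.continuous.intervalIntegrable _ _), h1, add_comm]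
  rfl

theorem sub_one_le_Gc (x : ℝ) : x - 1 ≤ Gc x := by
  rcases le_total x 1 with h | h
  · linarith [Gc_nonneg x]
  · linarith [Gc_of_one_le h, Gc_nonneg 1]

theorem Gc_le_add {x y c : ℝ} (hc : 0 ≤ c) (h : x ≤ y + c) : Gc x ≤ Gc y + c := by
  linarith [Gc_mono h, Gc_lip (le_add_of_nonneg_right hc : y ≤ y + c)]

theorem st'_nonneg (x : ℝ) : 0 ≤ deriv smoothTransition x := smoothTransition.monotone.deriv_nonneg

theorem st'_zero {x : ℝ} (h : x ∉ Icc (0 : ℝ) 1) : deriv smoothTransition x = 0 := by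
  rcases not_and_or.1 h with h | h
  · have : smoothTransition =ᶠ[𝓝 x] fun _ => 0 :=
      (gt_mem_nhds (not_le.1 h)).mono fun t ht => smoothTransition.zero_of_nonpos ht.le
    rw [this.deriv_eq, deriv_const]
  · have : smoothTransition =ᶠ[𝓝 x] fun _ => 1 :=
      (lt_mem_nhds (not_le.1 h)).mono fun t ht => smoothTransition.one_of_one_le ht.le
    rw [this.deriv_eq, deriv_const]

theorem exists_st' : ∃ K > (0 : ℝ), ∀ x, deriv smoothTransition x ≤ K := by
  obtain ⟨K, hK⟩ := (isCompact_Icc (a := (0 : ℝ)) (b := 1)).bddAbove_image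
    ((smoothTransition.contDiff (n := 1)).continuous_deriv le_rfl).continuousOn
  refine ⟨max K 1, by positivity, fun x => ?_⟩
  by_cases h : x ∈ Icc (0 : ℝ) 1
  · exact (hK ⟨x, h, rfl⟩).trans (le_max_left _ _)
  · rw [st'_zero h]
    positivity

section loc
variable {n p q : ℕ} {z : Cm n}

theorem cHess_glue {a b : Cm n → ℝ} (ha : ContDiffAt ℝ 2 a z) (hb : ContDiffAt ℝ 2 b z) :
    cHess (fun w => a w + Gc (b w - a w)) z =
      ((1 - smoothTransition (b z - a z) : ℝ) : ℂ) • cHess a z +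
      ((smoothTransition (b z - a z) : ℝ) : ℂ) • cHess b z +
      ((deriv smoothTransition (b z - a z) : ℝ) : ℂ) •
        gg (fun w => b w - a w) (fun w => b w - a w) z := by
  have hG : ContDiffAt ℝ 2 Gc (b z - a z) := (contDiff_Gc.of_le two_le).contDiffAt
  have hG' : ContDiffAt ℝ 2 (fun w => Gc (b w - a w)) z :=
    ContDiffAt.comp z (g := Gc) (f := fun w => b w - a w) hG (hb.sub ha)
  rw [C2.cHess_add ha hG',
    cHess_comp' (f := fun w => b w - a w) hG (hb.sub ha), C2.cHess_sub hb ha, deriv_Gc]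
  push_cast
  module

/-- the Hessian of the glued function dominates the gradient term -/
theorem psd_glue {a b : Cm n → ℝ} (ha : ContDiffAt ℝ 2 a z) (hb : ContDiffAt ℝ 2 b z)
    (h1 : (cHess a z).PosSemidef) (h2 : (cHess b z).PosSemidef) :
    (cHess (fun w => a w + Gc (b w - a w)) z - ((deriv smoothTransition (b z - a z) : ℝ) : ℂ) •
      gg (fun w => b w - a w) (fun w => b w - a w) z).PosSemidef := by
  rw [cHess_glue ha hb, add_sub_cancel_right]
  exact (psd_smul h1 (sub_nonneg.2 (smoothTransition.le_one _))).add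
    (psd_smul h2 (smoothTransition.nonneg _))

theorem psd_glue' {a b : Cm n → ℝ} (ha : ContDiffAt ℝ 2 a z) (hb : ContDiffAt ℝ 2 b z)
    (h1 : (cHess a z).PosSemidef) (h2 : (cHess b z).PosSemidef) :
    (cHess (fun w => a w + Gc (b w - a w)) z).PosSemidef := by
  have := (psd_glue ha hb h1 h2).add
    (psd_smul (gg_psd (fun w => b w - a w) z) (st'_nonneg (b z - a z)))
  rwa [sub_add_cancel] at this

/-! ### local sections and the determinant -/

theorem exists_sec {b : Cm n → Cm p} (hb : AnalyticAt ℂ b z) (hs : Surjective (fderiv ℂ b z)) :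
    ∃ σ : Cm p → Cm n, AnalyticAt ℂ σ (b z) ∧ σ (b z) = z ∧ ∀ᶠ t in 𝓝 (b z), b (σ t) = t := by
  obtain ⟨r, -, χ, hr, -, -, hχ, h0, -, -, h⟩ := Vale.Agent.P284.H625.exists_straight hb hs
  have h1 : AnalyticAt ℂ (fun t => r (t - b z)) (b z) :=
    (r.analyticAt _).fun_comp_of_eq (analyticAt_id.sub analyticAt_const) rfl
  have h2 : r (b z - b z) = 0 := by rw [sub_self, map_zero]
  refine ⟨fun t => χ (r (t - b z)), hχ.fun_comp_of_eq h1 h2, (congrArg χ h2).trans h0, ?_⟩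
  have h3 := h1.continuousAt.tendsto
  rw [h2] at h3
  filter_upwards [h3.eventually h] with t ht
  rw [ht, hr, add_sub_cancel]

theorem dd_congr {b b' : Cm n → Cm p} (h : b =ᶠ[𝓝 z] b') (ξ : Fin p → Cm n) :
    dd b z ξ = dd b' z ξ := by rw [dd, dd, h.fderiv_eq]

theorem dd_comp {b : Cm q → Cm p} {τ : Cm n → Cm q} (hb : DifferentiableAt ℂ b (τ z))
    (hτ : DifferentiableAt ℂ τ z) (ξ : Fin p → Cm n) :
    dd (fun w => b (τ w)) z ξ = dd b (τ z) fun k => fderiv ℂ τ z (ξ k) := by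
  rw [dd, dd, fderiv_fun_comp z hb hτ]
  rfl

theorem dd_eq (b : Cm n → Cm p) (z : Cm n) (ξ : Fin p → Cm n) :
    dd b z ξ = (jm b z * (Matrix.of ξ).transpose).det := by
  rw [dd]
  congr 1
  ext i j
  rw [Matrix.of_apply, ← jm_mulVec]
  rfl

theorem dd_left {b : Cm n → Cm p} {S : Cm p → Cm p} (hS : DifferentiableAt ℂ S (b z))
    (hb : DifferentiableAt ℂ b z) (ξ : Fin p → Cm n) :
    dd (fun w => S (b w)) z ξ = (jm S (b z)).det * dd b z ξ := by
  rw [dd_eq, dd_eq, jm_comp hb hS, Matrix.mul_assoc, Matrix.det_mul]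

theorem dd_frame (b : Cm n → Cm p) (z : Cm n) (M : Matrix (Fin p) (Fin p) ℂ) (ξ : Fin p → Cm n) :
    dd b z (fun k => ∑ k', M k k' • ξ k') = M.det * dd b z ξ := by
  have : (Matrix.of fun k => ∑ k', M k k' • ξ k') = M * Matrix.of ξ := by
    ext i j
    simp [Matrix.mul_apply, Finset.sum_apply]
  rw [dd_eq, dd_eq, this, Matrix.transpose_mul, ← Matrix.mul_assoc, Matrix.det_mul,
    Matrix.det_transpose, mul_comm]

theorem dd_smul (b : Cm n → Cm p) (z : Cm n) (c : ℂ) (ξ : Fin p → Cm n) :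
    dd b z (c • ξ) = c ^ p * dd b z ξ := by
  rw [← dF_apply, ← dF_apply]
  simpa [Pi.smul_def] using (dF b z).toContinuousMultilinearMap.map_smul_univ (fun _ => c) ξ

theorem dd_ne_iff (b : Cm n → Cm p) (z : Cm n) (ξ : Fin p → Cm n) :
    dd b z ξ ≠ 0 ↔ LinearIndependent ℂ fun k => fderiv ℂ b z (ξ k) := by
  rw [dd, ← isUnit_iff_ne_zero, ← Matrix.isUnit_iff_isUnit_det,
    ← Matrix.linearIndependent_cols_iff_isUnit]
  rfl

theorem surj_of_dd {b : Cm n → Cm p} {ξ : Fin p → Cm n} (h : dd b z ξ ≠ 0) :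
    Surjective (fderiv ℂ b z) := fun t => by
  have h1 : IsUnit (Matrix.of fun i j => fderiv ℂ b z (ξ j) i) :=
    (Matrix.isUnit_iff_isUnit_det _).2 (isUnit_iff_ne_zero.2 h)
  obtain ⟨x, hx⟩ := Matrix.mulVec_surjective_iff_isUnit.2 h1 t
  refine ⟨∑ j, x j • ξ j, ?_⟩
  rw [← hx]
  ext i
  simp [Matrix.mulVec, dotProduct, Finset.sum_apply, mul_comm]

theorem exists_dd_one {b : Cm n → Cm p} (h : Surjective (fderiv ℂ b z)) :
    ∃ ξ : Fin p → Cm n, (∀ k, fderiv ℂ b z (ξ k) = Pi.single k 1) ∧ dd b z ξ = 1 := by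
  choose ξ hξ using fun k : Fin p => h (Pi.single k 1)
  refine ⟨ξ, hξ, ?_⟩
  rw [dd, ← Matrix.det_one (n := Fin p)]
  congr 1
  ext i j
  rw [Matrix.of_apply, hξ, Matrix.one_apply, Pi.single_apply]

theorem exists_dd_ne {b : Cm n → Cm p} (h : Surjective (fderiv ℂ b z)) :
    ∃ ξ : Fin p → Cm n, ‖ξ‖ ≤ 1 ∧ dd b z ξ ≠ 0 := by
  obtain ⟨ξ, -, hξ⟩ := exists_dd_one h
  have h1 : (0 : ℝ) < ‖ξ‖ + 1 := by positivity
  refine ⟨(((‖ξ‖ + 1)⁻¹ : ℝ) : ℂ) • ξ, ?_, ?_⟩
  · rw [norm_smul, Complex.norm_real, Real.norm_of_nonneg (by positivity), inv_mul_le_iff₀ h1]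
    linarith
  · rw [dd_smul, hξ, mul_one]
    exact pow_ne_zero _ (Complex.ofReal_ne_zero.2 (inv_ne_zero h1.ne'))

theorem an_dd₂ {W : Type} [NormedAddCommGroup W] [NormedSpace ℂ W] {b : Cm n → Cm p} {x : W}
    {f : W → Cm n} {ξ : W → Fin p → Cm n} (hb : AnalyticAt ℂ b (f x)) (hf : AnalyticAt ℂ f x)
    (hξ : AnalyticAt ℂ ξ x) : AnalyticAt ℂ (fun w => dd b (f w) (ξ w)) x := by
  simp only [dd, Matrix.det_apply', Matrix.of_apply]
  refine Finset.analyticAt_fun_sum _ fun σ _ => analyticAt_const.mul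
    (Finset.analyticAt_fun_prod _ fun i _ => ?_)
  have h1 : AnalyticAt ℂ (fun w => fderiv ℂ b (f w) (ξ w i)) x :=
    ((ContinuousLinearMap.id ℂ (Cm n →L[ℂ] Cm p)).analyticAt_bilinear _).comp₂
      (hb.fderiv.fun_comp hf) (analyticAt_pi_iff.1 hξ i)
  exact analyticAt_pi_iff.1 h1 (σ i)

theorem an_dd {b : Cm n → Cm p} (hb : AnalyticAt ℂ b z) (ξ : Fin p → Cm n) :
    AnalyticAt ℂ (fun w => dd b w ξ) z := an_dd₂ (f := id) hb analyticAt_id analyticAt_const

end loc

/-! ### on the covering -/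

variable {n p : ℕ} {Γ E : Type} [Group Γ] [TopologicalSpace E] [MulAction Γ E] {C : Cov n Γ E}
  {γ γ' g : Γ} {a b : C.I} {z z' : Cm n} {y : E} {O : Set E} {s : E → Cm p}

theorem comp_tr (hz : z ∈ C.B 4 a) (hz' : z' ∈ C.B 4 b) (h : C.pt γ a z = C.pt γ' b z')
    {V : Type} (u : E → V) : (fun w => u (C.pt γ a w)) =ᶠ[𝓝 z]
      fun w => u (C.pt γ' b (C.tr (γ'⁻¹ * γ) a b w)) := by
  simpa using JGx.pt_tr_ev (C.Ov_of_eq hz hz' h).1 γ' u

section sm
variable {V V' : Type} [NormedAddCommGroup V] [NormedSpace ℝ V] [NormedAddCommGroup V']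
  [NormedSpace ℝ V'] {f : E → V}

theorem smAt_of_chart (hz : z ∈ C.B 4 a) (h : ContDiffAt ℝ ∞ (fun w => f (C.pt γ a w)) z) :
    C.SmAt f (C.pt γ a z) := fun _ _ _ hz' e => by
  obtain ⟨h1, h2⟩ := C.Ov_of_eq hz' hz e
  exact (ContDiffAt.comp _ (g := fun w => f (C.pt γ a w)) (by rwa [h2])
    (JGx.tr_sm h1)).congr_of_eventuallyEq (comp_tr hz' hz e f)

theorem sm_comp {φ : V → V'} (hφ : ContDiffAt ℝ ∞ φ (f y)) (h : C.SmAt f y) :
    C.SmAt (fun y => φ (f y)) y := fun γ a z hz e =>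
  ContDiffAt.comp z (f := fun w => f (C.pt γ a w)) (by rwa [e]) (h γ a z hz e)

theorem sm_prod {f' : E → V'} (h : C.SmAt f y) (h' : C.SmAt f' y) :
    C.SmAt (fun y => (f y, f' y)) y := fun γ a z hz e => (h γ a z hz e).prodMk (h' γ a z hz e)

theorem sm_const (c : V) : C.SmAt (fun _ => c) y := fun _ _ _ _ _ => contDiffAt_const

theorem sm_add {f' : E → V} (h : C.SmAt f y) (h' : C.SmAt f' y) :
    C.SmAt (fun y => f y + f' y) y := fun γ a z hz e => (h γ a z hz e).add (h' γ a z hz e)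

theorem sm_sub {f' : E → V} (h : C.SmAt f y) (h' : C.SmAt f' y) :
    C.SmAt (fun y => f y - f' y) y := fun γ a z hz e => (h γ a z hz e).sub (h' γ a z hz e)

theorem sm_mul {A : Type} [NormedRing A] [NormedAlgebra ℝ A] {f f' : E → A} (h : C.SmAt f y)
    (h' : C.SmAt f' y) : C.SmAt (fun y => f y * f' y) y :=
  fun γ a z hz e => (h γ a z hz e).mul (h' γ a z hz e)

theorem sm_log {f : E → ℝ} (h : C.SmAt f y) (h0 : f y ≠ 0) : C.SmAt (fun y => log (f y)) y :=
  sm_comp (contDiffAt_log.2 h0) h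

theorem sm_of_hol {W : Type} [NormedAddCommGroup W] [NormedSpace ℂ W] [NormedSpace ℝ W]
    [IsScalarTower ℝ ℂ W] [CompleteSpace W] {F : E → W} (h : C.HolOn F O) (hy : y ∈ O) : C.SmAt F y :=
  fun γ a z hz e => (h γ a z hz (e ▸ hy)).contDiffAt.restrict_scalars ℝ

theorem contOn_of_sm (h : ∀ y ∈ O, C.SmAt f y) : ContinuousOn f O :=
  fun y hy => (JGx.sm_cont (h y hy)).continuousWithinAt

/-- a function which is smooth and locally constant on the fibres is a function of `s` -/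
theorem Fib.lf (h : Fib s f O) (hs : Sub C s O) (hz : z ∈ C.B 4 a) (hO : C.pt γ a z ∈ O)
    (hf : C.SmAt f (C.pt γ a z)) : ∃ f' : Cm p → V, ContDiffAt ℝ ∞ f' (s (C.pt γ a z)) ∧
      ∀ᶠ w in 𝓝 z, f (C.pt γ a w) = f' (s (C.pt γ a w)) := by
  have hb := hs.hol γ a z hz hO
  obtain ⟨σ, h1, h2, h3⟩ := exists_sec hb (hs.surj γ a z hz hO)
  refine ⟨fun t => f (C.pt γ a (σ t)), ContDiffAt.comp _ (g := fun w => f (C.pt γ a w))
    (by rw [h2]; exact hf γ a z hz rfl) (h1.contDiffAt.restrict_scalars ℝ), ?_⟩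
  have h4 : Tendsto (fun w => σ (s (C.pt γ a w))) (𝓝 z) (𝓝 z) := by
    have := h1.continuousAt.tendsto.comp hb.continuousAt.tendsto
    rwa [h2] at this
  have h5 := (C.continuousAt_pt hz γ).tendsto
  filter_upwards [(h5.prodMk_nhds (h5.comp h4)).eventually (h _ hO),
    hb.continuousAt.tendsto.eventually h3] with w k1 k2
  exact k1 k2.symm

end sm

theorem Fib.comp {α β : Type} {f : E → α} (h : Fib s f O) (φ : α → β) :
    Fib s (fun y => φ (f y)) O := fun y hy => (h y hy).mono fun _ k e => congrArg φ (k e)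

theorem Fib.prod {α β : Type} {f : E → α} {f' : E → β} (h : Fib s f O) (h' : Fib s f' O) :
    Fib s (fun y => (f y, f' y)) O :=
  fun y hy => ((h y hy).and (h' y hy)).mono fun _ k e => Prod.ext (k.1 e) (k.2 e)

theorem fib_self (s : E → Cm p) (O : Set E) : Fib s s O :=
  fun _ _ => Eventually.of_forall fun _ e => e

theorem Fib.congr {α : Type} {f : E → α}
    (h : ∀ y ∈ O, ∃ f' : E → α, Fib s f' O ∧ f =ᶠ[𝓝 y] f') : Fib s f O := fun y hy => by
  obtain ⟨f', h1, h2⟩ := h y hy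
  filter_upwards [h1 y hy, continuousAt_fst.eventually (p := fun x => f x = f' x) h2,
    continuousAt_snd.eventually (p := fun x => f x = f' x) h2] with q k1 k2 k3 e
  rw [k2, k3, k1 e]

theorem ds_ch (hs : C.HolOn s O) (h : C.Ov g a b z) (hO : C.pt (γ * g) a z ∈ O)
    (ξ : Fin p → Cm n) : ds C s (γ * g) a z ξ =
      ds C s γ b (C.tr g a b z) fun k => fderiv ℂ (C.tr g a b) z (ξ k) := by
  rw [ds, dd_congr (JGx.pt_tr_ev h γ s)]
  exact dd_comp (b := fun w => s (C.pt γ b w))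
    (hs γ b _ (C.tr_mem h) (by rwa [C.pt_tr h])).differentiableAt (C.an_tr h).differentiableAt ξ

section fm
variable {H H' : C.Fm}

theorem fm_add (h : C.FmAt H y) (h' : C.FmAt H' y) : C.FmAt (H + H') y :=
  fun γ g a b z o e => by
    simp only [Pi.add_apply, h γ g a b z o e, h' γ g a b z o e, pb, Matrix.mul_add, Matrix.add_mul]

theorem fm_smul (c : ℂ) (h : C.FmAt H y) : C.FmAt (c • H) y := fun γ g a b z o e => by
  simp only [Pi.smul_apply, h γ g a b z o e, pb, Matrix.mul_smul, Matrix.smul_mul]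

theorem fm_sub (h : C.FmAt H y) (h' : C.FmAt H' y) : C.FmAt (H - H') y :=
  fun γ g a b z o e => by
    simp only [Pi.sub_apply, h γ g a b z o e, h' γ g a b z o e, pb, Matrix.mul_sub, Matrix.sub_mul]

theorem hs_eq (f : E → ℝ) : hs C f = C.om 0 f := by
  funext γ a
  simp [hs, Cov.om]

theorem fm_hs {f : E → ℝ} (h : C.SmAt f y) : C.FmAt (hs C f) y := hs_eq (C := C) f ▸ JGx.fm_om jb 0 h

/-- positivity does not depend on the chart -/
theorem psd_chart (h : C.FmAt H (C.pt γ a z)) (hz : z ∈ C.B 4 a) (hz' : z' ∈ C.B 4 b)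
    (e : C.pt γ a z = C.pt γ' b z') (hp : (H γ' b z').PosSemidef) : (H γ a z).PosSemidef := by
  obtain ⟨h1, h2⟩ := C.Ov_of_eq hz hz' e
  have := h γ' _ a b z h1 (by rw [mul_inv_cancel_left])
  rw [mul_inv_cancel_left, h2] at this
  exact this ▸ pb_psd _ hp

theorem psd_of_B1 (h : ∀ y ∈ O, C.FmAt H y)
    (hp : ∀ γ a, ∀ z ∈ C.B 1 a, C.pt γ a z ∈ O → (H γ a z).PosSemidef) : Psd C H O :=
  fun _ _ _ hz hO => by
    obtain ⟨γ', b, z', hz', e⟩ := C.exists_pt (C.pt _ _ _)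
    exact psd_chart (h _ hO) hz (C.B14 hz') e (hp γ' b z' hz' (e ▸ hO))

theorem om_eq (A : ℝ) {f : E → ℝ} (hz : z ∈ C.B 4 a) (h : C.SmAt f (C.pt γ a z)) :
    C.om A f γ a z = (A : ℂ) • cHess (C.ρ a) z + hs C f γ a z := by
  have h1 : ContDiffAt ℝ 2 (C.ρ a) z := (C.ρ_sm a z hz).of_le two_le
  rw [Cov.om, C2.cHess_add (contDiffAt_const.mul h1) ((h γ a z hz rfl).of_le two_le),
    C2.cHess_const_mul A h1]
  rfl

end fm

end Vale.Agent.P284Z.L
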