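import Vale.Agent.P284Z.L.Spec
import Vale.Agent.P284Z.K.Bas

/-!
# P284Z, block L, piece 5a: a smooth exhaustion of the covering with bounded gradient
-/

open scoped ContDiff Topology ComplexOrder
open Filter Set Function Metric

noncomputable section

namespace Vale.Agent.P284Z.L

open Vale.Agent.P272.K Vale.Agent.P284.H650 J

namespace S5a

/-- a proper subadditive length on a countable group -/
theorem exists_len (Γ : Type) [Group Γ] [Countable Γ] :
    ∃ len : Γ → ℕ, (∀ g h, len (g * h) ≤ len g + len h) ∧ ∀ c, {g | len g ≤ c}.Finite := by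
  obtain ⟨e, he⟩ := Countable.exists_injective_nat (α := Γ)
  let S : Γ → Set ℕ := fun g => {m | ∃ l : List Γ, l.prod = g ∧ (l.map fun x => e x + 1).sum = m}
  have hne : ∀ g, (S g).Nonempty := fun g => ⟨_, [g], by simp, rfl⟩
  have hfin : ∀ c, {l : List Γ | (l.map fun x => e x + 1).sum ≤ c}.Finite := fun c => by
    induction c with
    | zero =>
      refine (finite_singleton []).subset fun l hl => ?_
      cases l with
      | nil => rfl
      | cons x l => simp at hl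
    | succ c ih =>
      refine ((finite_singleton []).union (Finite.image2 List.cons
        ((finite_le_nat c).preimage he.injOn) ih)).subset fun l hl => ?_
      cases l with
      | nil => exact Or.inl rfl
      | cons x l =>
        simp only [mem_ofPred_eq, List.map_cons, List.sum_cons] at hl
        exact Or.inr ⟨x, show e x ≤ c by omega, l,
          show (l.map fun x => e x + 1).sum ≤ c by omega, rfl⟩
  refine ⟨fun g => sInf (S g), fun g h => ?_, fun c => ((hfin c).image List.prod).subset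
    fun g hg => ?_⟩
  · obtain ⟨l, h1, h2⟩ := Nat.sInf_mem (hne g)
    obtain ⟨l', h3, h4⟩ := Nat.sInf_mem (hne h)
    exact Nat.sInf_le ⟨l ++ l', by rw [List.prod_append, h1, h3],
      by rw [List.map_append, List.sum_append, h2, h4]⟩
  · obtain ⟨l, h1, h2⟩ := Nat.sInf_mem (hne g)
    exact ⟨l, h2.le.trans hg, h1⟩

theorem norm_dzv {n : ℕ} (f : Cm n → ℝ) (z : Cm n) :
    ‖dzv f z‖ ≤ ‖fderiv ℝ (fun y => (f y : ℂ)) z‖ := by
  refine (pi_norm_le_iff_of_nonneg (norm_nonneg _)).2 fun j => ?_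
  set L := fderiv ℝ (fun y => (f y : ℂ)) z
  have h1 : ‖L (Pi.single j 1)‖ ≤ ‖L‖ := by simpa [Pi.norm_single] using L.le_opNorm (Pi.single j 1)
  have h2 : ‖L (Pi.single j Complex.I)‖ ≤ ‖L‖ := by
    simpa [Pi.norm_single] using L.le_opNorm (Pi.single j Complex.I)
  have h3 := norm_sub_le (L (Pi.single j 1)) (Complex.I * L (Pi.single j Complex.I))
  rw [norm_mul, Complex.norm_I, one_mul] at h3
  change ‖(L (Pi.single j 1) - Complex.I * L (Pi.single j Complex.I)) / 2‖ ≤ ‖L‖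
  rw [norm_div, Complex.norm_ofNat]
  linarith

theorem gg_vec {n : ℕ} (f : Cm n → ℝ) (z : Cm n) :
    gg f f z = Matrix.vecMulVec (dzv f z) (star (dzv f z)) := by
  ext i j
  simp [gg, rk1, dzv, dzbv, AMP.dzb_real_eq, Matrix.vecMulVec_apply]

variable {n : ℕ} {Γ E : Type} [Group Γ] [TopologicalSpace E] [MulAction Γ E] (C : Cov n Γ E)

/-- forms of rank one with a bounded covector are dominated by the Kähler form -/
theorem dom (M : ℝ) : ∃ c : ℝ, ∀ a, ∀ z ∈ C.B 1 a, ∀ v : Cm n, ‖v‖ ≤ M →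
    ((c : ℂ) • cHess (C.ρ a) z - Matrix.vecMulVec v (star v)).PosSemidef := by
  have h4 : ∀ a, C.cB 1 a ⊆ C.B 4 a := C.cB_sub_B (by norm_num)
  have h : ∀ a, ∃ c : ℝ, 1 ≤ c ∧ ∀ q ∈ C.cB 1 a ×ˢ closedBall (0 : Cm n) M,
      ((c : ℂ) • cHess (C.ρ a) q.1 - Matrix.vecMulVec q.2 (star q.2)).PosSemidef := fun a =>
    K.exists_dom ((C.isCompact_cB 1 a).prod (isCompact_closedBall _ _))
      (continuous_snd.matrix_vecMulVec (continuous_star.comp continuous_snd)).continuousOn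
      (fun q hq => ((K.cont_cHess (C.ρ_sm a q.1 (h4 a hq.1))).comp
        continuousAt_fst).continuousWithinAt)
      (fun q _ => (Matrix.posSemidef_vecMulVec_self_star q.2).isHermitian)
      fun q hq => C.ρ_pos a q.1 (h4 a hq.1)
  choose c hc1 hc using h
  refine ⟨∑ a, c a, fun a z hz v hv => ?_⟩
  have h1 := hc a (z, v) ⟨C.B_sub_cB 1 a hz, mem_closedBall_zero_iff.2 hv⟩
  have h2 := psd_smul (C.ρ_pos a z (C.B14 hz)).posSemidef (sub_nonneg.2 (Finset.single_le_sum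
    (f := c) (fun b _ => zero_le_one.trans (hc1 b)) (Finset.mem_univ a)))
  have h3 := h2.add h1
  rwa [← add_sub_assoc, ← add_smul, ← Complex.ofReal_add, sub_add_cancel] at h3

/-- positivity can be checked in the small charts -/
theorem psd_of_B1 {X Y : C.Fm} (c : ℂ) (hX : ∀ y, C.FmAt X y) (hY : ∀ y, C.FmAt Y y)
    (h : ∀ γ a, ∀ z ∈ C.B 1 a, (c • X γ a z - Y γ a z).PosSemidef) :
    Psd C (c • X - Y) univ := fun γ a z hz _ => by
  obtain ⟨g, b, w, hw, e⟩ := C.exists_pt (C.pt γ a z)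
  obtain ⟨h1, h2⟩ := C.Ov_of_eq hz (C.B14 hw) e
  have h3 := hX _ g _ a b z h1 rfl
  have h4 := hY _ g _ a b z h1 rfl
  rw [mul_inv_cancel_left, h2] at h3 h4
  have h5 := K.pb_psd (jm (C.tr (g⁻¹ * γ) a b) z) (h g b w hw)
  change (c • X γ a z - Y γ a z).PosSemidef
  rw [h3, h4]
  simpa only [pb, Matrix.mul_sub, Matrix.sub_mul, Matrix.mul_smul, Matrix.smul_mul] using h5

theorem cont_of_sm {f : E → ℝ} (h : ∀ y, C.SmAt f y) : Continuous f :=
  continuous_iff_continuousAt.2 fun y => by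
    obtain ⟨γ, a, z, hz, rfl⟩ := C.exists_pt y
    rw [ContinuousAt, ← C.map_pt' (C.B14 hz), tendsto_map'_iff]
    exact (h _ γ a z (C.B14 hz) rfl).continuousAt

/-- an invariant partition of unity with one function -/
structure PU (φ : E → ℝ) : Prop where
  sm : ∀ y, C.SmAt φ y
  nonneg : ∀ y, 0 ≤ φ y
  supp : ∀ y, φ y ≠ 0 → y ∈ C.K₁
  loc : ∀ y, ∃ S : Finset Γ, ∀ᶠ y' in 𝓝 y, ∀ g ∉ S, φ (g⁻¹ • y') = 0
  one : ∀ y, ∑ᶠ g : Γ, φ (g⁻¹ • y) = 1

theorem exists_pu [MeasurableSpace E] (h : JG C) : ∃ φ, PU C φ := by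
  obtain ⟨ψ, h1, h2, h3, h4⟩ := h.pu
  refine ⟨fun y => ∑ a, ψ a y, fun y γ a z hz e => ContDiffAt.sum fun b _ => h1 b y γ a z hz e,
    fun y => Finset.sum_nonneg fun a _ => h2 a y, fun y hy => ?_, fun y => ?_, fun y => ?_⟩
  · obtain ⟨a, -, ha⟩ := Finset.exists_ne_zero_of_sum_ne_zero hy
    exact mem_iUnion.2 ⟨a, image_mono (C.B_sub_cB 1 a) ((h3 a y).1 ha)⟩
  · obtain ⟨S, hS⟩ := h4 y
    exact ⟨S, hS.mono fun y' h g hg => Finset.sum_eq_zero fun a _ => h.1 g hg a⟩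
  · obtain ⟨S, hS⟩ := h4 y
    obtain ⟨h5, h6⟩ := hS.self_of_nhds
    rw [finsum_eq_sum_of_support_subset _ (s := S) fun g hg => by_contra fun hg' =>
      hg (Finset.sum_eq_zero fun a _ => h5 g hg' a), h6]

variable {C} {φ : E → ℝ}

/-- the average of `u` -/
def av (φ : E → ℝ) (u : Γ → ℝ) (y : E) : ℝ := ∑ᶠ g : Γ, φ (g⁻¹ • y) * u g

omit [TopologicalSpace E] in
theorem av_eq (u : Γ → ℝ) {y : E} {S : Finset Γ} (hS : ∀ g ∉ S, φ (g⁻¹ • y) = 0) :
    av φ u y = ∑ g ∈ S, φ (g⁻¹ • y) * u g :=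
  finsum_eq_sum_of_support_subset _ fun g hg => by_contra fun hg' =>
    hg (by simp only [hS g hg', zero_mul])

theorem PU.sum (h : PU C φ) {y : E} {S : Finset Γ} (hS : ∀ g ∉ S, φ (g⁻¹ • y) = 0) :
    ∑ g ∈ S, φ (g⁻¹ • y) = 1 := by
  rw [← h.one y, finsum_eq_sum_of_support_subset _ (s := S) fun g hg => by_contra fun hg' =>
    hg (hS g hg')]

theorem PU.av_sm (h : PU C φ) (u : Γ → ℝ) (y : E) : C.SmAt (av φ u) y := fun γ a z hz e => by
  obtain ⟨S, hS⟩ := h.loc (C.pt γ a z)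
  have h1 : ContDiffAt ℝ ∞ (fun w => ∑ g ∈ S, φ (C.pt (g⁻¹ * γ) a w) * u g) z :=
    ContDiffAt.sum fun g _ => (h.sm _ _ a z hz rfl).mul contDiffAt_const
  refine h1.congr_of_eventuallyEq (((C.ev_pt hz γ).1 hS).mono fun w hw => ?_)
  simp only [av_eq u hw, C.smul_pt]

theorem PU.le_av (h : PU C φ) {u : Γ → ℝ} {y : E} {c : ℝ}
    (hc : ∀ g, φ (g⁻¹ • y) ≠ 0 → c ≤ u g) : c ≤ av φ u y := by
  obtain ⟨S, hS⟩ := h.loc y
  rw [av_eq u hS.self_of_nhds, ← one_mul c, ← h.sum hS.self_of_nhds, Finset.sum_mul]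
  refine Finset.sum_le_sum fun g _ => ?_
  by_cases h0 : φ (g⁻¹ • y) = 0
  · simp only [h0, zero_mul, le_refl]
  · exact mul_le_mul_of_nonneg_left (hc g h0) (h.nonneg _)

theorem PU.av_cpt (h : PU C φ) {u : Γ → ℝ} (hu : ∀ c, {g | u g ≤ c}.Finite) (c : ℝ) :
    IsCompact {y | av φ u y ≤ c} := by
  refine ((hu (c + 1)).isCompact_biUnion fun g _ =>
    C.isCompact_K₁.image (C.cont g)).of_isClosed_subset
    (isClosed_le (cont_of_sm C (h.av_sm u)) continuous_const) fun y hy => ?_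
  by_contra hn
  have := h.le_av (u := u) (y := y) (c := c + 1) fun g hg => (not_le.1 fun h' =>
    hn (mem_biUnion h' ⟨_, h.supp _ hg, smul_inv_smul g y⟩)).le
  have hy' : av φ u y ≤ c := hy
  linarith

/-- the average in a chart of any sheet is a sum over a fixed finite set -/
theorem PU.exists_T (h : PU C φ) : ∃ T : Finset Γ, ∀ (u : Γ → ℝ) γ b, ∀ w ∈ C.B 2 b,
    av φ u (C.pt γ b w) = u γ + ∑ t ∈ T, φ (C.pt t⁻¹ b w) * (u (γ * t) - u γ) := by
  classical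
  have hK : IsCompact (⋃ a, C.pt 1 a '' C.cB 2 a) := isCompact_iUnion fun a =>
    C.isCompact_image_pt 1 (C.isCompact_cB 2 a) (C.cB_sub_B (by norm_num) a)
  refine ⟨(C.proper _ hK).toFinset, fun u γ b w hw => ?_⟩
  set T := (C.proper _ hK).toFinset
  have hT : ∀ t ∉ T, φ (t⁻¹ • C.pt 1 b w) = 0 := fun t ht => by_contra fun h0 => ht
    ((Finite.mem_toFinset _).2 ⟨_, iUnion_mono (fun a => image_mono ((C.cB_sub_B
      (by norm_num) a).trans (C.B_sub_cB 2 a))) (h.supp _ h0),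
      by rw [smul_inv_smul]; exact mem_iUnion.2 ⟨b, w, C.B_sub_cB 2 b hw, rfl⟩⟩)
  have h1 : av φ u (C.pt γ b w) = av φ (fun t => u (γ * t)) (C.pt 1 b w) := by
    rw [av, ← finsum_comp_equiv (Equiv.mulLeft γ)]
    refine finsum_congr fun t => ?_
    simp only [Equiv.coe_mulLeft, C.smul_pt, mul_inv_rev, inv_mul_cancel_right, mul_one]
  have h2 := h.sum hT
  rw [h1, av_eq _ hT]
  simp only [C.smul_pt, mul_one] at h2 ⊢
  simp only [mul_sub, Finset.sum_sub_distrib, ← Finset.sum_mul, h2]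
  ring

theorem PU.grad (h : PU C φ) {u L : Γ → ℝ} (hu : ∀ γ t, |u (γ * t) - u γ| ≤ L t) :
    ∃ M : ℝ, ∀ γ b, ∀ z ∈ C.B 1 b,
      ‖fderiv ℝ (fun w => (av φ u (C.pt γ b w) : ℂ)) z‖ ≤ M := by
  obtain ⟨T, hT⟩ := h.exists_T
  have h4 : ∀ a, C.cB 1 a ⊆ C.B 4 a := C.cB_sub_B (by norm_num)
  have hs : ∀ t b, ∀ z ∈ C.B 4 b, ContDiffAt ℝ ∞ (fun w => (φ (C.pt t b w) : ℂ)) z :=
    fun t b z hz => Complex.ofRealCLM.contDiff.contDiffAt.comp z (h.sm _ t b z hz rfl)
  have hb : ∀ t b, ∃ M : ℝ, ∀ z ∈ C.cB 1 b,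
      ‖fderiv ℝ (fun w => (φ (C.pt t b w) : ℂ)) z‖ ≤ M := fun t b =>
    (C.isCompact_cB 1 b).exists_bound_of_continuousOn fun z hz =>
      ((hs t b z (h4 b hz)).continuousAt_fderiv (by simp)).continuousWithinAt
  choose M hM using hb
  refine ⟨∑ b, |∑ t ∈ T, L t * M t⁻¹ b|, fun γ b z hz => ?_⟩
  have e : (fun w => (av φ u (C.pt γ b w) : ℂ)) =ᶠ[𝓝 z] fun w => (u γ : ℂ) +
      ∑ t ∈ T, (u (γ * t) - u γ) • (φ (C.pt t⁻¹ b w) : ℂ) := by
    filter_upwards [(C.isOpen_B 2 b).mem_nhds (C.B_mono (by norm_num) b hz)] with w hw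
    simp only [hT u γ b w hw, Complex.real_smul, mul_comm]
    push_cast
    rfl
  have hd := (HasFDerivAt.fun_sum (u := T) fun t _ =>
    ((hs t⁻¹ b z (C.B14 hz)).differentiableAt (by simp)).hasFDerivAt.const_smul
      (u (γ * t) - u γ)).const_add (u γ : ℂ)
  rw [(hd.congr_of_eventuallyEq e).fderiv]
  refine (norm_sum_le _ _).trans ((Finset.sum_le_sum fun t _ => ?_).trans ((le_abs_self _).trans
    (Finset.single_le_sum (f := fun b => |∑ t ∈ T, L t * M t⁻¹ b|) (fun _ _ => abs_nonneg _)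
      (Finset.mem_univ b))))
  rw [norm_smul, Real.norm_eq_abs]
  exact mul_le_mul (hu γ t) (hM _ b z (C.B_sub_cB 1 b hz)) (norm_nonneg _)
    ((abs_nonneg _).trans (hu γ t))

end S5a

open S5a in
theorem st5a : St5a := by
  intro n Γ E _ _ _ _ _ _ _ C jg
  obtain ⟨len, h1, h2⟩ := exists_len Γ
  obtain ⟨φ, h⟩ := exists_pu C jg
  have hs := h.av_sm fun g => (len g : ℝ)
  refine ⟨av φ fun g => (len g : ℝ), hs, fun y => h.le_av fun g _ => Nat.cast_nonneg _,
    h.av_cpt fun c => (h2 ⌊c⌋₊).subset fun g hg => Nat.le_floor hg, ?_⟩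
  obtain ⟨M, hM⟩ := h.grad (u := fun g => (len g : ℝ)) (L := fun t => len t + len t⁻¹)
    fun γ t => by
      have e1 : (len (γ * t) : ℝ) ≤ len γ + len t := by exact_mod_cast h1 γ t
      have e2 : (len γ : ℝ) ≤ len (γ * t) + len t⁻¹ := by
        have := h1 (γ * t) t⁻¹
        rw [mul_inv_cancel_right] at this
        exact_mod_cast this
      have e3 : (0 : ℝ) ≤ len t := Nat.cast_nonneg _
      have e4 : (0 : ℝ) ≤ len t⁻¹ := Nat.cast_nonneg _
      exact abs_le.2 ⟨by linarith, by linarith⟩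
  obtain ⟨c, hc⟩ := dom C M
  refine ⟨c, psd_of_B1 C _ (fun y => (jg.cf_om 1 _ univ isOpen_univ
    fun _ _ _ _ _ _ _ => contDiffAt_const).1 y (mem_univ _))
    (fun y => jg.fm_gg _ _ y (hs y) (hs y)) fun γ a z hz => ?_⟩
  have := hc a z hz _ ((norm_dzv _ z).trans (hM γ a z hz))
  rw [← gg_vec] at this
  simpa only [Cov.om, Cov.gg, one_mul, add_zero] using this

end Vale.Agent.P284Z.L
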