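import Vale.Agent.P284Z.L.Spec
import Vale.Agent.P284Z.N.L2
import Vale.Agent.P284Z.F0.Cov
import Vale.Agent.P299.H720.Montel

/-!
# P284Z, block L, 8a: the limit of the solutions
-/

open scoped ContDiff Topology ENNReal
open Filter Set Function Metric MeasureTheory Asymptotics

noncomputable section

namespace Vale.Agent.P284Z.L

open Vale.Agent.P272.K J Vale.Agent.P299.H720

namespace S8a

variable {n p : ℕ}

/-- a sequence along which the limits along a filter are attained -/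
theorem exists_seq {ι W : Type} [Countable ι] [TopologicalSpace W] [SecondCountableTopology W]
    {F : ι → ℕ → W → ℂ} {g : ι → W → ℂ} {U : ι → Set W} (hU : ∀ i, IsOpen (U i)) {l : Filter ℕ}
    [l.NeBot] (hl : l ≤ atTop) (h : ∀ i, TendstoLocallyUniformlyOn (F i) (g i) l (U i)) :
    ∃ u : ℕ → ℕ, Tendsto u atTop atTop ∧
      ∀ i, ∀ w ∈ U i, Tendsto (fun j => F i (u j) w) atTop (𝓝 (g i w)) := by
  let A : ι × TopologicalSpace.countableBasis W × ℕ → Set ℕ := fun q =>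
    {j | ∀ w ∈ q.2.1.1, dist (g q.1 w) (F q.1 j w) < 1 / (q.2.2 + 1 : ℝ)}
  let L : Filter ℕ := atTop ⊓ ⨅ q : {q // A q ∈ l}, 𝓟 (A q.1)
  have hL : l ≤ L := le_inf hl (le_iInf fun q => le_principal_iff.2 q.2)
  have : L.NeBot := neBot_of_le hL
  obtain ⟨u, hu⟩ := L.exists_seq_tendsto
  refine ⟨u, hu.mono_right inf_le_left, fun i w hw => Metric.tendsto_nhds.2 fun ε hε => ?_⟩
  obtain ⟨m, hm⟩ := exists_nat_one_div_lt hε
  obtain ⟨t, ht, h1⟩ := Metric.tendstoLocallyUniformlyOn_iff.1 (h i) (1 / (m + 1 : ℝ))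
    (by positivity) w hw
  rw [(hU i).nhdsWithin_eq hw] at ht
  obtain ⟨b, hb, hwb, hbt⟩ := (TopologicalSpace.isBasis_countableBasis W).mem_nhds_iff.1 ht
  have h2 : A (i, ⟨b, hb⟩, m) ∈ l := h1.mono fun j hj y hy => hj y (hbt hy)
  have h3 : A (i, ⟨b, hb⟩, m) ∈ L :=
    mem_inf_of_right (mem_iInf_of_mem ⟨_, h2⟩ (mem_principal_self _))
  filter_upwards [hu h3] with j hj
  rw [dist_comm]
  exact (hj w hwb).trans hm

theorem tsum_liminf {ι : Type} (a : ℕ → ι → ℝ≥0∞) :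
    ∑' i, liminf (fun j => a j i) atTop ≤ liminf (fun j => ∑' i, a j i) atTop := by
  let _ : MeasurableSpace ι := ⊤
  simp only [← lintegral_count' measurable_from_top]
  exact lintegral_liminf_le fun _ => measurable_from_top

/-- the mean value inequality with a weight -/
theorem mean {G : Cm n → ℂ} {w : Cm n} {ρ m : ℝ} (hρ : 0 < ρ) (hm : 0 ≤ m)
    (hG : DifferentiableOn ℂ G (ball w ρ)) {F : Cm n → ℝ≥0∞} {D : Set (Cm n)} (hD : ball w ρ ⊆ D)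
    (hF : ∀ x ∈ ball w ρ, ENNReal.ofReal (‖G x‖ ^ 2 * m) ≤ F x) {B : ℝ≥0∞} (hB : B < ⊤)
    (h : ∫⁻ x in D, F x ≤ B) :
    ‖G w‖ ^ 2 * m * (ρ ^ (2 * n) * (volume (ball (0 : Cm n) 1)).toReal) ≤ B.toReal := by
  have : (volume : Measure (Cm n)).IsAddHaarMeasure := Measure.pi.isAddHaarMeasure _
  have h1 := N.mean_ball volume (fun c hc => volume_preserving_pi fun _ : Fin n =>
    (rotation (⟨c, mem_sphere_zero_iff_norm.2 hc⟩ : Circle)).measurePreserving) hG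
  have e : ∀ x, ENNReal.ofReal (‖G x‖ ^ 2 * m) = ENNReal.ofReal m * ‖G x‖ₑ ^ 2 := fun x => by
    rw [mul_comm, ENNReal.ofReal_mul hm, ENNReal.ofReal_pow (norm_nonneg _), ofReal_norm]
  have h2 : ENNReal.ofReal m * (‖G w‖ₑ ^ 2 * volume (ball (0 : Cm n) ρ)) ≤ B := by
    refine (mul_le_mul_right h1 _).trans ?_
    rw [← lintegral_const_mul' _ _ ENNReal.ofReal_ne_top]
    exact (setLIntegral_mono' measurableSet_ball fun x hx => e x ▸ hF x hx).trans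
      ((lintegral_mono_set hD).trans h)
  have h3 := ENNReal.toReal_mono hB.ne h2
  rw [← mul_assoc, ← e, Measure.addHaar_ball_of_pos _ _ hρ, ENNReal.toReal_mul, ENNReal.toReal_mul,
    ENNReal.toReal_ofReal (by positivity), ENNReal.toReal_ofReal (by positivity),
    finrank_real_of_complex, Module.finrank_fin_fun] at h3
  exact h3

theorem vol_pos : 0 < (volume (ball (0 : Cm n) 1)).toReal :=
  have : (volume : Measure (Cm n)).IsAddHaarMeasure := Measure.pi.isAddHaarMeasure _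
  ENNReal.toReal_pos (measure_ball_pos volume _ one_pos).ne' measure_ball_lt_top.ne

theorem cont_dd {b : Cm n → Cm p} {z : Cm n} (h : AnalyticAt ℂ b z) (ξ : Fin p → Cm n) :
    ContinuousAt (fun w => dd b w ξ) z :=
  (continuous_id.matrix_det.continuousAt).comp (f := fun w => Matrix.of fun i j =>
    fderiv ℂ b w (ξ j) i) (continuousAt_pi.2 fun i => continuousAt_pi.2 fun _ =>
      (continuous_apply i).continuousAt.comp
        (h.fderiv.continuousAt.clm_apply continuousAt_const))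

theorem exists_frame {b : Cm n → Cm p} {z : Cm n} (h : Surjective (fderiv ℂ b z)) :
    ∃ ξ : Fin p → Cm n, ‖ξ‖ ≤ 1 ∧ dd b z ξ ≠ 0 := by
  choose η hη using fun j : Fin p => h (Pi.single j 1)
  have h0 : 0 < ‖η‖ + 1 := by positivity
  refine ⟨(((‖η‖ + 1)⁻¹ : ℝ) : ℂ) • η, ?_, ?_⟩
  · rw [norm_smul, Complex.norm_real, Real.norm_of_nonneg (by positivity), inv_mul_le_iff₀ h0]
    linarith
  · have e : (Matrix.of fun i j => fderiv ℂ b z (((((‖η‖ + 1)⁻¹ : ℝ) : ℂ) • η) j) i) =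
        (((‖η‖ + 1)⁻¹ : ℝ) : ℂ) • (1 : Matrix (Fin p) (Fin p) ℂ) := by
      ext i j
      simp only [Matrix.of_apply, Pi.smul_apply, map_smul, hη, Matrix.smul_apply, Matrix.one_apply,
        Pi.single_apply]
    rw [dd, e, Matrix.det_smul, Matrix.det_one, mul_one]
    exact pow_ne_zero _ (Complex.ofReal_ne_zero.2 (inv_ne_zero h0.ne'))

variable {Γ E : Type} [Group Γ] [TopologicalSpace E] [MulAction Γ E] [MeasurableSpace E]
  [BorelSpace E] {C : Cov n Γ E} {s : E → Cm p} {O Ω : Set E} {t₀ : Cm p} {R : ℝ}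

omit [BorelSpace E] in
/-- the measure dominates the volume of the chart -/
theorem loc_low (hs : Sub C s O) (H : HM C s O Ω t₀ R) {γ : Γ} {a : C.I} {z : Cm n}
    (hz : z ∈ C.B 1 a) (hO : C.pt γ a z ∈ O) : ∃ r > 0, ∃ c < (⊤ : ℝ≥0∞),
      (∀ w ∈ closedBall z r, w ∈ C.B 4 a ∧ C.pt γ a w ∈ O) ∧ ∀ F : E → ℝ≥0∞,
        (Measurable fun y : O => F y) → ∫⁻ w in ball z r, F (C.pt γ a w) ≤ c * ∫⁻ y : O, F y ∂H.ν := by
  obtain ⟨c, hc, hl⟩ := H.low
  have hz4 := C.B14 hz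
  obtain ⟨ξ, h1, h2⟩ := exists_frame (hs.surj γ a z hz4 hO)
  have h3 := (ENNReal.continuous_pow 2).continuousAt.comp (cont_dd (hs.hol γ a z hz4 hO) ξ).enorm
  set d := ‖ds C s γ a z ξ‖ₑ ^ 2 / 2 with hd
  have d0 : ‖ds C s γ a z ξ‖ₑ ^ 2 ≠ 0 := pow_ne_zero _ (by rwa [Ne, enorm_eq_zero])
  have d1 : ‖ds C s γ a z ξ‖ₑ ^ 2 ≠ ⊤ := ENNReal.pow_ne_top enorm_ne_top
  have d2 : d ≠ 0 := (ENNReal.half_pos d0).ne'
  have d3 : d ≠ ⊤ := ENNReal.div_ne_top d1 two_ne_zero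
  have h4 : ∀ᶠ w in 𝓝 z, d < ‖ds C s γ a w ξ‖ₑ ^ 2 :=
    h3.eventually (lt_mem_nhds (ENNReal.half_lt_self d0 d1))
  obtain ⟨r, hr, h5⟩ := nhds_basis_closedBall.eventually_iff.1 (h4.and
    (((C.isOpen_B 3 a).eventually_mem (C.B_mono (by norm_num) a hz)).and
      ((C.continuousAt_pt hz4 γ).eventually_mem (hs.opn.mem_nhds hO))))
  refine ⟨r, hr, d⁻¹ * c, ENNReal.mul_lt_top (ENNReal.inv_lt_top.2 (pos_iff_ne_zero.2 d2)) hc,
    fun w hw => ⟨C.B_mono (by norm_num) a (h5 hw).2.1, (h5 hw).2.2⟩, fun F hF => ?_⟩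
  rw [mul_assoc, ← ENNReal.mul_le_iff_le_inv d2 d3, ← lintegral_const_mul' _ _ d3]
  refine le_trans ?_ ((ENNReal.le_tsum γ).trans (hl a ξ h1 F hF))
  refine (setLIntegral_mono' measurableSet_ball fun w hw => ?_).trans
    (lintegral_mono_set fun w hw => (h5 (ball_subset_closedBall hw)).2)
  rw [mul_comm]
  exact mul_le_mul_right (h5 (ball_subset_closedBall hw)).1.le _

omit [MeasurableSpace E] [BorelSpace E] in
theorem contOn {W : Type} [NormedAddCommGroup W] [NormedSpace ℂ W] {f : E → W} (h : C.HolOn f O) :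
    ContinuousOn f O := fun _ hy => (Cov.HolOn.continuousAt C h hy).continuousWithinAt

theorem meas_of {F : E → ℝ} (h : ContinuousOn F O) :
    Measurable fun y : O => ENNReal.ofReal (F y) :=
  (continuousOn_iff_continuous_domRestrict.1 h).measurable.ennreal_ofReal

variable {Pf : Cm p → ℂ} {k : ℕ}

/-- the solutions are locally bounded -/
theorem locBdd (hs : Sub C s O) (H : HM C s O Ω t₀ R) (S : SQ C s O Ω t₀ H.ν Pf k) (γ : Γ)
    (a : C.I) : LocBdd atTop (fun j w => S.f j (C.pt γ a w)) (C.B 4 a ∩ C.pt γ a ⁻¹' O) := by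
  have key : ∀ y ∈ O, ∃ M : ℝ, ∀ᶠ q : ℕ × E in atTop ×ˢ 𝓝 y, ‖S.f q.1 q.2‖ ≤ M := by
    intro y hy
    obtain ⟨γ, a, z, hz, rfl⟩ := C.exists_pt y
    obtain ⟨r, hr, c, hc, h1, h2⟩ := loc_low hs H hz hy
    obtain ⟨m, hm, h3⟩ := S.dom.loc (C.pt γ a '' closedBall z r)
      (by rintro _ ⟨w, hw, rfl⟩; exact (h1 w hw).2)
      (C.isCompact_image_pt γ (isCompact_closedBall z r) fun w hw => (h1 w hw).1)
    obtain ⟨B, hB, h4⟩ := S.bd
    have hv := vol_pos (n := n)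
    refine ⟨Real.sqrt ((c * B).toReal /
      (m * ((r / 2) ^ (2 * n) * (volume (ball (0 : Cm n) 1)).toReal))), ?_⟩
    have h5 : ∀ᶠ y in 𝓝 (C.pt γ a z), ∃ w ∈ ball z (r / 2), C.pt γ a w = y := by
      rw [← C.map_pt' (C.B14 hz), eventually_map]
      filter_upwards [ball_mem_nhds z (half_pos hr)] with w hw using ⟨w, hw, rfl⟩
    filter_upwards [(h3.and h4).prod_mk h5]
    rintro ⟨j, _⟩ ⟨⟨k1, k2⟩, w, hw, rfl⟩
    have k3 : ball w (r / 2) ⊆ ball z r := ball_subset_ball' (by linarith [mem_ball.1 hw])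
    have k4 := fun x hx => h1 x (ball_subset_closedBall (k3 hx))
    refine Real.le_sqrt_of_sq_le ?_
    rw [le_div_iff₀ (by positivity), ← mul_assoc]
    refine mean (G := fun w => S.f j (C.pt γ a w)) (half_pos hr) hm.le
      (fun x hx => (S.hol j γ a x (k4 x hx).1 (k4 x hx).2).differentiableAt.differentiableWithinAt)
      k3 (fun x hx => ENNReal.ofReal_le_ofReal (mul_le_mul_of_nonneg_left
        (k1 _ ⟨x, ball_subset_closedBall (k3 hx), rfl⟩) (by positivity)))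
      (ENNReal.mul_lt_top hc hB) ((h2 (fun y => ENNReal.ofReal (‖S.f j y‖ ^ 2 * S.ϖ j y))
        (meas_of (((contOn (S.hol j)).norm.pow 2).mul (S.dom.cont j)))).trans
          (mul_le_mul_right k2 _))
  intro z hz
  obtain ⟨M, hM⟩ := key _ hz.2
  obtain ⟨A, hA, D, hD, h1⟩ := eventually_prod_iff.1 hM
  obtain ⟨r, hr, h2⟩ := Metric.eventually_nhds_iff_ball.1
    (((C.continuousAt_pt hz.1 γ).eventually hD).and
      ((C.isOpen_preimage_pt γ a hs.opn).eventually_mem hz))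
  exact ⟨r, hr, M, hA.mono fun j hj => ⟨fun w hw => (S.hol j γ a w (h2 w hw).2.1
    (h2 w hw).2.2).differentiableAt.differentiableWithinAt, fun w hw => h1 hj (h2 w hw).1⟩⟩

/-- the limit -/
theorem exists_lim [Countable Γ] (hs : Sub C s O) (H : HM C s O Ω t₀ R)
    (S : SQ C s O Ω t₀ H.ν Pf k) : ∃ (f : E → ℂ) (u : ℕ → ℕ), C.HolOn f O ∧ Bas C s f O ∧
      Tendsto u atTop atTop ∧ ∀ y ∈ O, Tendsto (fun j => S.f (u j) y) atTop (𝓝 (f y)) := by
  have hu : (hyperfilter ℕ : Filter ℕ) ≤ atTop := Nat.hyperfilter_le_atTop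
  have hb : ∀ γ a, LocBdd (hyperfilter ℕ : Filter ℕ) (fun j w => S.f j (C.pt γ a w))
      (C.B 4 a ∩ C.pt γ a ⁻¹' O) := fun γ a z hz =>
    let ⟨r, hr, M, h⟩ := locBdd hs H S γ a z hz
    ⟨r, hr, M, hu h⟩
  have ho := fun γ a => C.isOpen_preimage_pt γ a hs.opn
  choose g g1 g2 g3 using fun γ a => montel_full (hyperfilter ℕ) (ho γ a) (hb γ a)
  set f : E → ℂ := fun y => limUnder (hyperfilter ℕ : Filter ℕ) fun j => S.f j y with hf
  have e : ∀ γ a, ∀ z ∈ C.B 4 a ∩ C.pt γ a ⁻¹' O, f (C.pt γ a z) = g γ a z := fun γ a z hz =>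
    (g3 γ a z hz _ tendsto_const_nhds).limUnder_eq
  have e' : ∀ γ a, ∀ z ∈ C.B 4 a ∩ C.pt γ a ⁻¹' O,
      (fun w => f (C.pt γ a w)) =ᶠ[𝓝 z] g γ a := fun γ a z hz =>
    ((ho γ a).eventually_mem hz).mono (e γ a)
  obtain ⟨u, h1, h2⟩ := exists_seq (ι := Γ × C.I) (fun i => ho i.1 i.2) hu fun i => g2 i.1 i.2
  refine ⟨f, u, fun γ a z hz hO => (P268.analyticOnNhd_of_differentiableOn (ho γ a) (g1 γ a) z
    ⟨hz, hO⟩).congr (e' γ a z ⟨hz, hO⟩).symm, fun γ a z hz hO ξ hξ => ?_, h1, fun y hy => ?_⟩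
  · rw [(e' γ a z ⟨hz, hO⟩).fderiv_eq]
    have h3 := ((ContinuousLinearMap.apply ℂ ℂ ξ).continuous.tendsto _).comp
      (montel_fderiv (ho γ a) (hb γ a) (g1 γ a) (g2 γ a) ⟨hz, hO⟩ tendsto_const_nhds)
    exact tendsto_nhds_unique h3 (tendsto_const_nhds.congr fun j => (S.bas j γ a z hz hO ξ hξ).symm)
  · obtain ⟨γ, a, z, hz, rfl⟩ := C.exists_pt y
    rw [e γ a z ⟨C.B14 hz, hy⟩]
    exact h2 (γ, a) z ⟨C.B14 hz, hy⟩

/-- the `L²` bound of the limit -/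
theorem l2 (hs : Sub C s O) (H : HM C s O Ω t₀ R) (S : SQ C s O Ω t₀ H.ν Pf k) {f : E → ℂ}
    {u : ℕ → ℕ} (hu : Tendsto u atTop atTop)
    (hf : ∀ y ∈ O, Tendsto (fun j => S.f (u j) y) atTop (𝓝 (f y))) :
    ∃ B < (⊤ : ℝ≥0∞), ∀ a (ξ : Fin p → Cm n), ‖ξ‖ ≤ 1 →
      ∑' γ : Γ, ∫⁻ z in {z ∈ C.B 3 a | C.pt γ a z ∈ O},
        ‖f (C.pt γ a z) * ds C s γ a z ξ ^ (k + 1)‖ₑ ^ 2 ≤ B := by
  obtain ⟨c, hc, hl⟩ := H.low
  obtain ⟨B, hB, h1⟩ := S.bd
  obtain ⟨m, hm, h2⟩ := S.dom.low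
  have m0 : ENNReal.ofReal m ≠ 0 := (ENNReal.ofReal_pos.2 hm).ne'
  refine ⟨(ENNReal.ofReal m)⁻¹ * (c * B), ENNReal.mul_lt_top
    (ENNReal.inv_lt_top.2 (pos_iff_ne_zero.2 m0)) (ENNReal.mul_lt_top hc hB), fun a ξ hξ => ?_⟩
  rw [← ENNReal.mul_le_iff_le_inv m0 ENNReal.ofReal_ne_top, ← ENNReal.tsum_mul_left]
  have hc' : ∀ j, ContinuousOn (fun y => ‖S.f j y‖ ^ 2 * S.ϖ j y) O := fun j =>
    ((contOn (S.hol j)).norm.pow 2).mul (S.dom.cont j)
  refine le_trans (ENNReal.tsum_le_tsum fun γ => ?_) ((tsum_liminf fun j γ =>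
    ∫⁻ z in {z ∈ C.B 3 a | C.pt γ a z ∈ O}, ENNReal.ofReal (‖S.f (u j) (C.pt γ a z)‖ ^ 2 *
      S.ϖ (u j) (C.pt γ a z)) * ‖ds C s γ a z ξ‖ₑ ^ 2).trans
    (liminf_le_of_frequently_le' (Eventually.frequently ?_)))
  swap
  · filter_upwards [hu.eventually h1] with j hj
    exact (hl a ξ hξ (fun y => ENNReal.ofReal (‖S.f (u j) y‖ ^ 2 * S.ϖ (u j) y))
      (meas_of (hc' (u j)))).trans (mul_le_mul_right hj _)
  have h4 : ∀ z ∈ {z ∈ C.B 3 a | C.pt γ a z ∈ O}, z ∈ C.B 4 a := fun z hz =>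
    C.B_mono (by norm_num) a hz.1
  have ho : IsOpen {z ∈ C.B 3 a | C.pt γ a z ∈ O} :=
    ((C.continuousOn_pt γ a).mono (C.B_mono (by norm_num) a)).isOpen_inter_preimage
      (C.isOpen_B 3 a) hs.opn
  rw [← lintegral_const_mul' _ _ ENNReal.ofReal_ne_top]
  refine le_trans (setLIntegral_mono' ho.measurableSet fun z hz => ?_)
    (lintegral_liminf_le' fun j => ?_)
  · have k1 : Tendsto (fun j => ENNReal.ofReal (‖S.f (u j) (C.pt γ a z)‖ ^ 2 *
        (m * ‖ds C s γ a z ξ‖ ^ (2 * k)) * ‖ds C s γ a z ξ‖ ^ 2)) atTop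
        (𝓝 (ENNReal.ofReal (‖f (C.pt γ a z)‖ ^ 2 * (m * ‖ds C s γ a z ξ‖ ^ (2 * k)) *
          ‖ds C s γ a z ξ‖ ^ 2))) :=
      ENNReal.tendsto_ofReal ((((hf _ hz.2).norm.pow 2).mul_const _).mul_const _)
    refine le_trans (le_of_eq ?_) (k1.liminf_eq.symm.le.trans (liminf_le_liminf ?_))
    · rw [← ofReal_norm, ← ENNReal.ofReal_pow (norm_nonneg _), ← ENNReal.ofReal_mul hm.le,
        norm_mul, norm_pow]
      congr 1
      ring
    · filter_upwards [hu.eventually (h2 γ a z hz.1 hz.2 ξ hξ)] with j hj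
      rw [ENNReal.ofReal_mul (by positivity), ENNReal.ofReal_pow (norm_nonneg (ds C s γ a z ξ)) 2,
        ofReal_norm]
      exact mul_le_mul_left (ENNReal.ofReal_le_ofReal
        (mul_le_mul_of_nonneg_left hj (by positivity))) _
  · refine (((hc' (u j)).comp ((C.continuousOn_pt γ a).mono h4) fun z hz => hz.2).aemeasurable
      ho.measurableSet).ennreal_ofReal.mul ((ContinuousOn.aemeasurable (fun z hz => ?_)
        ho.measurableSet).enorm.pow_const 2)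
    exact (cont_dd (hs.hol γ a z (h4 z hz) hz.2) ξ).continuousWithinAt

theorem nsq_le (x : Cm p) : nsq x ≤ p * ‖x‖ ^ 2 := by
  have h := Finset.sum_le_card_nsmul Finset.univ (fun b => ‖x b‖ ^ 2) (‖x‖ ^ 2)
    fun b _ => pow_le_pow_left₀ (norm_nonneg _) (norm_le_pi_norm x b) 2
  rwa [Finset.card_univ, Fintype.card_fin, nsmul_eq_mul] at h

theorem nsq_nonneg (x : Cm p) : 0 ≤ nsq x := Finset.sum_nonneg fun _ _ => by positivity

theorem cont_pw (j : ℕ) : Continuous (pw n t₀ j) := by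
  refine Continuous.inv₀ (by unfold nsq; fun_prop) fun t => ?_
  have := nsq_nonneg (t - t₀)
  positivity

/-- the limit has contact of order two with the model -/
theorem contact {a₀ : C.I} {z₀ : Cm n} (hz : z₀ ∈ C.B 1 a₀) (hΩ : C.pt 1 a₀ z₀ ∈ Ω) (hs : Sub C s O)
    (ht : Tb s O Ω (s (C.pt 1 a₀ z₀)) R) (H : HM C s O Ω (s (C.pt 1 a₀ z₀)) R)
    (hP : Differentiable ℂ Pf) (S : SQ C s O Ω (s (C.pt 1 a₀ z₀)) H.ν Pf k) {f : E → ℂ}
    {u : ℕ → ℕ} (hu : Tendsto u atTop atTop)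
    (hf : ∀ y ∈ O, Tendsto (fun j => S.f (u j) y) atTop (𝓝 (f y))) :
    ∃ r > 0, ∃ K : ℝ, ∀ ρ, 0 < ρ → ρ ≤ r → ∀ w, ‖w - z₀‖ ≤ ρ →
      ‖f (C.pt 1 a₀ w) - Pf (s (C.pt 1 a₀ w))‖ ^ 2 ≤ K * ρ ^ 4 := by
  have hO := ht.sub hΩ
  have hz4 := C.B14 hz
  obtain ⟨r, hr, c, hc, h1, h2⟩ := loc_low hs H hz hO
  obtain ⟨R₂, hR, B, hB, h3⟩ := S.pole
  have hsa := hs.hol 1 a₀ z₀ hz4 hO
  obtain ⟨K, hK, h4⟩ := hsa.differentiableAt.isBigO_sub.exists_pos
  obtain ⟨r', hr', h5⟩ := Metric.eventually_nhds_iff_ball.1 (h4.bound.and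
    (((C.continuousAt_pt hz4 1).eventually_mem (ht.opn.mem_nhds hΩ)).and
      (hsa.continuousAt.eventually_mem (ball_mem_nhds _ hR))))
  have hv := vol_pos (n := n)
  set v := (volume (ball (0 : Cm n) 1)).toReal
  have hm : MeasurableSet {y : O | y.1 ∈ Ω ∧ s y ∈ ball (s (C.pt 1 a₀ z₀)) R₂} :=
    ((ht.opn.preimage continuous_subtype_val).inter (isOpen_ball.preimage
      (continuousOn_iff_continuous_domRestrict.1 (contOn hs.hol)))).measurableSet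
  refine ⟨min r r' / 2, by positivity, (c * B).toReal * (4 * p * K ^ 2) ^ (n + 2) / v,
    fun ρ hρ hρ' w hw => ?_⟩
  have k1 : ∀ x ∈ ball w ρ, ‖x - z₀‖ < 2 * ρ := fun x hx => by
    have := dist_triangle x w z₀
    rw [dist_eq_norm x z₀, dist_eq_norm w z₀] at this
    linarith [mem_ball.1 hx]
  have k2 : ball w ρ ⊆ ball z₀ r := fun x hx => mem_ball_iff_norm.2 (by
    linarith [k1 x hx, min_le_left r r'])
  have k3 := fun x hx => h5 x (mem_ball_iff_norm.2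
    (by linarith [k1 x hx, min_le_right r r'] : ‖x - z₀‖ < r'))
  have k4 := fun x hx => h1 x (ball_subset_closedBall (k2 hx))
  have k5 : ∀ᶠ j in atTop, ‖S.f j (C.pt 1 a₀ w) - Pf (s (C.pt 1 a₀ w))‖ ^ 2 * (ρ ^ (2 * n) * v) ≤
      (c * B).toReal * (4 * p * K ^ 2 * ρ ^ 2 + 1 / (j + 1 : ℝ)) ^ (n + 2) := by
    filter_upwards [h3] with j hj
    have k6 : 0 < (4 * p * K ^ 2 * ρ ^ 2 + 1 / (j + 1 : ℝ)) ^ (n + 2) := by positivity
    rw [← mul_inv_le_iff₀ k6, mul_right_comm]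
    have k7 : ContinuousOn (fun y => ‖S.f j y - Pf (s y)‖ ^ 2 * pw n (s (C.pt 1 a₀ z₀)) j (s y))
        O := (((contOn (S.hol j)).sub (hP.continuous.comp_continuousOn
          (contOn hs.hol))).norm.pow 2).mul ((cont_pw j).comp_continuousOn (contOn hs.hol))
    refine mean (G := fun w => S.f j (C.pt 1 a₀ w) - Pf (s (C.pt 1 a₀ w))) hρ (inv_pos.2 k6).le
      (fun x hx => ((S.hol j 1 a₀ x (k4 x hx).1 (k4 x hx).2).differentiableAt.sub
        ((hP _).comp x (hs.hol 1 a₀ x (k4 x hx).1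
          (k4 x hx).2).differentiableAt)).differentiableWithinAt) k2 (fun x hx => ?_)
      (ENNReal.mul_lt_top hc hB) ((h2 (indicator {y | y ∈ Ω ∧ s y ∈ ball (s (C.pt 1 a₀ z₀)) R₂}
        fun y => ENNReal.ofReal (‖S.f j y - Pf (s y)‖ ^ 2 * pw n (s (C.pt 1 a₀ z₀)) j (s y)))
        ((meas_of k7).indicator hm)).trans
          (mul_le_mul_right ((lintegral_indicator hm _).trans_le hj) _))
    rw [indicator_of_mem (s := {y | y ∈ Ω ∧ s y ∈ ball (s (C.pt 1 a₀ z₀)) R₂}) (k3 x hx).2]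
    refine ENNReal.ofReal_le_ofReal (mul_le_mul_of_nonneg_left ?_ (by positivity))
    have k8 := nsq_nonneg (s (C.pt 1 a₀ x) - s (C.pt 1 a₀ z₀))
    refine inv_anti₀ (by positivity) (pow_le_pow_left₀ (by positivity) ?_ _)
    have k9 : ‖s (C.pt 1 a₀ x) - s (C.pt 1 a₀ z₀)‖ ≤ K * (2 * ρ) :=
      (k3 x hx).1.trans (mul_le_mul_of_nonneg_left (k1 x hx).le hK.le)
    have k10 := (nsq_le _).trans (mul_le_mul_of_nonneg_left
      (pow_le_pow_left₀ (norm_nonneg _) k9 2) (Nat.cast_nonneg p))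
    linarith
  have k6 := le_of_tendsto_of_tendsto
    (((((hf _ (k4 w (mem_ball_self hρ)).2).sub_const _).norm.pow 2)).mul_const _)
    ((((tendsto_one_div_add_atTop_nhds_zero_nat (𝕜 := ℝ).comp hu).const_add _).pow
      (n + 2)).const_mul _) (hu.eventually k5)
  rw [div_mul_eq_mul_div, le_div_iff₀ hv]
  refine le_of_mul_le_mul_right ?_ (pow_pos hρ (2 * n))
  refine (le_of_eq (by ring)).trans (k6.trans (le_of_eq ?_))
  rw [add_zero, mul_pow _ (ρ ^ 2)]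
  ring

/-- contact of order two -/
theorem jet_eq {h : Cm n → ℂ} {z₀ : Cm n} {r K : ℝ} (hr : 0 < r)
    (hb : ∀ ρ, 0 < ρ → ρ ≤ r → ∀ w, ‖w - z₀‖ ≤ ρ → ‖h w‖ ^ 2 ≤ K * ρ ^ 4) :
    h z₀ = 0 ∧ HasFDerivAt h (0 : Cm n →L[ℂ] ℂ) z₀ := by
  have h0 : h z₀ = 0 := by
    have h1 : Tendsto (fun ρ : ℝ => K * ρ ^ 4) (𝓝[>] 0) (𝓝 0) := by
      have : Continuous fun ρ : ℝ => K * ρ ^ 4 := by fun_prop
      simpa using (this.tendsto 0).mono_left nhdsWithin_le_nhds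
    have h2 : ‖h z₀‖ ^ 2 ≤ 0 := ge_of_tendsto h1 (by
      filter_upwards [Ioc_mem_nhdsGT hr] with ρ hρ
      exact hb ρ hρ.1 hρ.2 z₀ (by simpa using hρ.1.le))
    exact norm_eq_zero.1 (pow_eq_zero_iff two_ne_zero |>.1 (le_antisymm h2 (by positivity)))
  refine ⟨h0, hasFDerivAt_iff_isLittleO_nhds_zero.2 ?_⟩
  refine IsBigO.trans_isLittleO (IsBigO.of_bound (Real.sqrt |K|) ?_)
    (isLittleO_norm_pow_id (n := 2) one_lt_two)
  filter_upwards [closedBall_mem_nhds (0 : Cm n) hr] with v hv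
  rw [h0, sub_zero, _root_.zero_apply, sub_zero, Real.norm_of_nonneg (by positivity)]
  rcases eq_or_ne v 0 with rfl | h1
  · simp [h0]
  · refine (pow_le_pow_iff_left₀ (norm_nonneg _) (by positivity) two_ne_zero).1 ?_
    refine (hb ‖v‖ (norm_pos_iff.2 h1) (mem_closedBall_zero_iff.1 hv) (z₀ + v) (by simp)).trans ?_
    rw [mul_pow, Real.sq_sqrt (abs_nonneg K), ← pow_mul]
    exact mul_le_mul_of_nonneg_right (le_abs_self K) (by positivity)

end S8a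

open S8a in
theorem st8a : St8a := by
  intro n p Γ E _ _ _ _ _ _ _ C s O Ω R a₀ z₀ hz hΩ hs ht H Pf k hP S
  obtain ⟨f, u, h1, h2, h3, h4⟩ := exists_lim hs H S
  obtain ⟨r, hr, K, h5⟩ := contact hz hΩ hs ht H hP S h3 h4
  obtain ⟨h6, h7⟩ := jet_eq (h := fun w => f (C.pt 1 a₀ w) - Pf (s (C.pt 1 a₀ w))) hr h5
  refine ⟨⟨f, h1, h2, l2 hs H S h3 h4, sub_eq_zero.1 h6, ?_⟩⟩
  have h8 := ((hP _).comp z₀ (hs.hol 1 a₀ z₀ (C.B14 hz) (ht.sub hΩ)).differentiableAt).hasFDerivAt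
  have h9 := (h7.add h8).fderiv
  rw [zero_add] at h9
  exact (congrArg (fun g => fderiv ℂ g z₀) (funext fun w => (sub_add_cancel _ _).symm)).trans h9

end Vale.Agent.P284Z.L
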