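import Vale.Agent.P284Z.L.S7a.Wts

/-!
# P284Z, block L7a: the gluing
-/

set_option linter.all false

open scoped ContDiff Topology ComplexOrder ComplexConjugate
open Filter Set Function Metric

noncomputable section

namespace Vale.Agent.P284Z.L

open Vale.Agent.P272.K J Real K

namespace S7a

variable {n p : ℕ} {Γ E : Type} [Group Γ] [TopologicalSpace E] [MulAction Γ E] {C : Cov n Γ E}
  {s : E → Cm p} {O Ω : Set E} {t₀ : Cm p} {R c K : ℝ} {W : WD C s O Ω t₀ R c K} {j : ℕ} {y : E}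

theorem dom (jb : JB) (hc : 0 < c) (hs : Sub C s O) {k : ℕ} (hk : k ≠ 0) :
    Dom C s O k fun j y => exp (-Fr W j (k * (p + 1)) y) := by
  have hN : (0 : ℝ) ≤ k * (p + 1) := by positivity
  refine ⟨fun j y hy => (gd_Fr jb hs hN hy).cont.neg.rexp.continuousWithinAt,
    fun _ _ _ => (exp_pos _).le, fun K' hK hK' => ?_, ?_⟩
  · obtain ⟨M', hM⟩ := W.loc K' hK hK'
    obtain ⟨A, hA⟩ := hK'.exists_bound_of_continuousOn fun y hy =>
      (gd_log W.r_wt (hK hy) (W.r_pos y (hK hy))).cont.continuousWithinAt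
    obtain ⟨A', hA'⟩ := hK'.exists_bound_of_continuousOn fun y hy =>
      (gd_comp jb hs (hK hy) (sp_nsq jb t₀ _)).cont.continuousWithinAt
    refine ⟨exp (-(k * (p + 1) * (max A M' + 1) + A')), exp_pos _, .of_forall fun j y hy =>
      exp_le_exp.2 (neg_le_neg (add_le_add (mul_le_mul_of_nonneg_left (tr_le ?_ fun h => ?_) hN)
        ((mul_le_of_le_one_left (nsq_nonneg _) (rh_le j)).trans
          ((le_abs_self _).trans (hA' y hy)))))⟩
    · exact (add_le_of_nonpos_right (mul_nonpos_of_nonneg_of_nonpos (half_pos hc).le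
        (log_nonpos (rh_pos j).le (rh_le j)))).trans
        (le_max_of_le_left ((le_abs_self _).trans (hA y hy)))
    · exact le_max_of_le_right ((log_le_self h.le).trans (hM j y hy))
  · obtain ⟨M', hM⟩ := W.up
    refine ⟨exp (-(k * (p + 1) * (M' + 1) + 1)), exp_pos _, fun γ a z hz hy ξ hξ => ?_⟩
    rcases (norm_nonneg (ds C s γ a z ξ)).eq_or_lt with h0 | h0
    · exact .of_forall fun j => by
        rw [← h0, zero_pow (by omega), mul_zero]
        exact (exp_pos _).le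
    have h1 : Tendsto (fun j => el W j (C.pt γ a z)) atTop atBot :=
      tendsto_atBot_add_const_left _ _ ((tendsto_log_nhdsGT_zero.comp
        (tendsto_nhdsWithin_iff.2 ⟨rh_tend, .of_forall rh_pos⟩)).const_mul_atBot (half_pos hc))
    filter_upwards [hM γ a z hz hy ξ hξ, h1.eventually (eventually_le_atBot
      (M' - 2 / (p + 1) * log ‖ds C s γ a z ξ‖)), (rh_tend.mul_const
        (nsq (s (C.pt γ a z) - t₀))).eventually (ge_mem_nhds (by simp : _ < (1 : ℝ)))]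
      with j h2 h3 h4
    have h5 : Fq W j (C.pt γ a z) ≤ M' - 2 / (p + 1) * log ‖ds C s γ a z ξ‖ + 1 :=
      tr_le h3 fun h => by
        have := (log_le_self (mul_pos h (rpow_pos_of_pos h0 _)).le).trans h2
        rw [log_mul h.ne' (rpow_pos_of_pos h0 _).ne', log_rpow h0] at this
        linarith
    have h6 : (k : ℝ) * (p + 1) * (2 / (p + 1) * log ‖ds C s γ a z ξ‖) =
        ((2 * k : ℕ) : ℝ) * log ‖ds C s γ a z ξ‖ := by
      push_cast
      field_simp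
    rw [← exp_log (pow_pos h0 (2 * k)), log_pow, ← exp_add]
    refine exp_le_exp.2 ?_
    unfold Fr
    linarith [mul_le_mul_of_nonneg_left h5 hN]

theorem bd {x A e X f : ℝ} (hx : x ≤ A) (h0 : 0 ≤ A) (h : e ≤ X + f) :
    x * exp e ≤ A * exp X * exp f := by
  rw [mul_assoc, ← exp_add]
  exact mul_le_mul hx (exp_le_exp.2 h) (exp_pos _).le h0

theorem nrm {t P : ℝ} {x : ℂ} (h : |t| ≤ 1) (hx : ‖x‖ ≤ P) : ‖(t : ℂ) * x‖ ^ 2 ≤ P ^ 2 := by
  refine pow_le_pow_left₀ (norm_nonneg _) ?_ 2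
  rw [norm_mul, Complex.norm_real]
  exact (mul_le_of_le_one_left (norm_nonneg _) h).trans hx

theorem pw_eq (hc : 0 < c) : pw n t₀ j (s y) = exp (-(4 * (n + 2) / c * nu W j y)) := by
  have h : 4 * (n + 2) / c * nu W j y = ((n + 2 : ℕ) : ℝ) * log (nsq (s y - t₀) + rh j) := by
    unfold nu
    push_cast
    field_simp
  rw [h, exp_neg, ← log_pow, exp_log (pow_pos n2_pos _)]
  rfl

variable (W) in
/-- a constant which bounds all the exponents -/
def X₀ (N : ℝ) : ℝ := N * (8 * log W.M + 12 + 2 * S₀ W) + p * W.R₂ ^ 2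

variable {l μ : ℝ}

theorem est_out (hc : 0 < c) (hT : Tb s O Ω t₀ R) (hj : Gj W j) (hl : 0 ≤ l) (hμ : 0 ≤ μ)
    (hy : y ∈ O) : -Fr W j (l + μ) y ≤ X₀ W (l + μ) + -ps W j l μ y := by
  have h1 : Fm W j y ≤ Fq W j y + 1 + 1 + 1 := gl_le (Fw_le_Fq hj hy) fun h => by
    unfold Fi
    linarith [Fq_le (j := j) hc hT h, nu_le (j := j) hc h]
  have h2 : 0 ≤ 8 * log W.M + 9 + 2 * S₀ W := by linarith [logM W, S₀_nonneg W hc]
  unfold X₀ ps Fr
  linarith [mul_le_mul_of_nonneg_left h1 hl, mul_nonneg hl h2, mul_nonneg hμ h2,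
    mul_nonneg (p.cast_nonneg (α := ℝ)) (sq_nonneg W.R₂)]

theorem est_in (hc : 0 < c) (hT : Tb s O Ω t₀ R) (hj : Gj W j) (hl : 0 ≤ l) (hμ : 0 ≤ μ)
    (hy : y ∈ In W) : -(l * nu W j y) ≤ X₀ W (l + μ) + -ps W j l μ y ∧
      -ps W j l μ y ≤ (l + μ) * (log W.M - c / 2 * log (rh j)) ∧ (0 < W.q j y →
      -Fr W j (l + μ) y ≤ X₀ W (l + μ) + log (W.q j y) * -(8 * (l + μ)) ∧
      (Fi W j y - Fw W j y ≤ 1 →
        -ps W j l μ y ≤ X₀ W (l + μ) + log (W.q j y) * -(8 * (l + μ)) ∧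
        -(l * nu W j y) ≤ X₀ W (l + μ) + log (W.q j y) * -(8 * (l + μ)))) := by
  have h1 := Fq_le (j := j) hc hT hy
  have h2 := nu_le (j := j) hc hy
  have h3 := Fw_le hc hT hj hy
  have h4 : Fi W j y = 4 * Fq W j y + nu W j y + -(3 * log W.M + 5 + S₀ W) := rfl
  have h5 := logM W
  have h6 := S₀_nonneg W hc
  have h7 : Fm W j y ≤ nu W j y + log W.M + 1 + S₀ W + 1 :=
    gl_le (by linarith) fun _ => by linarith
  have h8 : Fw W j y ≤ Fm W j y := left_le_gl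
  have h9 : Fi W j y ≤ Fm W j y := right_le_gl hy
  have e0 := mul_nonneg (rh_pos j).le (nsq_nonneg (s y - t₀))
  have e1 := (mul_le_of_le_one_left (nsq_nonneg _) (rh_le j)).trans (nsq_in hy)
  have e2 : -log W.M + c / 2 * log (rh j) ≤ el W j y :=
    add_le_add_left (abs_le.1 (logr hT hy)).1 _
  have e3 : el W j y ≤ Fw W j y := le_tr
  have e4 : el W j y ≤ Fq W j y := le_tr
  have lin : ∀ {x x' : ℝ}, x ≤ 0 → x' ≤ 0 → l * x + μ * x' ≤ 0 := fun h h' =>
    add_nonpos (mul_nonpos_of_nonneg_of_nonpos hl h) (mul_nonpos_of_nonneg_of_nonpos hμ h')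
  unfold X₀ ps Fr
  refine ⟨?_, ?_, fun h => ?_⟩
  · linarith [lin (x := Fm W j y - nu W j y - (8 * log W.M + 12 + 2 * S₀ W))
      (x' := Fq W j y - (8 * log W.M + 12 + 2 * S₀ W)) (by linarith) (by linarith)]
  · linarith [lin (x := -Fm W j y - (log W.M - c / 2 * log (rh j)))
      (x' := -Fq W j y - (log W.M - c / 2 * log (rh j))) (by linarith) (by linarith)]
  have e5 : log (W.q j y) ≤ Fq W j y := log_le_tr (hT.sub hy.1) h
  have e6 : 8 * log (W.q j y) - Fq W j y - (8 * log W.M + 12 + 2 * S₀ W) ≤ 0 := by linarith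
  refine ⟨by linarith [lin e6 e6], fun h' => ⟨?_, ?_⟩⟩
  · linarith [lin (x := 8 * log (W.q j y) - Fm W j y - (8 * log W.M + 12 + 2 * S₀ W))
      (by linarith) e6]
  · linarith [lin (x := 8 * log (W.q j y) - nu W j y - (8 * log W.M + 12 + 2 * S₀ W))
      (x' := 8 * log (W.q j y) - (8 * log W.M + 12 + 2 * S₀ W)) (by linarith) (by linarith)]

end S7a

open S7a in
theorem st7a : St7a := fun jb n p c hc => by
  obtain ⟨l, hl, el⟩ : ∃ l : ℝ, 0 < l ∧ l = 4 * (n + 2) / c := ⟨_, by positivity, rfl⟩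
  obtain ⟨μ, eN⟩ : ∃ μ : ℝ, (⌈l⌉₊ : ℝ) * (p + 1) = l + μ := ⟨_, (add_sub_cancel _ _).symm⟩
  have hμ : 0 ≤ μ := by
    linarith [Nat.le_ceil l, mul_nonneg (⌈l⌉₊.cast_nonneg (α := ℝ)) (p.cast_nonneg (α := ℝ))]
  refine ⟨⌈l⌉₊, 8 * (l + μ), by positivity, fun Γ E _ _ _ _ C s O Ω t₀ R hs hT W Pf hP => ?_⟩
  obtain ⟨P, hP₀⟩ := (isCompact_closedBall t₀ W.R₂).exists_bound_of_continuousOn
    hP.continuous.continuousOn
  have hP₁ : ∀ y ∈ In W, ‖Pf (s y)‖ ≤ P := fun y hy => hP₀ _ (ball_subset_closedBall hy.2)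
  obtain ⟨A, hA, hA'⟩ := G''_bd
  obtain ⟨A₀, h1, h2, h3⟩ : ∃ A₀ : ℝ, 1 ≤ A₀ ∧ P ^ 2 ≤ A₀ ∧ A * P ^ 2 / l ≤ A₀ :=
    ⟨max 1 (max _ _), le_max_left _ _, le_max_of_le_right (le_max_left _ _),
      le_max_of_le_right (le_max_right _ _)⟩
  have h0 := zero_le_one.trans h1
  have hg : ∀ j, ∀ y ∈ In W, ‖gc W j Pf y‖ ^ 2 ≤ A₀ := fun j y hy => by
    rw [gc, indicator_of_mem hy]
    exact (nrm (abs_le.2 ⟨by linarith [G'_nonneg (Fi W j y - Fw W j y)], G'_le _⟩)
      (hP₁ y hy)).trans h2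
  have hd := dom (W := W) jb hc hs (Nat.ceil_pos.2 hl).ne'
  rw [eN] at hd
  refine ⟨⟨fun j => ps W j l μ, fun j => gc W j Pf, fun j => La W j l Pf,
    fun j y => exp (-Fr W j (l + μ) y), hd,
    A₀ * exp (X₀ W (l + μ)), (ev_gj W).mono fun j hj => dat jb hc hs hT hj hl hμ hP,
    fun j y _ h => ⟨indicator_of_notMem (s := In W) h _, indicator_of_notMem (s := In W) h _⟩,
    (ev_gj W).mono fun j hj => ⟨_, fun y a b => mul_le_mul (hg j y ⟨a, b⟩)
      (exp_le_exp.2 (est_in hc hT hj hl.le hμ ⟨a, b⟩).2.1) (exp_pos _).le h0⟩,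
    (ev_gj W).mono fun j hj y hy => (one_mul _).symm.trans_le
      (bd h1 h0 (est_out hc hT hj hl.le hμ hy)),
    (ev_gj W).mono fun j hj y a b => ?_, (ev_gj W).mono fun j hj y a b hq => ?_⟩⟩
  · rw [pw_eq (W := W) hc, ← el]
    exact (one_mul _).symm.trans_le (bd h1 h0 (est_in hc hT hj hl.le hμ ⟨a, b⟩).1)
  have hy : y ∈ In W := ⟨a, b⟩
  obtain ⟨k1, k2⟩ := (est_in hc hT hj hl.le hμ hy).2.2 hq
  rw [rpow_def_of_pos hq, pw_eq (W := W) hc, ← el]
  simp only [La, gc, indicator_of_mem hy] at hg ⊢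
  rcases le_or_gt (Fi W j y - Fw W j y) 1 with h | h
  · refine ⟨bd ((div_le_div_of_nonneg_right (mul_le_mul (hA' _) (pow_le_pow_left₀ (norm_nonneg _)
      (hP₁ y hy) 2) (sq_nonneg _) hA) hl.le).trans h3) h0 (k2 h).1, bd ?_ h0 k1, bd ?_ h0 (k2 h).2⟩
    · simpa only [indicator_of_mem hy] using hg j y hy
    · rw [← sub_one_mul, ← Complex.ofReal_one, ← Complex.ofReal_sub]
      exact (nrm (abs_le.2 ⟨by linarith [G'_nonneg (Fi W j y - Fw W j y)],
        by linarith [G'_le (Fi W j y - Fw W j y)]⟩) (hP₁ y hy)).trans h2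
  · refine ⟨?_, bd (by simpa only [indicator_of_mem hy] using hg j y hy) h0 k1, ?_⟩
    · rw [G''_zero fun e => e.2.not_gt h, zero_mul, zero_div, zero_mul]
      positivity
    · rw [G'_one h.le, Complex.ofReal_one, one_mul, sub_self, norm_zero, zero_pow two_ne_zero,
        zero_mul]
      positivity

end Vale.Agent.P284Z.L
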