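import Vale.Agent.P284Z.L.Spec
import Vale.Agent.P284Z.F0.Cov.Ch

/-!
# P284Z, block L: the integral estimates for the solutions at level `j`
-/

open scoped Topology ENNReal
open Filter Set Metric MeasureTheory

noncomputable section

namespace Vale.Agent.P284Z.L

open Vale.Agent.P272.K Vale.Agent.P284.H608.K J

namespace S7b

theorem le_q {B K q x : ℝ} (hK : 0 < K) (hq : 0 ≤ q) (h : 0 < q → x ≤ B * q ^ (-K)) :
    ENNReal.ofReal x ≤ (ENNReal.ofReal B + 1) * ENNReal.ofReal q ^ (-K) := by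
  rcases hq.eq_or_lt with rfl | hq
  · rw [ENNReal.ofReal_zero, ENNReal.zero_rpow_of_neg (neg_neg_of_pos hK),
      ENNReal.mul_top (by simp)]
    exact le_top
  · refine (ENNReal.ofReal_le_ofReal (h hq)).trans ?_
    rw [ENNReal.ofReal_mul' (Real.rpow_nonneg hq.le _), ENNReal.ofReal_rpow_of_pos hq]
    exact mul_le_mul_left le_self_add _

theorem split {B ϖ e : ℝ} (a b c : ℂ) (h0 : 0 ≤ ϖ) (he : 0 ≤ e) (h : ϖ ≤ B * e) :
    ENNReal.ofReal (‖a - c‖ ^ 2 * ϖ) ≤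
      2 * (ENNReal.ofReal B + 1) * ENNReal.ofReal (‖a - b‖ ^ 2 * e) +
        2 * ENNReal.ofReal (‖b - c‖ ^ 2 * ϖ) := by
  have h1 : ‖a - c‖ ^ 2 ≤ 2 * ‖a - b‖ ^ 2 + 2 * ‖b - c‖ ^ 2 := by
    have := pow_le_pow_left₀ (norm_nonneg _) (norm_sub_le_norm_sub_add_norm_sub a b c) 2
    nlinarith [sq_nonneg (‖a - b‖ - ‖b - c‖)]
  have h2 : ‖a - c‖ ^ 2 * ϖ ≤ 2 * (B * (‖a - b‖ ^ 2 * e)) + 2 * (‖b - c‖ ^ 2 * ϖ) := by
    nlinarith [mul_le_mul_of_nonneg_right h1 h0, mul_le_mul_of_nonneg_left h (sq_nonneg ‖a - b‖)]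
  refine (ENNReal.ofReal_le_ofReal h2).trans (ENNReal.ofReal_add_le.trans ?_)
  rw [ENNReal.ofReal_mul zero_le_two, ENNReal.ofReal_mul zero_le_two,
    ENNReal.ofReal_mul' (by positivity), ENNReal.ofReal_ofNat, mul_assoc]
  gcongr
  exact le_self_add

theorem pw_nonneg {p : ℕ} (n : ℕ) (t₀ : Cm p) (j : ℕ) (t : Cm p) : 0 ≤ pw n t₀ j t := by
  have : 0 ≤ nsq (t - t₀) := Finset.sum_nonneg fun _ _ => sq_nonneg _
  unfold pw
  positivity

end S7b

open S7b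

theorem st7b : St7b := by
  intro n p Γ E _ _ _ _ _ _ C s O Ω t₀ R c K hK hS hT H W Pf k hP G
  obtain ⟨V₀, hV, hpf⟩ := H.pf W.R₂ W.R₂_lt
  obtain ⟨Bs, hBs, hsk⟩ := W.sk
  have hs : Continuous fun y : O => s y := continuous_iff_continuousAt.2 fun y =>
    (Cov.HolOn.continuousAt C hS.hol y.2).comp continuous_subtype_val.continuousAt
  set T : Set O := {y : O | y.1 ∈ Ω ∧ s y ∈ ball t₀ W.R₂} with hTd
  have hm : MeasurableSet T :=
    ((hT.opn.preimage continuous_subtype_val).inter (isOpen_ball.preimage hs)).measurableSet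
  set b : ℝ≥0∞ := ENNReal.ofReal G.B + 1 with hb
  have b0 : b ≠ ⊤ := by simp [hb]
  set Q : ℕ → O → ℝ≥0∞ := fun j y => b * ENNReal.ofReal (W.qh j (s y)) ^ (-K) with hQ
  have mq : ∀ j, Measurable fun t => ENNReal.ofReal (W.qh j t) ^ (-K) := fun j =>
    (W.qh_meas j).ennreal_ofReal.pow_const _
  have mQ : ∀ j, Measurable (Q j) := fun j => ((mq j).comp hs.measurable).const_mul _
  set D : ℝ≥0∞ := b * (V₀ * Bs) with hD
  have D0 : D ≠ ⊤ := ENNReal.mul_ne_top b0 (ENNReal.mul_ne_top hV.ne hBs.ne)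
  have iQ : ∀ᶠ j in atTop, ∫⁻ y in T, Q j y ∂H.ν ≤ D := hsk.mono fun j hj => by
    rw [hQ, lintegral_const_mul' _ _ b0]
    exact mul_le_mul_right ((hpf _ (mq j)).trans (mul_le_mul_right hj _)) _
  have lq : ∀ j, ∀ y ∈ T, ∀ x : ℝ, (0 < W.q j y → x ≤ G.B * W.q j y ^ (-K)) →
      ENNReal.ofReal x ≤ Q j y := fun j y hy x h => by
    have := le_q hK ((W.q_wt j).nonneg y y.2) h
    rwa [W.qh_eq j y hy.1] at this
  have sol : ∀ᶠ j in atTop, ∃ f : E → ℂ, C.HolOn f O ∧ Bas C s f O ∧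
      ∫⁻ y : O, ENNReal.ofReal (‖f y - G.g j y‖ ^ 2 * Real.exp (-G.ψ j y)) ∂H.ν ≤ D := by
    filter_upwards [G.dat, G.fin, G.inn, iQ] with j h1 ⟨B', h2⟩ h3 h4
    rw [← ENNReal.ofReal_toReal D0] at h4 ⊢
    refine H.solve _ _ _ _ h1 ENNReal.toReal_nonneg ?_ ?_
    · refine lt_of_le_of_lt (lintegral_mono (g := T.indicator fun _ => ENNReal.ofReal B')
        fun y => ?_) ?_
      · by_cases hy : y ∈ T
        · rw [indicator_of_mem hy]
          exact ENNReal.ofReal_le_ofReal (h2 y hy.1 hy.2)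
        · simp [(G.supp j y y.2 hy).1]
      · rw [lintegral_indicator hm]
        refine (hpf (fun _ => ENNReal.ofReal B') measurable_const).trans_lt
          (ENNReal.mul_lt_top hV ?_)
        rw [setLIntegral_const]
        exact ENNReal.mul_lt_top ENNReal.ofReal_lt_top measure_ball_lt_top
    · refine le_trans (lintegral_mono (g := T.indicator (Q j)) fun y => ?_)
        ((lintegral_indicator hm _).trans_le h4)
      by_cases hy : y ∈ T
      · exact (lq j y hy _ fun h => (h3 y hy.1 hy.2 h).1).trans_eq (indicator_of_mem hy _).symm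
      · simp [(G.supp j y y.2 hy).2]
  obtain ⟨j₀, f₀, a₀, b₀, -⟩ := sol.exists
  have ex : ∀ j, ∃ f : E → ℂ, C.HolOn f O ∧ Bas C s f O ∧ ((∃ f : E → ℂ, C.HolOn f O ∧
      Bas C s f O ∧ ∫⁻ y : O, ENNReal.ofReal (‖f y - G.g j y‖ ^ 2 * Real.exp (-G.ψ j y)) ∂H.ν ≤ D) →
      ∫⁻ y : O, ENNReal.ofReal (‖f y - G.g j y‖ ^ 2 * Real.exp (-G.ψ j y)) ∂H.ν ≤ D) := fun j => by
    by_cases h : ∃ f : E → ℂ, C.HolOn f O ∧ Bas C s f O ∧
      ∫⁻ y : O, ENNReal.ofReal (‖f y - G.g j y‖ ^ 2 * Real.exp (-G.ψ j y)) ∂H.ν ≤ D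
    · obtain ⟨f, h1, h2, h3⟩ := h
      exact ⟨f, h1, h2, fun _ => h3⟩
    · exact ⟨f₀, a₀, b₀, fun h' => absurd h' h⟩
  choose f hf1 hf2 hf3 using ex
  have b2 : 2 * b ≠ ⊤ := ENNReal.mul_ne_top ENNReal.ofNat_ne_top b0
  have fin : 2 * b * D + 2 * D < ⊤ := ENNReal.add_lt_top.2
    ⟨(ENNReal.mul_ne_top b2 D0).lt_top, (ENNReal.mul_ne_top ENNReal.ofNat_ne_top D0).lt_top⟩
  have key : ∀ᶠ j in atTop, ∫⁻ y : O, (2 * b * ENNReal.ofReal
      (‖f j y - G.g j y‖ ^ 2 * Real.exp (-G.ψ j y)) + 2 * T.indicator (Q j) y) ∂H.ν ≤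
        2 * b * D + 2 * D := by
    filter_upwards [sol, iQ] with j h1 h2
    rw [lintegral_add_right _ (((mQ j).indicator hm).const_mul _), lintegral_const_mul' _ _ b2,
      lintegral_const_mul' _ _ ENNReal.ofNat_ne_top, lintegral_indicator hm]
    exact add_le_add (mul_le_mul_right (hf3 j h1) _) (mul_le_mul_right h2 _)
  refine ⟨⟨f, hf1, hf2, G.ϖ, G.dom, ⟨_, fin, ?_⟩, W.R₂, W.R₁_pos.trans W.R₁_lt, _, fin, ?_⟩⟩
  · filter_upwards [key, G.le_ψ, G.inn] with j h1 h2 h3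
    refine le_trans (lintegral_mono fun y => ?_) h1
    have := split (f j y) (G.g j y) 0 (G.dom.nonneg j y y.2) (Real.exp_pos _).le (h2 y y.2)
    rw [sub_zero, sub_zero] at this
    refine this.trans (add_le_add_right (mul_le_mul_right ?_ _) _)
    by_cases hy : y ∈ T
    · exact (lq j y hy _ fun h => (h3 y hy.1 hy.2 h).2.1).trans_eq (indicator_of_mem hy _).symm
    · simp [(G.supp j y y.2 hy).1]
  · filter_upwards [key, G.pw_le, G.inn] with j h1 h2 h3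
    refine le_trans (setLIntegral_mono' hm fun y hy => ?_)
      ((setLIntegral_le_lintegral _ _).trans h1)
    exact (split (f j y) (G.g j y) (Pf (s y)) (pw_nonneg _ _ _ _) (Real.exp_pos _).le
      (h2 y hy.1 hy.2)).trans (add_le_add_right (mul_le_mul_right ((lq j y hy _ fun h =>
        (h3 y hy.1 hy.2 h).2.2).trans_eq (indicator_of_mem hy _).symm) _) _)

end Vale.Agent.P284Z.L
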