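import Vale.Agent.P284Z.L.Spec
import Vale.Agent.P284Z.J.Mass
import Vale.Agent.P284Z.J.G0

/-!
# P284Z, block L: the complete metric and its mass
-/

set_option linter.all false

open scoped ContDiff Topology ComplexOrder ENNReal
open Filter Set Function Metric MeasureTheory

noncomputable section

namespace Vale.Agent.P284Z.L

open Vale.Agent.P272.K Vale.Agent.P284.H650 J

namespace S5b

/-! ### functions of one variable -/

theorem deriv_Gc : deriv Gc = Real.smoothTransition :=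
  funext fun x => Real.smoothTransition.continuous.deriv_integral _ 0 x

theorem sm_Gc : ContDiff ℝ ∞ Gc :=
  contDiff_infty_iff_deriv.2 ⟨fun x =>
    (Real.smoothTransition.continuous.integral_hasStrictDerivAt 0 x).hasDerivAt.differentiableAt,
    deriv_Gc ▸ Real.smoothTransition.contDiff⟩

theorem Gc_zero {x : ℝ} (hx : x ≤ 0) : Gc x = 0 := by
  rw [Gc, intervalIntegral.integral_congr (g := fun _ => 0), intervalIntegral.integral_zero]
  intro t ht
  rw [uIcc_of_ge hx] at ht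
  exact Real.smoothTransition.zero_of_nonpos ht.2

theorem deriv_st {x : ℝ} (hx : 1 < x) : deriv Real.smoothTransition x = 0 := by
  have h : Real.smoothTransition =ᶠ[𝓝 x] fun _ => 1 :=
    (lt_mem_nhds hx).mono fun t ht => Real.smoothTransition.one_of_one_le ht.le
  rw [h.deriv_eq, deriv_const]

/-- the function `log (1 - t)` -/
def lm (t : ℝ) : ℝ := Real.log (1 - t)

theorem sm_lm {t : ℝ} (ht : t < 1) : ContDiffAt ℝ ∞ lm t :=
  (contDiffAt_const.sub contDiffAt_id).log (sub_pos.2 ht).ne'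

theorem deriv_lm {t : ℝ} (ht : t < 1) : deriv lm t = -(1 - t)⁻¹ := by
  have h := ((hasDerivAt_id t).const_sub 1).log (sub_pos.2 ht).ne'
  exact h.deriv.trans (by simp [neg_div])

theorem deriv2_lm {t : ℝ} (ht : t < 1) : deriv (deriv lm) t = -((1 - t)⁻¹) ^ 2 := by
  have h1 : deriv lm =ᶠ[𝓝 t] fun x => -(1 - x)⁻¹ := (gt_mem_nhds ht).mono fun x hx => deriv_lm hx
  have h2 := (((hasDerivAt_id t).const_sub 1).inv (sub_pos.2 ht).ne').neg
  rw [h1.deriv_eq]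
  exact h2.deriv.trans (by simp [neg_div])

variable {n p : ℕ} {Γ E : Type} [Group Γ] [TopologicalSpace E] [MulAction Γ E] {C : Cov n Γ E}
  {γ : Γ} {a : C.I} {z : Cm n} {y : E} {ℓ : Mx n →ₗ[ℝ] ℝ}

theorem gg_add_le (hℓ : Pf ℓ) {f g : Cm n → ℝ} (hf : DifferentiableAt ℝ f z)
    (hg : DifferentiableAt ℝ g z) : ℓ (gg (fun w => f w + g w) (fun w => f w + g w) z) ≤
      2 * ℓ (gg f f z) + 2 * ℓ (gg g g z) := by
  have h := hℓ.cs f g z 1 1
  rw [gg_add_left hf hg, map_add, hℓ.symm f, hℓ.symm g, gg_add_left hf hg, gg_add_left hf hg,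
    map_add, map_add, hℓ.symm g f]
  linarith

theorem two {f : E → ℝ} (hz : z ∈ C.B 4 a) (h : C.SmAt f (C.pt γ a z)) :
    ContDiffAt ℝ 2 (fun w => f (C.pt γ a w)) z := (h γ a z hz rfl).of_le two_le

theorem herm_om {A : ℝ} {f : E → ℝ} (hz : z ∈ C.B 4 a) (h : C.SmAt f (C.pt γ a z)) :
    (C.om A f γ a z).IsHermitian :=
  cHess_isHermitian ((contDiffAt_const.mul ((sm_ρ a).two hz)).add (two hz h))

theorem sm_zero : C.SmAt (fun _ => (0 : ℝ)) y := fun _ _ _ _ _ => contDiffAt_const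

theorem lin_one (hz : z ∈ C.B 4 a) : ℓ (C.om 1 (fun _ => 0) γ a z) = ℓ (cHess (C.ρ a) z) := by
  rw [lin_om hz sm_zero, C2.cHess_const, map_zero, one_mul, add_zero]

theorem det_le {H H' : Mx n} (h : H.PosSemidef) (h' : (H' - H).PosSemidef) :
    H.det.re ≤ md fun _ => H' := by
  have h1 := md_mono (X := fun _ => H) (Y := fun _ => H') (fun _ => h) fun _ => h'
  have h2 := md_nonneg (X := fun _ => H) fun _ => h
  have h3 : (1 : ℝ) ≤ n.factorial := by exact_mod_cast n.factorial_pos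
  rw [md_const] at h1 h2
  nlinarith [nonneg_of_mul_nonneg_right h2 (by linarith : (0 : ℝ) < n.factorial)]

variable {s : E → Cm p} {O Ω : Set E} (X : EX C s O Ω)

/-- `log (1 - log P)` -/
def ψ (y : E) : ℝ := lm (Real.log (X.P y))

theorem u_le (y : E) : Real.log (X.P y) ≤ 0 := Real.log_nonpos (X.P_nonneg y) (X.P_le y)

theorem ψ_nonneg (y : E) : 0 ≤ ψ X y := Real.log_nonneg (by linarith [u_le X y])

theorem sm_u (h : 0 < X.P y) : C.SmAt (fun y => Real.log (X.P y)) y := fun γ a z hz e =>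
  (X.P_sm y h γ a z hz e).log (by rw [e]; exact h.ne')

theorem sm_N (h : 0 < X.P y) : C.SmAt (fun y => Real.log (X.N y)) y := fun γ a z hz e =>
  (X.N_sm y h γ a z hz e).log (by rw [e]; exact (X.N_pos y h).ne')

theorem sm_ψ (h : 0 < X.P y) : C.SmAt (ψ X) y := fun γ a z hz e =>
  (sm_lm (by linarith [u_le X (C.pt γ a z)])).comp z (sm_u X h γ a z hz e)

theorem gg_ψ (hℓ : Pf ℓ) (hz : z ∈ C.B 4 a) (h : 0 < X.P (C.pt γ a z)) :
    ℓ (C.gg (ψ X) (ψ X) γ a z) ≤ X.A * ℓ (cHess (C.ρ a) z) - ℓ (hs C (ψ X) γ a z) := by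
  have h0 := u_le X (C.pt γ a z)
  have h1 : Real.log (X.P (C.pt γ a z)) < 1 := by linarith
  have h2 := two hz (sm_u X h)
  have h3 := lin_comp (φ := lm) ((sm_lm h1).of_le two_le) h2 ℓ
  have h4 := lin_gg_comp (φ := lm) ((sm_lm h1).differentiableAt (by simp))
    (h2.differentiableAt two_ne_zero) ℓ
  have h5 := hℓ.pos _ (X.P_psd γ a z hz h)
  have h6 := mul_nonneg X.A_nonneg (hℓ.pos _ (C.ρ_pos a z hz).posSemidef)
  rw [lin_om hz (sm_u X h)] at h5
  rw [deriv_lm h1] at h3 h4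
  rw [deriv2_lm h1] at h3
  have h7 : 0 < (1 - Real.log (X.P (C.pt γ a z)))⁻¹ := inv_pos.2 (by linarith)
  have h8 : (1 - Real.log (X.P (C.pt γ a z)))⁻¹ ≤ 1 := inv_le_one_of_one_le₀ (by linarith)
  have e1 : ℓ (C.gg (ψ X) (ψ X) γ a z) = _ := h4
  have e2 : ℓ (hs C (ψ X) γ a z) = _ := h3
  rw [e1, e2]
  nlinarith [mul_nonneg h7.le h5, mul_nonneg (sub_nonneg.2 h8) h6]

/-- the potential of the metric -/
def κ (y : E) : ℝ := X.v y ^ 2 - ψ X y

theorem sm_κ (h : y ∈ O) : C.SmAt (κ X) y := fun γ a z hz e =>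
  ((X.v_sm y h γ a z hz e).pow 2).sub (sm_ψ X (X.sub y h) γ a z hz e)

theorem lin_κ (hz : z ∈ C.B 4 a) (h : C.pt γ a z ∈ O) :
    ℓ (C.om (X.A + 1) (κ X) γ a z) = (X.A + 1) * ℓ (cHess (C.ρ a) z) +
      ℓ (hs C (fun y => X.v y ^ 2) γ a z) - ℓ (hs C (ψ X) γ a z) := by
  have h1 := C2.cHess_sub ((two hz (X.v_sm _ h)).pow 2) (two hz (sm_ψ X (X.sub _ h)))
  have e : cHess (fun w => κ X (C.pt γ a w)) z = _ := h1
  rw [lin_om hz (sm_κ X h), e, map_sub, add_sub_assoc]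
  rfl

theorem κ_ge (hℓ : Pf ℓ) (hz : z ∈ C.B 4 a) (h : C.pt γ a z ∈ O) :
    ℓ (cHess (C.ρ a) z) + ℓ (C.gg (ψ X) (ψ X) γ a z) + 2 * ℓ (C.gg X.v X.v γ a z) ≤
      ℓ (C.om (X.A + 1) (κ X) γ a z) := by
  have h1 := gg_ψ X hℓ hz (X.sub _ h)
  have h2 : ℓ (hs C (fun y => X.v y ^ 2) γ a z) = 2 * (X.v (C.pt γ a z) * ℓ (hs C X.v γ a z)) +
      2 * ℓ (C.gg X.v X.v γ a z) := cHess_sq (two hz (X.v_sm _ h)) ℓ
  have h3 := mul_nonneg (X.v_nonneg _ h) (hℓ.pos _ (X.v_psd γ a z hz h))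
  rw [lin_κ X hz h]
  linarith

/-- the invariant potential -/
def pot (M : ℝ) (y : E) : ℝ := M * Real.log (X.N y) - ψ X y

theorem pot_inv (M : ℝ) (γ : Γ) (y : E) : pot X M (γ • y) = pot X M y := by
  rw [pot, pot, ψ, ψ, X.N_inv, X.P_inv]

theorem sm_pot (M : ℝ) (h : 0 < X.P y) : C.SmAt (pot X M) y := fun γ a z hz e =>
  (contDiffAt_const.mul (sm_N X h γ a z hz e)).sub (sm_ψ X h γ a z hz e)

theorem lin_pot (M : ℝ) (hz : z ∈ C.B 4 a) (h : 0 < X.P (C.pt γ a z)) :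
    ℓ (hs C (pot X M) γ a z) =
      M * ℓ (hs C (fun y => Real.log (X.N y)) γ a z) - ℓ (hs C (ψ X) γ a z) := by
  have h1 := C2.cHess_sub ((contDiffAt_const (c := M)).mul (two hz (sm_N X h))) (two hz (sm_ψ X h))
  have e : hs C (pot X M) γ a z = _ := h1
  rw [e, C2.cHess_const_mul M (two hz (sm_N X h)), map_sub, lin_csmul]
  rfl

theorem pot_ge {M : ℝ} (hM : 0 ≤ M) (hℓ : Pf ℓ) (hz : z ∈ C.B 4 a) (h : 0 < X.P (C.pt γ a z)) :
    0 ≤ (X.A + 1 + M * X.A) * ℓ (cHess (C.ρ a) z) + ℓ (hs C (pot X M) γ a z) := by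
  have h1 := gg_ψ X hℓ hz h
  have h2 := hℓ.pos _ (X.N_psd γ a z hz h)
  have h3 := hℓ.pos _ (C.ρ_pos a z hz).posSemidef
  have h4 : 0 ≤ ℓ (C.gg (ψ X) (ψ X) γ a z) := hℓ.gg_nonneg _ _
  rw [lin_om hz (sm_N X h)] at h2
  have h5 : 0 ≤ M * (X.A * ℓ (cHess (C.ρ a) z) + ℓ (hs C (fun y => Real.log (X.N y)) γ a z)) :=
    mul_nonneg hM h2
  rw [lin_pot X M hz h]
  linarith

open Classical in
/-- the truncated potential -/
def trc (M T : ℝ) (y : E) : ℝ := if 0 < X.P y then Gc (pot X M y + T) else 0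

theorem trc_pos (M T : ℝ) (h : 0 < X.P y) : trc X M T =ᶠ[𝓝 y] fun y => Gc (pot X M y + T) :=
  (X.P_cont.continuousAt.eventually (lt_mem_nhds h)).mono fun _ hy => if_pos hy

theorem trc_zero {M : ℝ} (hM : 0 ≤ M) (T : ℝ) (h : ¬ 0 < X.P y) :
    trc X M T =ᶠ[𝓝 y] fun _ => 0 := by
  have h1 : X.P y < Real.exp (1 - Real.exp (M * (X.N y + 1) + T)) :=
    (not_lt.1 h).trans_lt (Real.exp_pos _)
  filter_upwards [X.P_cont.continuousAt.eventually (gt_mem_nhds h1),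
    X.N_cont.continuousAt.eventually (gt_mem_nhds (lt_add_one (X.N y)))] with x h2 h3
  rw [trc]
  split_ifs with h4
  · refine Gc_zero ?_
    have h5 := (Real.log_lt_iff_lt_exp h4).2 h2
    have h6 : M * (X.N y + 1) + T ≤ ψ X x :=
      (Real.le_log_iff_exp_le (by linarith [u_le X x])).2 (by linarith)
    have h7 := mul_le_mul_of_nonneg_left ((Real.log_le_self (X.N_pos x h4).le).trans h3.le) hM
    rw [pot]
    linarith
  · rfl

theorem hs_trc (M T : ℝ) (hz : z ∈ C.B 4 a) (h : 0 < X.P (C.pt γ a z)) :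
    hs C (trc X M T) γ a z =
      ((Real.smoothTransition (pot X M (C.pt γ a z) + T) : ℝ) : ℂ) • hs C (pot X M) γ a z +
      ((deriv Real.smoothTransition (pot X M (C.pt γ a z) + T) : ℝ) : ℂ) •
        gg (fun w => pot X M (C.pt γ a w) + T) (fun w => pot X M (C.pt γ a w) + T) z := by
  have h1 := two hz (sm_pot X M h)
  have h2 := cHess_comp' (φ := Gc) (f := fun w => pot X M (C.pt γ a w) + T)
    (sm_Gc.contDiffAt.of_le two_le) (h1.add contDiffAt_const)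
  rw [deriv_Gc, C2.cHess_add h1 contDiffAt_const, C2.cHess_const, add_zero] at h2
  exact (C2.cHess_congr (JGx.ev_pt (P := fun y => trc X M T y = Gc (pot X M y + T)) hz
    (trc_pos X M T h))).trans h2

theorem sm_trc {M : ℝ} (hM : 0 ≤ M) (T : ℝ) (y : E) : C.SmAt (trc X M T) y := by
  by_cases h : 0 < X.P y
  · exact JGx.sm_congr (fun γ a z hz e => sm_Gc.contDiffAt.comp z
      ((sm_pot X M h γ a z hz e).add contDiffAt_const)) (trc_pos X M T h)
  · exact JGx.sm_congr sm_zero (trc_zero X hM T h)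

theorem psh_trc {M : ℝ} (hM : 0 ≤ M) (T : ℝ) : C.SmPsh (X.A + 1 + M * X.A) (trc X M T) := by
  refine smPsh_of (fun γ y => by rw [trc, trc, X.P_inv, pot_inv]) (sm_trc X hM T)
    fun a z hz ℓ hℓ => ?_
  have h0 : 0 ≤ (X.A + 1 + M * X.A) * ℓ (cHess (C.ρ a) z) :=
    mul_nonneg (by have := X.A_nonneg; positivity) (hℓ.pos _ (C.ρ_pos a z hz).posSemidef)
  rw [lin_om hz (sm_trc X hM T _)]
  by_cases h : 0 < X.P (C.pt 1 a z)
  · have e : cHess (fun w => trc X M T (C.pt 1 a w)) z = _ := hs_trc X M T hz h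
    have h1 := pot_ge X hM hℓ hz h
    have h2 := mul_nonneg (Real.smoothTransition.monotone.deriv_nonneg
      (x := pot X M (C.pt 1 a z) + T)) (hℓ.gg_nonneg (fun w => pot X M (C.pt 1 a w) + T) z)
    rw [e, map_add, lin_csmul, lin_csmul]
    nlinarith [mul_nonneg (Real.smoothTransition.nonneg (pot X M (C.pt 1 a z) + T)) h1,
      mul_nonneg (sub_nonneg.2 (Real.smoothTransition.le_one (pot X M (C.pt 1 a z) + T))) h0]
  · rw [C2.cHess_congr (JGx.ev_pt (P := fun y => trc X M T y = 0) hz (trc_zero X hM T h)),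
      C2.cHess_const, map_zero, add_zero]
    exact h0

theorem om_trc {M : ℝ} (hM : 0 ≤ M) (T A : ℝ) (hz : z ∈ C.B 4 a) (h : 0 < X.P (C.pt γ a z))
    (h1 : 1 < pot X M (C.pt γ a z) + T) :
    C.om A (trc X M T) γ a z = C.om A (pot X M) γ a z := by
  have e : cHess (fun w => trc X M T (C.pt γ a w)) z = _ := hs_trc X M T hz h
  rw [om_eq hz (sm_trc X hM T _), om_eq hz (sm_pot X M h), e, deriv_st h1,
    Real.smoothTransition.one_of_one_le h1.le]
  simp [hs]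

theorem mass_pot (hJ : JM C) {M : ℝ} (hM : 0 ≤ M) (a : C.I) :
    ∫⁻ z in {z ∈ C.B 1 a | 0 < X.P (C.pt 1 a z)},
      ENNReal.ofReal (md fun _ => C.om (X.A + 1 + M * X.A) (pot X M) 1 a z) < ⊤ := by
  obtain ⟨M₀, h0, h1⟩ := hJ.M0 (X.A + 1 + M * X.A) (by have := X.A_nonneg; positivity)
  let U : ℕ → Set (Cm n) := fun T => {z | ∀ᶠ w in 𝓝 z, w ∈ C.B 1 a ∧ 0 < X.P (C.pt 1 a w) ∧
    1 < pot X M (C.pt 1 a w) + T}
  have h2 : {z ∈ C.B 1 a | 0 < X.P (C.pt 1 a z)} ⊆ ⋃ T, U T := by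
    rintro z ⟨hz, h⟩
    obtain ⟨T, hT⟩ := exists_nat_gt (1 - pot X M (C.pt 1 a z))
    have h3 := (sm_pot X M h 1 a z (C.B14 hz) rfl).continuousAt.add (continuousAt_const (y := (T : ℝ)))
    refine mem_iUnion.2 ⟨T, ((C.isOpen_B 1 a).eventually_mem hz).and (Eventually.and ?_ ?_)⟩
    · exact JGx.ev_pt (P := fun y => 0 < X.P y) (C.B14 hz)
        (X.P_cont.continuousAt.eventually (lt_mem_nhds h))
    · exact h3.eventually (lt_mem_nhds (show 1 < pot X M (C.pt 1 a z) + T by linarith))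
  have h3 : Monotone U := fun T T' hT z hz => hz.mono fun w hw =>
    ⟨hw.1, hw.2.1, by have : (T : ℝ) ≤ T' := by exact_mod_cast hT
                      linarith [hw.2.2]⟩
  refine (lintegral_mono_set h2).trans_lt ?_
  rw [setLIntegral_iUnion_of_directed _ h3.directed_le]
  refine (iSup_le fun T => ?_).trans_lt h0
  refine le_trans ?_ (h1 (fun _ => trc X M T) (fun _ => psh_trc X hM T) a)
  refine (setLIntegral_mono' isOpen_setOf_eventually_nhds.measurableSet fun z hz => ?_).trans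
    (lintegral_mono_set fun z hz => C.B_mono (by norm_num) a hz.self_of_nhds.1)
  have h4 := hz.self_of_nhds
  rw [om_trc X hM T _ (C.B14 h4.1) h4.2.1 h4.2.2]

theorem mass (hJ : JM C) (hΩ : IsOpen Ω) (hO : Ω ⊆ O) :
    ∑' γ : Γ, ∑ a, ∫⁻ z in {z ∈ C.B 1 a | C.pt γ a z ∈ Ω},
      ENNReal.ofReal (C.om (X.A + 1) (κ X) γ a z + C.pbs s γ a z).det.re < ⊤ := by
  obtain ⟨K, hK, hΩK⟩ := X.bdd
  obtain ⟨M, hM, hT⟩ := X.tube
  obtain ⟨S, hS⟩ := JGx.fin_sheets (C := C) hK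
  rw [tsum_eq_sum (s := S) fun γ hγ => Finset.sum_eq_zero fun a _ => by
    have e : {z ∈ C.B 1 a | C.pt γ a z ∈ Ω} = ∅ := eq_empty_of_forall_notMem fun z hz =>
      hS _ (hΩK hz.2) γ hγ a ⟨z, ball_subset_closedBall hz.1, rfl⟩
    rw [e, Measure.restrict_empty, lintegral_zero_measure]]
  refine ENNReal.sum_lt_top.2 fun γ _ => ENNReal.sum_lt_top.2 fun a _ => ?_
  have ho : IsOpen {z ∈ C.B 1 a | C.pt γ a z ∈ Ω} :=
    ((C.continuousOn_pt γ a).mono fun _ => C.B14).isOpen_inter_preimage (C.isOpen_B 1 a) hΩ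
  have hP : ∀ z, X.P (C.pt γ a z) = X.P (C.pt 1 a z) := fun z => by rw [C.pt_eq γ, X.P_inv]
  have hom : ∀ A, C.om A (pot X M) γ a = C.om A (pot X M) 1 a := fun A => by
    simp only [Cov.om, C.pt_eq γ, pot_inv]
  refine lt_of_le_of_lt ?_ (mass_pot X hJ hM a)
  refine (setLIntegral_mono' ho.measurableSet fun z hz => ENNReal.ofReal_le_ofReal ?_).trans
    (lintegral_mono_set fun z hz => ⟨hz.1, hP z ▸ X.sub _ (hO hz.2)⟩)
  have h4 := C.B14 hz.1
  have h5 := hO hz.2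
  have h6 : (C.pbs s γ a z).PosSemidef := pb_psd _ Matrix.PosSemidef.one
  have h7 := herm_om (A := X.A + 1) h4 (sm_κ X h5)
  rw [← hom]
  refine det_le ((psd_of_pf h7 fun ℓ hℓ => ?_).add h6)
    (psd_of_pf ((herm_om h4 (sm_pot X M (X.sub _ h5))).sub (h7.add h6.1)) fun ℓ hℓ => ?_)
  · have h8 := κ_ge X hℓ h4 h5
    have h9 : 0 ≤ ℓ (C.gg (ψ X) (ψ X) γ a z) := hℓ.gg_nonneg _ _
    have h10 : 0 ≤ ℓ (C.gg X.v X.v γ a z) := hℓ.gg_nonneg _ _
    linarith [hℓ.pos _ (C.ρ_pos a z h4).posSemidef]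
  · have h8 : 0 ≤ ℓ ((M : ℂ) • C.om X.A (fun y => Real.log (X.N y)) γ a z -
        hs C (fun y => X.v y ^ 2) γ a z - C.pbs s γ a z) := hℓ.pos _ (hT γ a z h4 hz.2)
    have h9 := lin_pot (ℓ := ℓ) X M h4 (X.sub _ h5)
    rw [map_sub, map_sub, lin_csmul, lin_om h4 (sm_N X (X.sub _ h5))] at h8
    rw [map_sub, map_add, lin_κ X h4 h5, lin_om h4 (sm_pot X M (X.sub _ h5))]
    simp only [hs] at h8 h9 ⊢
    linarith

variable [T2Space E] {η : E → ℝ} (hη : Exh C η)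

include hη in
theorem cpt (c : ℝ) : IsCompact {y ∈ O | η y + (ψ X y + X.v y) ≤ c} := by
  have h1 := X.cpt _ (hη.cpt c) _ (Real.exp_pos (1 - Real.exp c)) c
  have h2 : ContinuousOn (fun y => η y + (ψ X y + X.v y))
      {y ∈ {y | η y ≤ c} | y ∈ O ∧ Real.exp (1 - Real.exp c) ≤ X.P y ∧ X.v y ≤ c} := fun y hy =>
    ((JGx.sm_cont (hη.sm y)).add ((JGx.sm_cont (sm_ψ X (X.sub y hy.2.1))).add
      (JGx.sm_cont (X.v_sm y hy.2.1)))).continuousWithinAt
  have h3 := h1.of_isClosed_subset (h2.preimage_isClosed_of_isClosed h1.isClosed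
    (isClosed_Iic (a := c))) inter_subset_left
  refine (congrArg IsCompact (Subset.antisymm (fun y hy => ?_) fun y hy => ?_)).mpr h3
  swap
  · exact ⟨hy.1.2.1, hy.2⟩
  have a1 := hη.nonneg y
  have a2 := ψ_nonneg X y
  have a3 := X.v_nonneg y hy.1
  have a4 := hy.2
  have a5 : 1 - Real.log (X.P y) ≤ Real.exp c :=
    (Real.log_le_iff_le_exp (by linarith [u_le X y])).1 (show ψ X y ≤ c by linarith)
  exact ⟨⟨show η y ≤ c by linarith, hy.1,
    (Real.le_log_iff_exp_le (X.sub y hy.1)).1 (by linarith), by linarith⟩, hy.2⟩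

include hη in
theorem grad : ∃ K : ℝ, Psd C ((K : ℂ) • C.om (X.A + 1) (κ X) -
    C.gg (fun y => η y + (ψ X y + X.v y)) fun y => η y + (ψ X y + X.v y)) O := by
  obtain ⟨K, hK⟩ := hη.grad
  refine ⟨2 * |K| + 4, fun γ a z hz h => psd_of_pf
    ((herm_smul (herm_om hz (sm_κ X h)) _).sub (gg_psd _ z).1) fun ℓ hℓ => ?_⟩
  have d1 := (two hz (hη.sm (C.pt γ a z))).differentiableAt two_ne_zero
  have d2 := (two hz (sm_ψ X (X.sub _ h))).differentiableAt two_ne_zero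
  have d3 := (two hz (X.v_sm _ h)).differentiableAt two_ne_zero
  have h1 := gg_add_le hℓ d1 (d2.fun_add d3)
  have h2 := gg_add_le hℓ d2 d3
  have h3 : 0 ≤ ℓ ((K : ℂ) • C.om 1 (fun _ => 0) γ a z - C.gg η η γ a z) :=
    hℓ.pos _ (hK γ a z hz trivial)
  have h4 := κ_ge X hℓ hz h
  have h5 := hℓ.pos _ (C.ρ_pos a z hz).posSemidef
  have h6 : 0 ≤ ℓ (C.gg (ψ X) (ψ X) γ a z) := hℓ.gg_nonneg _ _
  have h7 : 0 ≤ ℓ (C.gg X.v X.v γ a z) := hℓ.gg_nonneg _ _
  have h8 := mul_le_mul_of_nonneg_left h4 (by positivity : 0 ≤ 2 * |K| + 4)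
  have h9 := mul_le_mul_of_nonneg_right (le_abs_self K) h5
  rw [map_sub, lin_csmul, lin_one hz] at h3
  change 0 ≤ ℓ (((2 * |K| + 4 : ℝ) : ℂ) • C.om (X.A + 1) (κ X) γ a z - C.gg _ _ γ a z)
  rw [map_sub, lin_csmul]
  simp only [Cov.gg] at h3 h4 h6 h7 h8 ⊢
  nlinarith [mul_nonneg (abs_nonneg K) h6, mul_nonneg (abs_nonneg K) h7]

end S5b

open S5b in
theorem st5b : St5b := fun _ _ _ _ _ _ _ _ _ _ _ C hJ _ η hη _ O _ _ hΩ hO X =>
  ⟨{ A := X.A + 1
     κ := κ X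
     sm := fun _ => sm_κ X
     ge := fun γ a z hz h => psd_of_pf ((herm_om hz (sm_κ X h)).sub (herm_om hz sm_zero))
       fun ℓ hℓ => by
         have h1 := κ_ge X hℓ hz h
         have h2 : 0 ≤ ℓ (C.gg (ψ X) (ψ X) γ a z) := hℓ.gg_nonneg _ _
         have h3 : 0 ≤ ℓ (C.gg X.v X.v γ a z) := hℓ.gg_nonneg _ _
         change 0 ≤ ℓ (C.om (X.A + 1) (κ X) γ a z - C.om 1 (fun _ => 0) γ a z)
         rw [map_sub, lin_one hz]
         linarith
     η := fun y => η y + (ψ X y + X.v y)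
     η_sm := fun y h γ a z hz e => (hη.sm y γ a z hz e).add
       ((sm_ψ X (X.sub y h) γ a z hz e).add (X.v_sm y h γ a z hz e))
     η_cpt := cpt X hη
     η_grad := grad X hη
     mass := mass X hJ hΩ hO }⟩

end Vale.Agent.P284Z.L
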