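import Vale.Agent.P284Z.L.Gc

/-!
# P284Z, block L: the base point, the properties `QX`
-/

open scoped Topology
open Filter Set Metric MeasureTheory

noncomputable section

namespace Vale.Agent.P284Z.L

open Vale.Agent.P272.K

theorem exists_of_ae {n : ℕ} {c : Cm n} {r : ℝ} (hr : 0 < r) {Q : Cm n → Prop}
    (h : ∀ᵐ z, z ∈ ball c r → Q z) : ∃ z ∈ ball c r, Q z := by
  by_contra h1
  refine (measure_ball_pos volume c hr).ne' (measure_mono_null (fun z hz => ?_) h)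
  exact fun h2 => h1 ⟨z, hz, h2 hz⟩

theorem st0 : St0 := by
  intro n Γ E _ _ hE _ C P D L Z Φ
  obtain ⟨K, -, hK⟩ := L.F_L1
  refine ⟨fun a => exists_of_ae (mul_pos four_pos (C.r_pos a)) (hK 0 a).2, ?_⟩
  obtain ⟨-, a, -⟩ := C.exists_pt hE.some
  obtain ⟨h, h1, h2, h3⟩ := Φ.thin a
  refine ⟨a, exists_of_ae (mul_pos one_pos (C.r_pos a)) ?_⟩
  filter_upwards [(hK 0 a).2, L.F_ae a,
    ae_ne_zero volume (C.isOpen_B 2 a) (C.preconn_B 2 a) h1 h2,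
    ae_ne_zero volume (C.isOpen_B 4 a) (C.preconn_B 4 a) (P.s_an a) (P.s_ne a)] with z k1 k2 k3 k4 hz
  have hz2 := C.B_mono one_le_two a hz
  have hz4 := C.B14 hz
  refine ⟨h3 z hz2 (k3 hz2), k1 hz4, ?_, k2 hz4⟩
  rw [P.σ_eq 1 a z hz4]
  have := k4 hz4
  positivity

theorem stQ : StQ := by
  intro n p Γ E _ _ _ C P J m V D R
  refine ⟨R.δ_le, R.F_imm, R.F_an, R.Q_bd, fun a z hz h0 => ?_⟩
  obtain ⟨K, N, hK⟩ := R.Q_le
  have hz4 := C.B_mono (by norm_num : (3 : ℝ) ≤ 4) a hz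
  have hc : ContinuousAt (fun w => P.σ (C.pt 1 a w)) z := by
    refine ContinuousAt.congr (f := fun w => ‖P.s a w‖ ^ 2 * Real.exp (-C.ρ a w)) ?_ ?_
    · exact ((P.s_an a z hz4).continuousAt.norm.pow 2).mul
        (C.ρ_sm a z hz4).continuousAt.neg.rexp
    · filter_upwards [(C.isOpen_B 4 a).mem_nhds hz4] with w hw using (P.σ_eq 1 a w hw).symm
  refine ⟨max K 0 / (P.σ (C.pt 1 a z) / 2) ^ N, ?_⟩
  filter_upwards [(C.isOpen_B 3 a).mem_nhds hz, hc.eventually (lt_mem_nhds (half_lt_self h0))]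
    with w hw h1 j ξ hξ
  have h2 : 0 ≤ R.Q j a w ξ := (mul_nonneg_iff_of_pos_right (Real.exp_pos _)).1
    ((R.Q_psh j a).1 (w, ξ) ⟨C.B_mono (by norm_num) a hw, trivial⟩)
  rw [div_mul_eq_mul_div, le_div_iff₀ (by positivity)]
  calc _ ≤ R.Q j a w ξ * P.σ (C.pt 1 a w) ^ N := by gcongr
    _ ≤ _ := (hK j a w hw ξ hξ).trans
      (mul_le_mul_of_nonneg_right (le_max_left _ _) (D.F_nonneg _ _))

end Vale.Agent.P284Z.L
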