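import Vale.Agent.P284Z.L.S1.Loc
import Vale.Agent.P284.H286.K.EngD

/-!
# P284Z, block L, piece 1: the engine for the forms `f ds`
-/

open scoped ContDiff Topology ComplexOrder ComplexConjugate ENNReal
open Filter Set Function MeasureTheory

noncomputable section

namespace Vale.Agent.P284Z.L

open Vale.Agent.P272.K Vale.Agent.P284.H608.K J Vale.Agent.P284.H286.K

namespace S1

variable {n p : ℕ} {M : Type} [TopologicalSpace M] [MeasurableSpace M] {K : KA n M}
  {s : M → Cm p} {ψ ϱ : M → ℝ} {f g : M → ℂ} {i : K.I} {z : Cm n}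

theorem mem_tg (K : KA n M) (x : M) : K.e (K.ix x) x ∈ (K.e (K.ix x)).target :=
  (K.e (K.ix x)).map_source (mem_ix K x)

theorem form_ext {η ζ : K.Fm p} (h1 : K.IsForm η) (h2 : K.IsForm ζ)
    (h : ∀ x, η (K.ix x) (K.e (K.ix x) x) = ζ (K.ix x) (K.e (K.ix x) x)) : η = ζ := by
  funext i z
  by_cases hz : z ∈ (K.e i).target
  · have hx := (K.e i).map_target hz
    rw [← (K.e i).right_inv hz, h1.change i _ _ hx (mem_ix K _), h2.change i _ _ hx (mem_ix K _), h]
  · rw [h1.off i z hz, h2.off i z hz]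

open Classical in
variable (K s f) in
/-- the form `f ds` -/
def fm : K.Fm p := fun i z => if z ∈ (K.e i).target then
  f ((K.e i).symm z) • dF (fun w => s ((K.e i).symm w)) z else 0

theorem fm_in (hz : z ∈ (K.e i).target) :
    fm K s f i z = f ((K.e i).symm z) • dF (fun w => s ((K.e i).symm w)) z := if_pos hz

theorem fm_near (hz : z ∈ (K.e i).target) : fm K s f i =ᶠ[𝓝 z]
    fun y => f ((K.e i).symm y) • dF (fun w => s ((K.e i).symm w)) y :=
  mem_of_superset ((K.e i).open_target.mem_nhds hz) fun _ hy => fm_in hy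

theorem fm_form (T : Tv K s ψ ϱ) (f : M → ℂ) : K.IsForm (fm K s f) where
  off _ _ hz := if_neg hz
  change i j x hi hj := by
    have hz := (K.e i).map_source hi
    have hx := (K.e i).left_inv hi
    have h1 : ∀ᶠ y in 𝓝 (K.e i x), (K.e i).symm y ∈ (K.e j).source :=
      ((K.e i).continuousAt_symm hz).eventually ((K.e j).open_source.mem_nhds (hx.symm ▸ hj))
    have h2 := dF_comp (b := fun w => s ((K.e i).symm w)) (b' := fun w => s ((K.e j).symm w))
      (K.hol i j _ hz (hx.symm ▸ hj)).differentiableAt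
      (by rw [hx]; exact (T.an j _ ((K.e j).map_source hj)).differentiableAt)
      (h1.mono fun y hy => by simp only [(K.e j).left_inv hy])
    rw [fm_in hz, fm_in ((K.e j).map_source hj), T.a_one, one_smul, h2, hx, (K.e j).left_inv hj]
    rfl

theorem fm_sub : fm K s f - fm K s g = fm K s fun x => f x - g x := by
  funext i z
  change fm K s f i z - fm K s g i z = _
  unfold fm
  split_ifs
  · ext v
    exact (sub_mul _ _ _).symm
  · exact sub_zero _

theorem rho_eq (T : Tv K s ψ ϱ) (x : M) : ϱ x = (hn (K.w (K.ix x) (K.e (K.ix x) x))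
    (dF (fun w => s ((K.e (K.ix x)).symm w)) (K.e (K.ix x) x))
    (dF (fun w => s ((K.e (K.ix x)).symm w)) (K.e (K.ix x) x))).re := by
  rw [← T.ϱ_eq _ _ (mem_tg K x), (K.e (K.ix x)).left_inv (mem_ix K x)]

theorem phi_eq (T : Tv K s ψ ϱ) (x : M) : K.φ (K.ix x) (K.e (K.ix x) x) = ψ x := by
  rw [T.φ_eq _ _ (mem_tg K x), (K.e (K.ix x)).left_inv (mem_ix K x)]

theorem fm_nl (T : Tv K s ψ ϱ) (f : M → ℂ) : K.nl (fm K s f) =
    ∫⁻ x, ENNReal.ofReal (‖f x‖ ^ 2 * Real.exp (-ψ x) * ϱ x) ∂K.μ :=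
  lintegral_congr fun x => by
    unfold KA.dn
    rw [Complex.re_ofReal_mul, fm_in (mem_tg K x), hn_smul, ← rho_eq T, phi_eq T,
      (K.e (K.ix x)).left_inv (mem_ix K x), ← mul_assoc, mul_comm (Real.exp _)]

variable [T2Space M] [BorelSpace M]

theorem eq_zero_of_nl (k1 : K1Stmt) (k3 : K3Stmt n M K) {ζ : K.Fm p} (h1 : K.IsForm ζ)
    (h2 : K.Smooth ζ) (h0 : K.nl ζ = 0) : ζ = 0 := by
  funext i z
  by_cases hz : z ∈ (K.e i).target
  swap
  · exact h1.off i z hz
  let F : M → ℝ≥0∞ := fun x => ENNReal.ofReal (K.dn ζ ζ x).re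
  have hF : Continuous F :=
    ENNReal.continuous_ofReal.comp (Complex.continuous_re.comp (continuous_dn k3 h1 h2 h1 h2))
  have h3 := K.hμ i ((K.e i).source.indicator F)
    (hF.measurable.indicator (K.e i).open_source.measurableSet) fun x hx => indicator_of_notMem hx F
  let G : Cm n → ℝ := fun y => (K.dn ζ ζ ((K.e i).symm y)).re * (K.w i y).det.re
  have hG : ContinuousOn (fun y => ENNReal.ofReal (G y)) (K.e i).target := by
    refine ENNReal.continuous_ofReal.comp_continuousOn (ContinuousOn.mul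
      ((Complex.continuous_re.comp (continuous_dn k3 h1 h2 h1 h2)).comp_continuousOn
        (K.e i).continuousOn_symm) (Complex.continuous_re.comp_continuousOn ?_))
    exact (continuous_id.matrix_det).comp_continuousOn (continuousOn_pi.2 fun a =>
      continuousOn_pi.2 fun b y hy => (K.wsm i y hy a b).continuousAt.continuousWithinAt)
  have h4 : ∫⁻ y in (K.e i).target, ENNReal.ofReal (G y) = 0 := by
    refine le_antisymm ?_ zero_le
    calc _ = _ := setLIntegral_congr_fun (K.e i).open_target.measurableSet fun y hy => ?_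
      _ = _ := h3.symm
      _ ≤ K.nl ζ := lintegral_mono fun x => indicator_le_self _ F x
      _ = 0 := h0
    rw [indicator_of_mem ((K.e i).map_target hy)]
    exact ENNReal.ofReal_mul (dn_nonneg k1 ζ _)
  have h5 := Measure.eqOn_open_of_ae_eq ((lintegral_eq_zero_iff'
    (hG.aemeasurable (K.e i).open_target.measurableSet)).1 h4) (K.e i).open_target hG
    continuousOn_const hz
  by_contra hne
  have h6 := (Complex.lt_def.1 (k1.pos n p _ (K.wpos i z hz) _ hne)).1
  have h7 := (Complex.lt_def.1 (K.wpos i z hz).det_pos).1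
  refine (ENNReal.ofReal_pos.2 (mul_pos ?_ h7)).ne' h5
  rw [k3.dn_eq p ζ ζ h1 h1 i _ ((K.e i).map_target hz), (K.e i).right_inv hz,
    Complex.re_ofReal_mul]
  exact mul_pos (Real.exp_pos _) h6

theorem nl_dh_cm (k1 : K1Stmt) (k3 : K3Stmt n M K) (χ : K.Cut) {η : K.Fm (p + 1)}
    (h1 : K.IsForm η) (h2 : K.Hol η)
    (h3 : ∀ i, ∀ z ∈ (K.e i).target, Ad (K.w i z) (cHess (K.φ i) z) (η i z) = 0) (ν : ℕ) :
    K.nl (K.dh (cm χ η ν)) ≤ ENNReal.ofReal (n * χ.ε ν) * K.nl η := by
  have t := test_cm χ h1 (smooth_of_hol h2) ν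
  have hA : ∀ x, K.dA (cm χ η ν) x = 0 := fun x => by
    unfold KA.dA cm
    rw [Ad_smul_zero (h3 _ _ (mem_tg K x)), Complex.zero_re, mul_zero]
  have hT : ∀ x, K.dT (cm χ η ν) x ≤ n * χ.ε ν * (K.dn η η x).re := fun x => by
    have hz := mem_tg K x
    have hc := (χ.sm ν _ _ hz).differentiableAt (by simp)
    have e : (fun b => dbV b (cm χ η ν (K.ix x)) (K.e (K.ix x) x)) = fun b =>
        conj (dz b (fun y => (χ.χ ν ((K.e (K.ix x)).symm y) : ℂ)) (K.e (K.ix x) x)) •
          η (K.ix x) (K.e (K.ix x) x) := funext fun b => by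
      rw [← dzb_real _ hc]
      exact dbV_mul (Complex.ofRealCLM.differentiableAt.comp _ hc) (h2 _ _ hz).differentiableAt b
    unfold KA.dT KA.dn
    rw [e, Complex.re_ofReal_mul, mul_left_comm]
    exact mul_le_mul_of_nonneg_left (Tn_le (K.wpos _ _ hz) (χ.grad ν _ _ hz) _) (Real.exp_pos _).le
  have h4 := k3.bk p _ t
  have h5 := nq_nonneg k1 k3 (k3.S_test p _ t)
  simp only [hA, integral_zero, add_zero] at h4
  calc _ = _ := nl_eq k1 k3 (k3.dh_test _ _ t)
    _ ≤ ENNReal.ofReal (∫ x, K.dT (cm χ η ν) x ∂K.μ) := ENNReal.ofReal_le_ofReal (by linarith)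
    _ = _ := ofReal_integral_eq_lintegral_ofReal (k3.intT _ _ t).1
        (Eventually.of_forall (dT_nonneg k1 _))
    _ ≤ ∫⁻ x, ENNReal.ofReal (n * χ.ε ν) * ENNReal.ofReal (K.dn η η x).re ∂K.μ :=
        lintegral_mono fun x => (ENNReal.ofReal_le_ofReal (hT x)).trans
          (ENNReal.ofReal_mul' (dn_nonneg k1 η x)).le
    _ = _ := lintegral_const_mul' _ _ ENNReal.ofReal_ne_top

/-- a square integrable holomorphic form in the kernel of the curvature is `∂_h`-closed -/
theorem dh_zero (k1 : K1Stmt) (k3 : K3Stmt n M K) (χ : K.Cut) {η : K.Fm (p + 1)}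
    (h1 : K.IsForm η) (h2 : K.Hol η)
    (h3 : ∀ i, ∀ z ∈ (K.e i).target, Ad (K.w i z) (cHess (K.φ i) z) (η i z) = 0)
    (h4 : K.nl η < ⊤) : K.dh η = 0 := by
  have hs := smooth_of_hol h2
  obtain ⟨a, b⟩ := k3.dh_form _ η h1 hs
  refine eq_zero_of_nl k1 k3 a b (le_antisymm ?_ zero_le)
  have h5 : Tendsto (fun ν => ENNReal.ofReal (n * χ.ε ν) * K.nl η) atTop (𝓝 0) := by
    have := ENNReal.Tendsto.mul_const (ENNReal.tendsto_ofReal (χ.tend.const_mul (n : ℝ)))
      (Or.inr h4.ne)
    rwa [mul_zero, ENNReal.ofReal_zero, zero_mul] at this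
  have h6 : ∀ x, ∀ᶠ ν in atTop, ENNReal.ofReal (K.dn (K.dh η) (K.dh η) x).re =
      ENNReal.ofReal (K.dn (K.dh (cm χ η ν)) (K.dh (cm χ η ν)) x).re := fun x => by
    filter_upwards [χ.lim x] with ν hν
    have hz := mem_tg K x
    rw [← (K.e (K.ix x)).left_inv (mem_ix K x)] at hν
    have e : K.dh (cm χ η ν) (K.ix x) (K.e (K.ix x) x) = K.dh η (K.ix x) (K.e (K.ix x) x) := by
      unfold KA.dh
      rw [if_pos hz, if_pos hz]
      refine dhL_congr ((((K.e (K.ix x)).continuousAt_symm hz).eventually hν).mono fun y hy => ?_)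
      unfold cm
      rw [hy, Complex.ofReal_one, one_smul]
    unfold KA.dn
    rw [e]
  calc K.nl (K.dh η) = ∫⁻ x, liminf (fun ν =>
        ENNReal.ofReal (K.dn (K.dh (cm χ η ν)) (K.dh (cm χ η ν)) x).re) atTop ∂K.μ :=
        lintegral_congr fun x => (tendsto_const_nhds.congr' (h6 x)).liminf_eq.symm
    _ ≤ liminf (fun ν => K.nl (K.dh (cm χ η ν))) atTop := lintegral_liminf_le fun ν => by
        have t := k3.dh_test _ _ (test_cm χ h1 hs ν)
        exact (Complex.continuous_re.comp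
          (continuous_dn k3 t.form t.smooth t.form t.smooth)).measurable.ennreal_ofReal
    _ ≤ _ := liminf_le_liminf (Eventually.of_forall (nl_dh_cm k1 k3 χ h1 h2 h3))
    _ = 0 := h5.liminf_eq

end S1

open S1 in
theorem st1 : St1 := by
  intro hE n r M _ _ _ _ K χ s ψ ϱ T ε hε h1 h2 g h3 h4 Λ h5 h6 C₀ h7 h8
  have k1 := hE.k1
  have k3 := hE.k3 n M K
  have hφ : ∀ i, ∀ z ∈ (K.e i).target, DifferentiableAt ℝ (K.φ i) z := fun i z hz =>
    (K.φsm i z hz).differentiableAt (by simp)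
  have hp : ∀ i, ∀ z ∈ (K.e i).target, (cHess (K.φ i) z).PosSemidef := fun i z hz => by
    have := (h1 i z hz).add ((pb_eq (b := fun w => s ((K.e i).symm w)) (z := z)).symm ▸
      (Vale.Agent.P284.H619.K.sq_posSemidef _).smul (Complex.zero_le_real.2 hε.le))
    rwa [sub_add_cancel] at this
  have g1 := fm_form T g
  have g2 : K.Smooth (fm K s g) := fun i z hz => ((h3 i z hz).1.smul
    (((dF_an (T.an i z hz)).contDiffAt (n := ∞)).restrict_scalars ℝ)).congr_of_eventuallyEq
      (fm_near hz)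
  have g3 : K.nl (fm K s g) < ⊤ := (fm_nl T g).trans_lt h4
  obtain ⟨η, a1, a2, a3, a4⟩ := hE.eng n M K χ hp r (fm K s g) g1 g2 g3
    (funext fun i => funext fun z => by
      unfold KA.dh
      split_ifs with hz
      · exact (dhL_congr (fm_near hz)).trans
          (dhL_basic (T.an i z hz) (hφ i z hz) (h2 i z hz) (h3 i z hz).2)
      · rfl) C₀ fun τ hτ => by
      rw [mul_comm]
      refine Vale.Agent.P284.H752.K8.int_cs (S := univ)
        (B := fun x => Λ x * Real.exp (-ψ x) * ϱ x) (k3.intT r τ hτ).2 (dA_nonneg k1 hp τ)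
        (fun x => ?_) (fun x _ => mul_nonneg (mul_nonneg (h5 x) (Real.exp_pos _).le) ?_) h7
        (by rwa [Measure.restrict_univ])
      · have hz := mem_tg K x
        have e : K.S (fm K s g) (K.ix x) (K.e (K.ix x) x) = SL (K.w (K.ix x))
            (fun y => g ((K.e (K.ix x)).symm y) • dF (fun w => s ((K.e (K.ix x)).symm w)) y)
            (K.e (K.ix x) x) := by
          unfold KA.S SL
          rw [if_pos hz, funext (dbV_congr (fm_near hz))]
        have h9 := hn_SL (K.wpos _ _ hz) ((h3 _ _ hz).1.differentiableAt (by simp))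
          (dF_an (T.an _ _ hz)).differentiableAt (h6 _ _ hz) (τ (K.ix x) (K.e (K.ix x) x))
        rw [← rho_eq T, (K.e (K.ix x)).left_inv (mem_ix K x), ← e] at h9
        unfold KA.dn KA.dA
        rw [indicator_univ, norm_mul, mul_pow, phi_eq T, Complex.norm_real,
          Real.norm_of_nonneg (Real.exp_pos _).le]
        refine (mul_le_mul_of_nonneg_left h9 (sq_nonneg _)).trans (le_of_eq ?_)
        ring
      · rw [rho_eq T]
        exact (Complex.nonneg_iff.1 (hn_nonneg k1 (K.wpos _ _ (mem_tg K x)) _)).1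
  choose f hf using fun x => exists_coef (K.wpos _ _ (mem_tg K x)) hε (h1 _ _ (mem_tg K x))
    (T.surj _ _ (mem_tg K x)) (a3 _ _ (mem_tg K x))
  obtain rfl : η = fm K s f := form_ext a1 (fm_form T f) fun x => by
    rw [fm_in (mem_tg K x), (K.e (K.ix x)).left_inv (mem_ix K x)]
    exact hf x
  have a5 : K.dh (fm K s f) = 0 := dh_zero k1 k3 χ a1 a2 a3 (by
    have := nl_young k1 k3 (form_sub a1 g1) (smooth_sub (smooth_of_hol a2) g2) g1 g2 one_pos
    rw [sub_add_cancel] at this
    exact this.trans_lt (ENNReal.add_lt_top.2 ⟨ENNReal.mul_lt_top ENNReal.ofReal_lt_top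
      (a4.trans_lt ENNReal.ofReal_lt_top), ENNReal.mul_lt_top ENNReal.ofReal_lt_top g3⟩))
  refine ⟨f, fun i z hz => ?_, by rwa [fm_sub, fm_nl T] at a4⟩
  have an : AnalyticAt ℂ (fun w => f ((K.e i).symm w)) z := by
    obtain ⟨ξ, -, hξ⟩ := exists_dual (T.surj i z hz)
    have l := (ContinuousAlternatingMap.apply ℂ (Cm n) ℂ ξ).analyticAt
    have b1 : AnalyticAt ℂ (fun y => dF (fun w => s ((K.e i).symm w)) y ξ) z :=
      (l _).comp (dF_an (T.an i z hz))
    have b2 : AnalyticAt ℂ (fun y => fm K s f i y ξ) z := (l _).comp (a2 i z hz)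
    have b3 : dF (fun w => s ((K.e i).symm w)) z ξ ≠ 0 := hξ ▸ one_ne_zero
    refine (b2.div b1 b3).congr ?_
    filter_upwards [fm_near (s := s) (f := f) hz, b1.continuousAt.eventually_ne b3] with y e hy
    rw [Pi.div_apply, e]
    exact mul_div_cancel_right₀ _ hy
  refine ⟨an, kil_of_dh (T.an i z hz) (T.surj i z hz) (hφ i z hz) (h2 i z hz)
    an.differentiableAt ((dhL_congr (fm_near hz)).symm.trans ?_)⟩
  exact (if_pos hz).symm.trans (congrFun (congrFun a5 i) z)

end Vale.Agent.P284Z.L
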