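import Vale.Agent.P284Z.L.Spec
import Vale.Agent.P284Z.L.S2a.Alg
import Vale.Agent.P284.H286.K.EngD

/-!
# P284Z, block L, piece 2a: the image of `|ds|² dV` has zero derivative
-/

open scoped ContDiff Topology ComplexOrder ComplexConjugate ENNReal
open Filter Set Function Metric MeasureTheory

noncomputable section

namespace Vale.Agent.P284Z.L

namespace S2a

open Vale.Agent.P272.K Vale.Agent.P284 H608.K H619.K H205.K J

variable {n p q r : ℕ} {M : Type} [TopologicalSpace M] [MeasurableSpace M] {K : KA n M}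

open Classical in
/-- the form `f s^* A` -/
def pf (K : KA n M) (s : M → Cm q) (A : Af q p) (f : M → ℂ) : K.Fm p := fun i z =>
  if z ∈ (K.e i).target then
    f ((K.e i).symm z) • A.compContinuousLinearMap (fderiv ℂ (fun w => s ((K.e i).symm w)) z)
  else 0

section form
variable {s : M → Cm q} {A : Af q p} {f : M → ℂ} {ψ ϱ : M → ℝ}

theorem pf_at {i : K.I} {z : Cm n} (hz : z ∈ (K.e i).target) : pf K s A f i z =
    f ((K.e i).symm z) • A.compContinuousLinearMap (fderiv ℂ (fun w => s ((K.e i).symm w)) z) :=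
  if_pos hz

theorem pf_ev {i : K.I} {z : Cm n} (hz : z ∈ (K.e i).target) : pf K s A f i =ᶠ[𝓝 z] fun y =>
    f ((K.e i).symm y) •
      A.compContinuousLinearMap (fderiv ℂ (fun w => s ((K.e i).symm w)) y) := by
  filter_upwards [(K.e i).open_target.mem_nhds hz] with y hy
  exact pf_at hy

theorem pf_one {i : K.I} {z : Cm n} (hz : z ∈ (K.e i).target) : pf K s A (fun _ => 1) i z =
    A.compContinuousLinearMap (fderiv ℂ (fun w => s ((K.e i).symm w)) z) := by
  rw [pf_at hz, one_smul]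

theorem pf_form (T : Tv K s ψ ϱ) : K.IsForm (pf K s A f) where
  change := by
    intro i j x hi hj
    have hz := (K.e i).map_source hi
    have hz' := (K.e j).map_source hj
    have hx := (K.e i).left_inv hi
    have h1 : (fun w => s ((K.e i).symm w)) =ᶠ[𝓝 (K.e i x)]
        (fun w => s ((K.e j).symm w)) ∘ fun w => K.e j ((K.e i).symm w) := by
      have h2 := (K.e i).continuousAt_symm hz
      rw [ContinuousAt, hx] at h2
      filter_upwards [h2.eventually ((K.e j).open_source.mem_nhds hj)] with y hy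
      rw [comp_apply, (K.e j).left_inv hy]
    have h3 := (K.hol i j _ hz (hx.symm ▸ hj)).differentiableAt
    have h4 := (T.an j _ hz').differentiableAt
    have h5 : K.e j x = K.e j ((K.e i).symm (K.e i x)) := by rw [hx]
    rw [pf_at hz, pf_at hz', T.a_one, one_smul, hx, (K.e j).left_inv hj, h1.fderiv_eq,
      fderiv_comp _ (h5 ▸ h4) h3, ← h5]
    rfl
  off := fun _ _ hz => if_neg hz

theorem pf_sm (T : Tv K s ψ ϱ)
    (hf : ∀ i, ∀ z ∈ (K.e i).target, ContDiffAt ℝ ∞ (fun w => f ((K.e i).symm w)) z) :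
    K.Smooth (pf K s A f) := fun i z hz =>
  ((hf i z hz).smul (pull_sm (T.an i z hz) A)).congr_of_eventuallyEq (pf_ev hz)

theorem dn_eq {ϱ : M → ℝ} (T : Tv K s (fun _ => 0) ϱ) (η ζ : K.Fm p) (x : M) :
    K.dn η ζ x = hn (K.w (K.ix x) (K.e (K.ix x) x)) (η (K.ix x) (K.e (K.ix x) x))
      (ζ (K.ix x) (K.e (K.ix x) x)) := by
  unfold KA.dn
  rw [T.φ_eq _ _ ((K.e _).map_source (H286.K.mem_ix K x))]
  simp

/-- the square of the norm of `s^* A` -/
def nm (K : KA n M) (s : M → Cm q) (A : Af q p) (x : M) : ℝ :=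
  (K.dn (pf K s A fun _ => 1) (pf K s A fun _ => 1) x).re

theorem nm_le (T : Tv K s (fun _ => 0) ϱ) {Θ : M → ℝ} (hΘ : ∀ i, ∀ z ∈ (K.e i).target,
      (K.w i z + pb (jm (fun w => s ((K.e i).symm w)) z) 1).det.re ≤
        Θ ((K.e i).symm z) * (K.w i z).det.re) (x : M) :
    nm K s A x ≤ n ^ p * ‖A‖ ^ 2 * Θ x := by
  have hi := H286.K.mem_ix K x
  have hz := (K.e _).map_source hi
  have hw := K.wpos _ _ hz
  have h1 := hΘ _ _ hz
  rw [pb_jm, (K.e _).left_inv hi] at h1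
  have h2 := (pull_le hw _ A).trans (mul_le_mul_of_nonneg_left h1 (by positivity))
  rw [nm, dn_eq T, pf_one hz]
  exact le_of_mul_le_mul_right (h2.trans_eq (mul_assoc _ _ _).symm)
    (Complex.lt_def.mp hw.det_pos).1

theorem nm_fin (T : Tv K s (fun _ => 0) ϱ) {Θ : M → ℝ} (hΘ : ∀ i, ∀ z ∈ (K.e i).target,
      (K.w i z + pb (jm (fun w => s ((K.e i).symm w)) z) 1).det.re ≤
        Θ ((K.e i).symm z) * (K.w i z).det.re) {Ω : Set M}
    (h : ∫⁻ x in Ω, ENNReal.ofReal (Θ x) ∂K.μ < ⊤) :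
    ∫⁻ x in Ω, ENNReal.ofReal (nm K s A x) ∂K.μ < ⊤ := by
  refine lt_of_le_of_lt (lintegral_mono fun x => ?_) ((lintegral_const_mul'
    (ENNReal.ofReal (n ^ p * ‖A‖ ^ 2)) _ ENNReal.ofReal_ne_top).trans_lt
      (ENNReal.mul_lt_top ENNReal.ofReal_lt_top h))
  rw [← ENNReal.ofReal_mul (by positivity)]
  exact ENNReal.ofReal_le_ofReal (nm_le T hΘ x)

theorem nm_dt (T : Tv K s (fun _ => 0) ϱ) (x : M) : nm K s (dt q) x = ϱ x := by
  have hi := H286.K.mem_ix K x
  have hz := (K.e _).map_source hi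
  have h1 := T.ϱ_eq _ _ hz
  rw [(K.e _).left_inv hi] at h1
  rw [nm, dn_eq T, pf_one hz, h1]
  rfl

theorem nm_int [T2Space M] [BorelSpace M] (k1 : K1Stmt) (k3 : K3Stmt n M K)
    (T : Tv K s (fun _ => 0) ϱ) {Ω : Set M}
    (h : ∫⁻ x in Ω, ENNReal.ofReal (nm K s A x) ∂K.μ < ⊤) : IntegrableOn (nm K s A) Ω K.μ := by
  have h1 := pf_form (A := A) (f := fun _ => 1) T
  have h2 := pf_sm (A := A) (f := fun _ => 1) T fun _ _ _ => contDiffAt_const
  refine ⟨(Complex.continuous_re.comp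
    (H286.K.continuous_dn k3 h1 h2 h1 h2)).aestronglyMeasurable, ?_⟩
  exact (hasFiniteIntegral_iff_ofReal
    (Eventually.of_forall fun x => H286.K.dn_nonneg k1 _ x)).2 h

end form

variable {s : M → Cm (r + 1)} {ϱ : M → ℝ}

theorem S_pf (T : Tv K s (fun _ => 0) ϱ) (τ : K.Fm r) :
    K.ip τ (K.S (pf K s (dt (r + 1)) fun _ => 1)) = 0 := by
  have h : ∀ x, K.dn τ (K.S (pf K s (dt (r + 1)) fun _ => 1)) x = 0 := fun x => by
    have hz := (K.e _).map_source (H286.K.mem_ix K x)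
    rw [dn_eq T, KA.S, if_pos hz, SL_pull _ (T.an _ _ hz) (dt (r + 1)), hn_zero_right]
    filter_upwards [(K.e _).open_target.mem_nhds hz] with y hy
    exact pf_one hy
  simp only [KA.ip, h, integral_zero]

/-- the density of the pairing -/
theorem key (T : Tv K s (fun _ => 0) ϱ) (c : K.Cut) (v : Cm (r + 1)) {f : M → ℂ}
    (hs : K.Smooth (pf K s ((dt (r + 1)).curryLeft v) f)) (ν : ℕ) (x : M)
    {χ : Cm (r + 1) → ℂ} (hχ : DifferentiableAt ℝ χ (s x)) (hf : f =ᶠ[𝓝 x] fun y => χ (s y)) :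
    ∃ E : ℂ, K.dn (K.dh (H286.K.cm c (pf K s ((dt (r + 1)).curryLeft v) f) ν))
        (pf K s (dt (r + 1)) fun _ => 1) x =
          χ (s x) * E + (c.χ ν x : ℂ) * (pL χ (s x) v * (ϱ x : ℂ)) ∧
      ‖E‖ ≤ Real.sqrt (|c.ε ν| * n) * (nm K s ((dt (r + 1)).curryLeft v) x + ϱ x) := by
  have hi := H286.K.mem_ix K x
  have hz := (K.e _).map_source hi
  have hx := (K.e _).left_inv hi
  have hw := K.wpos _ _ hz
  have hrn : r ≤ n := by
    have h := LinearMap.finrank_le_finrank_of_surjective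
      (f := (fderiv ℂ (fun w => s ((K.e (K.ix x)).symm w)) (K.e (K.ix x) x)).toLinearMap)
      (T.surj _ _ hz)
    simp only [Module.finrank_fintype_fun_eq_card, Fintype.card_fin] at h
    omega
  have h1 := wd_le hw hrn (c.grad ν _ _ hz) (pf K s ((dt (r + 1)).curryLeft v) (fun _ => 1)
    (K.ix x) (K.e (K.ix x) x)) (pf K s (dt (r + 1)) (fun _ => 1) (K.ix x) (K.e (K.ix x) x))
  rw [← dn_eq T, ← dn_eq T] at h1
  refine ⟨_, ?_, h1.trans_eq (by rw [← nm_dt T x]; rfl)⟩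
  have h2 : DifferentiableAt ℝ (fun z => (c.χ ν ((K.e (K.ix x)).symm z) : ℂ)) (K.e (K.ix x) x) :=
    Complex.ofRealCLM.differentiableAt.comp _ ((c.sm ν _ _ hz).differentiableAt (by simp))
  have h3 := (K.e (K.ix x)).continuousAt_symm hz
  rw [ContinuousAt, hx] at h3
  have h4 := dhL_loc (φ := K.φ (K.ix x)) (χ := χ)
    (τ := pf K s ((dt (r + 1)).curryLeft v) f (K.ix x)) (T.an _ _ hz)
    (by filter_upwards [(K.e _).open_target.mem_nhds hz] with y hy using T.φ_eq _ _ hy)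
    (by rwa [hx]) v
    (by
      filter_upwards [pf_ev (s := s) (A := (dt (r + 1)).curryLeft v) (f := f) hz,
        h3.eventually hf] with y h5 h6
      rw [h5, h6])
  have h5 := dhL_mul (K.φ (K.ix x)) h2 ((hs _ _ hz).differentiableAt (by simp))
  have h6 : hn (K.w (K.ix x) (K.e (K.ix x) x))
      (dF (fun w => s ((K.e (K.ix x)).symm w)) (K.e (K.ix x) x))
      (dF (fun w => s ((K.e (K.ix x)).symm w)) (K.e (K.ix x) x)) = (ϱ x : ℂ) := by
    have h7 := T.ϱ_eq _ _ hz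
    rw [hx] at h7
    exact Complex.ext h7.symm (Complex.le_def.mp (hn_self_nonneg hw _)).2.symm
  rw [h4, pf_at hz, wd_smul, hx, hf.self_of_nhds] at h5
  rw [dn_eq T, KA.dh, if_pos hz]
  refine (congrArg (fun B => hn _ B _) h5).trans ?_
  rw [hn_add_left, hn_smul_left, hn_smul_left, hn_smul_left, pf_one hz, pf_one hz, ← h6]
  rfl

end S2a

open Vale.Agent.P272.K Vale.Agent.P284 H608.K H205.K S2a

theorem st2a : St2a := by
  intro E n r M _ _ _ _ K c s ϱ T Ω t₀ R hΩ hcl Θ hΘ hfin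
  have k3 := E.k3 n M K
  have hϱ : nm K s (dt (r + 1)) = ϱ := funext (nm_dt T)
  refine ⟨hϱ ▸ nm_fin T hΘ hfin, fun χ hχ hc hb v => ?_⟩
  have i1 : IntegrableOn ϱ Ω K.μ := hϱ ▸ nm_int E.k1 k3 T (nm_fin T hΘ hfin)
  have i2 := nm_int E.k1 k3 T (nm_fin (A := (dt (r + 1)).curryLeft v) T hΘ hfin)
  have p1 : ∀ x, 0 ≤ ϱ x := fun x => hϱ ▸ H286.K.dn_nonneg E.k1 _ x
  have p2 : ∀ x, 0 ≤ nm K s ((dt (r + 1)).curryLeft v) x := fun x => H286.K.dn_nonneg E.k1 _ x
  have hχ' : ContDiff ℝ ∞ fun t => (χ t : ℂ) := Complex.ofRealCLM.contDiff.comp hχ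
  obtain ⟨r', hr', hsub⟩ := exists_lt_subset_ball (isClosed_tsupport χ) hb
  set f : M → ℂ := Ω.indicator fun x => (χ (s x) : ℂ) with hf
  have f1 : ∀ x ∈ Ω, f =ᶠ[𝓝 x] fun y => (χ (s y) : ℂ) := fun x hx => by
    filter_upwards [hΩ.mem_nhds hx] with y hy using indicator_of_mem hy _
  have f2 : ∀ x ∉ Ω, f =ᶠ[𝓝 x] fun _ => 0 := fun x hx => by
    filter_upwards [(hcl r' hr').isOpen_compl.mem_nhds fun h => hx h.1] with y hy
    refine indicator_apply_eq_zero.2 fun h => ?_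
    exact Complex.ofReal_eq_zero.2 (image_eq_zero_of_notMem_tsupport fun h' =>
      hy ⟨h, (mem_ball_iff_norm.1 (hsub h')).le⟩)
  have fs : K.Smooth (pf K s ((dt (r + 1)).curryLeft v) f) := pf_sm T fun i z hz => by
    have h := (K.e i).continuousAt_symm hz
    by_cases hx : (K.e i).symm z ∈ Ω
    · exact (hχ'.contDiffAt.comp z
        (T.an i z hz).restrictScalars.contDiffAt).congr_of_eventuallyEq (h.eventually (f1 _ hx))
    · exact contDiffAt_const.congr_of_eventuallyEq (h.eventually (f2 _ hx))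
  have η1 := pf_form (A := dt (r + 1)) (f := fun _ => 1) T
  have η2 := pf_sm (A := dt (r + 1)) (f := fun _ => 1) T fun _ _ _ => contDiffAt_const
  have τ1 := H286.K.test_cm c (pf_form T) fs
  set F : ℕ → M → ℂ := fun ν => K.dn (K.dh (H286.K.cm c (pf K s ((dt (r + 1)).curryLeft v) f) ν))
    (pf K s (dt (r + 1)) fun _ => 1) with hF
  have F1 : ∀ ν, Integrable (F ν) K.μ := fun ν =>
    (k3.int _ _ _ (k3.dh_test _ _ (τ1 ν)) η1 η2).1
  have F2 : ∀ ν, ∫ x in Ω, 2 * (F ν x).re ∂K.μ = 0 := fun ν => by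
    have h1 : ∫ x, F ν x ∂K.μ = 0 :=
      (k3.adj _ _ _ (τ1 ν).form (τ1 ν).smooth η1 η2 (Or.inl (τ1 ν))).trans (S_pf T _)
    have h2 : ∫ x, (F ν x).re ∂K.μ = (∫ x, F ν x ∂K.μ).re := integral_re (F1 ν)
    rw [setIntegral_eq_integral_of_forall_compl_eq_zero, integral_const_mul, h2, h1]
    · simp
    intro x hx
    obtain ⟨e, h3, -⟩ := key T c v fs ν x (χ := fun _ => 0) (differentiableAt_const _) (f2 x hx)
    rw [(HasW.of_holo (hasFDerivAt_const (0 : ℂ) (s x))).pL_eq] at h3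
    rw [show F ν x = _ from h3]
    simp
  have F3 : ∀ ν, ∀ x ∈ Ω, ∃ e : ℝ,
      2 * (F ν x).re = χ (s x) * e + c.χ ν x * (fderiv ℝ χ (s x) v * ϱ x) ∧
      |e| ≤ 2 * (Real.sqrt (|c.ε ν| * n) * (nm K s ((dt (r + 1)).curryLeft v) x + ϱ x)) := by
    intro ν x hx
    obtain ⟨e, h3, h4⟩ := key T c v fs ν x (hχ'.differentiable (by simp) _) (f1 x hx)
    refine ⟨2 * e.re, ?_, ?_⟩
    · rw [show F ν x = _ from h3, ← pL_re (hχ.differentiable (by simp) _), Complex.add_re,
        Complex.re_ofReal_mul, Complex.re_ofReal_mul, Complex.re_mul_ofReal]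
      ring
    · rw [abs_mul, abs_two]
      linarith [Complex.abs_re_le_norm e]
  obtain ⟨C₁, hC₁⟩ := hχ.continuous.bounded_above_of_compact_support hc
  obtain ⟨C₂, hC₂⟩ := ((hχ.continuous_fderiv (by simp)).clm_apply
    (continuous_const (y := v))).bounded_above_of_compact_support (hc.fderiv_apply ℝ v)
  have hε : Tendsto (fun ν => Real.sqrt (|c.ε ν| * n)) atTop (𝓝 0) := by
    simpa using (c.tend.abs.mul_const (n : ℝ)).sqrt
  have L := tendsto_integral_filter_of_dominated_convergence (μ := K.μ.restrict Ω)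
    (F := fun ν x => 2 * (F ν x).re) (f := fun x => fderiv ℝ χ (s x) v * ϱ x) (l := atTop)
    (fun x => C₁ * (2 * (nm K s ((dt (r + 1)).curryLeft v) x + ϱ x)) + C₂ * ϱ x)
    (Eventually.of_forall fun ν => ((F1 ν).re.const_mul 2).restrict.aestronglyMeasurable)
    ?_ ((((i2.add i1).const_mul 2).const_mul C₁).add (i1.const_mul C₂)) ?_
  · simp only [F2] at L
    exact tendsto_nhds_unique L tendsto_const_nhds
  · filter_upwards [hε.eventually (ge_mem_nhds one_pos)] with ν hν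
    refine ae_restrict_of_forall_mem hΩ.measurableSet fun x hx => ?_
    obtain ⟨e, h1, h2⟩ := F3 ν x hx
    rw [h1]
    refine (norm_add_le _ _).trans (add_le_add ?_ ?_)
    · rw [norm_mul]
      refine mul_le_mul (hC₁ _) (h2.trans ?_) (norm_nonneg _) ((norm_nonneg _).trans (hC₁ 0))
      nlinarith [p1 x, p2 x]
    · rw [norm_mul, norm_mul, Real.norm_of_nonneg (c.nonneg ν x), Real.norm_of_nonneg (p1 x)]
      exact (mul_le_of_le_one_left (mul_nonneg (norm_nonneg _) (p1 x)) (c.le_one ν x)).trans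
        (mul_le_mul_of_nonneg_right (hC₂ _) (p1 x))
  · refine ae_restrict_of_forall_mem hΩ.measurableSet fun x hx => ?_
    choose e h1 h2 using fun ν => F3 ν x hx
    have h3 : Tendsto e atTop (𝓝 0) := squeeze_zero_norm h2 (by
      simpa using (hε.mul_const (nm K s ((dt (r + 1)).curryLeft v) x + ϱ x)).const_mul 2)
    have h4 := (h3.const_mul (χ (s x))).add_const (fderiv ℝ χ (s x) v * ϱ x)
    rw [mul_zero, zero_add] at h4
    refine h4.congr' ?_
    filter_upwards [c.lim x] with ν hν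
    rw [h1, hν.self_of_nhds, one_mul]

end Vale.Agent.P284Z.L
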