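import Vale.Agent.P284Z.L.Spec

/-!
# P284Z, block L: a finite measure with zero derivative is dominated by the Lebesgue measure
-/

open scoped ContDiff Topology ENNReal
open Filter Set Function Metric MeasureTheory

noncomputable section

namespace Vale.Agent.P284Z.L

namespace S2b

variable {E : Type} [NormedAddCommGroup E] [NormedSpace ℝ E] [FiniteDimensional ℝ E]
  [MeasurableSpace E] [BorelSpace E] {μ : Measure E} [IsFiniteMeasure μ] {t₀ : E} {R₁ R : ℝ}

theorem hasFDerivAt_tr {φ : E → ℝ} (h1 : ContDiff ℝ ∞ φ) (h2 : HasCompactSupport φ) (a : E) :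
    HasFDerivAt (fun a => ∫ x, φ (x - a) ∂μ) (∫ x, -fderiv ℝ φ (x - a) ∂μ) a ∧
      Integrable (fun x => -fderiv ℝ φ (x - a)) μ := by
  have h3 : Continuous (fderiv ℝ φ) := h1.continuous_fderiv (by simp)
  obtain ⟨C, hC⟩ := h3.bounded_above_of_compact_support (h2.fderiv (𝕜 := ℝ))
  obtain ⟨C', hC'⟩ := h1.continuous.bounded_above_of_compact_support h2
  have h4 : ∀ a : E, Continuous fun x => φ (x - a) := fun a =>
    h1.continuous.comp (continuous_id.sub continuous_const)
  have h5 : Continuous fun x => -fderiv ℝ φ (x - a) :=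
    (h3.comp (continuous_id.sub continuous_const)).neg
  refine ⟨hasFDerivAt_integral_of_dominated_of_fderiv_le (F' := fun a x => -fderiv ℝ φ (x - a))
    (bound := fun _ => C) univ_mem (Eventually.of_forall fun a => (h4 a).aestronglyMeasurable)
    (Integrable.of_bound (h4 a).aestronglyMeasurable C' (ae_of_all _ fun x => hC' _))
    h5.aestronglyMeasurable (ae_of_all _ fun x b _ => (norm_neg _).trans_le (hC _))
    (integrable_const C) (ae_of_all _ fun x b _ => ?_),
    Integrable.of_bound h5.aestronglyMeasurable C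
      (ae_of_all _ fun x => (norm_neg _).trans_le (hC _))⟩
  have h6 := ((h1.differentiable (by simp)) (x - b)).hasFDerivAt.comp b
    ((hasFDerivAt_id b).const_sub x)
  rwa [ContinuousLinearMap.comp_neg, ContinuousLinearMap.comp_id] at h6

theorem ball_le (h : ∀ χ : E → ℝ, ContDiff ℝ ∞ χ → HasCompactSupport χ → tsupport χ ⊆ ball t₀ R →
      ∀ v : E, ∫ t, fderiv ℝ χ t v ∂μ = 0) {r : ℝ} (hr : 0 < r) (hR : 2 * r + R₁ ≤ R) {a b : E}
    (ha : a ∈ ball t₀ R₁) (hb : b ∈ ball t₀ R₁) : μ (closedBall a r) ≤ μ (closedBall b (2 * r)) := by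
  let φ : ContDiffBump (0 : E) := ⟨r, 2 * r, hr, by linarith⟩
  have h0 : ∀ a x : E, x ∉ closedBall a (2 * r) → φ (x - a) = 0 := fun a x hx =>
    φ.zero_of_le_dist (by
      rw [dist_zero_right, ← dist_eq_norm]
      exact (not_le.1 hx).le)
  have h1 := fun a => hasFDerivAt_tr (μ := μ) φ.contDiff φ.hasCompactSupport a
  have h2 : ∫ x, φ (x - a) ∂μ = ∫ x, φ (x - b) ∂μ :=
    isOpen_ball.is_const_of_fderiv_eq_zero (𝕜 := ℝ) (f := fun a => ∫ x, φ (x - a) ∂μ)
      (convex_ball t₀ R₁).isPreconnected (fun c _ => (h1 c).1.differentiableAt.differentiableWithinAt)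
      (fun c hc => by
        rw [(h1 c).1.fderiv]
        refine ContinuousLinearMap.ext fun v => ?_
        have h3 := h (fun x => φ (x - c)) (φ.contDiff.comp (contDiff_id.sub contDiff_const))
          (HasCompactSupport.intro (isCompact_closedBall c (2 * r)) (h0 c))
          ((closure_minimal (support_subset_iff'.2 (h0 c)) isClosed_closedBall).trans
            (closedBall_subset_ball' (by linarith [mem_ball.1 hc]))) v
        simp only [fderiv_comp_sub] at h3
        rw [ContinuousLinearMap.integral_apply (h1 c).2]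
        simp only [neg_apply, integral_neg, h3, neg_zero]
        rfl) ha hb
  have h3 : ∀ a : E, Integrable (fun x => φ (x - a)) μ := fun a => Integrable.of_bound
    (φ.continuous.comp (continuous_id.sub continuous_const)).aestronglyMeasurable 1
    (ae_of_all _ fun x => by rw [Real.norm_of_nonneg φ.nonneg]; exact φ.le_one)
  refine (ENNReal.toReal_le_toReal (measure_ne_top _ _) (measure_ne_top _ _)).1 ?_
  have e : ∀ (c : E) (s : ℝ), (μ (closedBall c s)).toReal =
      ∫ x, (closedBall c s).indicator (1 : E → ℝ) x ∂μ := fun c s =>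
    (integral_indicator_one measurableSet_closedBall).symm
  rw [e, e]
  refine (integral_mono ((integrable_const 1).indicator measurableSet_closedBall) (h3 a)
    fun x => ?_).trans (h2.trans_le (integral_mono (h3 b)
      ((integrable_const 1).indicator measurableSet_closedBall) fun x => ?_))
  · exact indicator_le' (fun y hy => (φ.one_of_mem_closedBall
      (mem_closedBall_zero_iff.2 (mem_closedBall_iff_norm.1 hy))).ge) (fun _ _ => φ.nonneg) x
  · exact le_indicator (fun _ _ => φ.le_one) (fun x hx => (h0 b x hx).le) x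

theorem lint_ball (ν : Measure E) [ν.IsAddHaarMeasure] (s : ℝ) :
    ∫⁻ b, μ (closedBall b s) ∂ν = ν (closedBall 0 s) * μ univ := by
  have hS : MeasurableSet {q : E × E | dist q.2 q.1 ≤ s} :=
    (isClosed_le (continuous_snd.dist continuous_fst) continuous_const).measurableSet
  refine (Measure.prod_apply hS).symm.trans ((Measure.prod_apply_symm hS).trans ?_)
  rw [← lintegral_const]
  refine lintegral_congr fun x => ?_
  rw [← ν.addHaar_closedBall_center x]
  exact congrArg ν (Set.ext fun b => by simp [dist_comm])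

theorem main (ν : Measure E) [ν.IsAddHaarMeasure] (hR : R₁ < R)
    (h : ∀ χ : E → ℝ, ContDiff ℝ ∞ χ → HasCompactSupport χ → tsupport χ ⊆ ball t₀ R →
      ∀ v : E, ∫ t, fderiv ℝ χ t v ∂μ = 0) :
    ∃ V₀ < (⊤ : ℝ≥0∞), ∀ g : E → ℝ≥0∞,
      ∫⁻ t in ball t₀ R₁, g t ∂μ ≤ V₀ * ∫⁻ t in ball t₀ R₁, g t ∂ν := by
  rcases le_or_gt R₁ 0 with h0 | h0
  · exact ⟨0, ENNReal.zero_lt_top, fun g => by simp [ball_eq_empty.2 h0]⟩
  have h1 : ν (ball t₀ R₁) ≠ 0 := (measure_ball_pos ν t₀ h0).ne'
  let V : ℝ≥0∞ := ENNReal.ofReal (2 ^ Module.finrank ℝ E) * μ univ / ν (ball t₀ R₁)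
  have hV : V ≠ ⊤ :=
    ENNReal.div_ne_top (ENNReal.mul_ne_top ENNReal.ofReal_ne_top (measure_ne_top _ _)) h1
  have h2 : ∀ a ∈ ball t₀ R₁, ∀ r > 0, 2 * r + R₁ ≤ R →
      μ (closedBall a r) ≤ (V.toNNReal • ν) (closedBall a r) := fun a ha r hr h2 => by
    rw [Measure.smul_apply, ENNReal.smul_def, ENNReal.coe_toNNReal hV, smul_eq_mul,
      ν.addHaar_closedBall_center, ← ENNReal.mul_div_right_comm,
      ENNReal.le_div_iff_mul_le (Or.inl h1) (Or.inl measure_ball_lt_top.ne), mul_right_comm,
      ← ν.addHaar_closedBall_mul_of_pos 0 two_pos, ← lint_ball, ← setLIntegral_const]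
    exact (setLIntegral_mono' measurableSet_ball fun b hb => ball_le h hr h2 ha hb).trans
      (setLIntegral_le_lintegral _ _)
  have h3 : μ.restrict (ball t₀ R₁) ≤ V.toNNReal • ν.restrict (ball t₀ R₁) := by
    refine Measure.le_iff.2 fun s hs => ?_
    rw [← Measure.restrict_smul, Measure.restrict_apply hs, Measure.restrict_apply hs]
    refine (Besicovitch.vitaliFamily μ).measure_le_of_frequently_le _ .rfl _ fun a ha => ?_
    refine (Besicovitch.tendsto_filterAt μ a).frequently (Eventually.frequently ?_)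
    filter_upwards [Ioo_mem_nhdsGT (half_pos (sub_pos.2 hR))] with r hr
    exact h2 a ha.2 r hr.1 (by linarith [hr.2])
  refine ⟨V, hV.lt_top, fun g => (lintegral_mono' h3 le_rfl).trans ?_⟩
  rw [lintegral_smul_measure, ENNReal.smul_def, ENNReal.coe_toNNReal hV, smul_eq_mul]

end S2b

theorem st2b : St2b := fun _ _ _ _ _ _ hR h =>
  (S2b.main volume hR h).imp fun _ hV => ⟨hV.1, fun g _ => hV.2 g⟩

end Vale.Agent.P284Z.L
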