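import Vale.Agent.P284Z.L.S3.B
import Vale.Agent.P284Z.K.Bas

/-!
# P284Z, L3: the engine on `O`
-/

set_option linter.all false

open scoped ContDiff Topology ComplexOrder ComplexConjugate ENNReal
open Filter Set Function Metric MeasureTheory

noncomputable section

namespace Vale.Agent.P284Z.L

open Vale.Agent.P272.K Vale.Agent.P284.H608.K J Vale.Agent.P284.H650

namespace S3

variable {n p : ℕ} {Γ E : Type} [Group Γ] [TopologicalSpace E] [MulAction Γ E] {C : Cov n Γ E}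
  {O Ω : Set E} [MeasurableSpace E] (P : Pre C O) {s : E → Cm p}

/-- `|ds|²` in the charts -/
def rf (s : E → Cm p) : Γ → C.I → Cm n → ℝ := fun γ a z =>
  (hn (P.w γ a z) (dF (fun y => s (C.pt γ a y)) z) (dF (fun y => s (C.pt γ a y)) z)).re

/-- the density of the mass in the charts -/
def tf (s : E → Cm p) : Γ → C.I → Cm n → ℝ := fun γ a z =>
  (P.w γ a z + C.pbs s γ a z).det.re / (P.w γ a z).det.re

theorem fn_rf (h1 : K1Stmt) (hs : C.HolOn s O) : Fn C (rf P s) O := by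
  refine ⟨fun γ g a b z h hy => ?_, fun γ a z hz hy =>
    cont_hn (cf_cont P.cf hz hy) (P.pos _ _ z hz hy) (hs γ a z hz hy)⟩
  have hy' : C.pt γ b (C.tr g a b z) ∈ O := (C.pt_tr h γ).symm ▸ hy
  unfold rf
  rw [P.cf.1 _ hy γ g a b z h rfl, dF_congr (JGx.pt_tr_ev h γ s),
    hn_tr h1 (b := fun y => s (C.pt γ b y)) (C.an_tr h) ⟨LeftInverse.injective (C.fderiv_tr_inv h),
      RightInverse.surjective (C.fderiv_tr_inv' h)⟩ (hs γ b _ (C.tr_mem h) hy')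
      (P.pos γ b _ (C.tr_mem h) hy')]

theorem fn_tf (hs : C.CFOn (C.pbs s) O) : Fn C (tf P s) O := by
  refine ⟨fun γ g a b z h hy => ?_, fun γ a z hz hy =>
    (cont_det ((cf_cont P.cf hz hy).add (cf_cont hs hz hy))).div (cont_det (cf_cont P.cf hz hy))
      (det_pos (P.pos _ _ z hz hy)).ne'⟩
  have h1 := (det_pos (P.pos _ _ z h.1 hy)).ne'
  unfold tf
  rw [P.cf.1 _ hy γ g a b z h rfl] at h1 ⊢
  rw [hs.1 _ hy γ g a b z h rfl, pb, pb, ← Matrix.add_mul, ← Matrix.mul_add, ← pb, ← pb]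
  rw [JGx.det_pb, Complex.re_ofReal_mul] at h1 ⊢
  rw [JGx.det_pb, Complex.re_ofReal_mul, mul_div_mul_left _ _ (left_ne_zero_of_mul h1)]

theorem kev {ψ : E → ℝ} {hψ : ∀ y ∈ O, C.SmAt ψ y} {i : (P.K ψ hψ).I} {z : Cm n} {V : Type}
    (h : z ∈ ((P.K ψ hψ).e i).target) (F : E → V) :
    (fun w => F (((P.K ψ hψ).e i).symm w)) =ᶠ[𝓝 z] fun w => F (C.pt i.1 i.2 w) :=
  ev_symm (hO := P.hO) h F

theorem tv (h1 : K1Stmt) (hs : Sub C s O) {ψ : E → ℝ} (hψ : ∀ y ∈ O, C.SmAt ψ y) :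
    Tv (P.K ψ hψ) (fun y => s y) (fun y => ψ y) fun y => gl C (rf P s) y := by
  refine ⟨fun _ _ _ => rfl, fun i z hz => (kev P hz ψ).self_of_nhds.symm,
    fun i z hz => (hs.hol _ _ z hz.1 hz.2).congr (kev P hz s).symm,
    fun i z hz => (kev P hz s).fderiv_eq (𝕜 := ℂ) ▸ hs.surj _ _ z hz.1 hz.2, fun i z hz => ?_⟩
  rw [dF_congr (kev P hz s)]
  exact (kev P hz _).self_of_nhds.trans ((fn_rf P h1 hs.hol).pt hz.1 hz.2)

theorem rf_nonneg (y : O) : 0 ≤ gl C (rf P s) y := by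
  obtain ⟨h1, h2⟩ := JGx.ch₀_spec (C := C) y.1
  exact (Complex.le_def.1 (Vale.Agent.P284.H619.K.hn_self_nonneg
    (P.pos _ _ _ h1 (h2.symm ▸ y.2)) _)).1

/-- the measure `|ds|² dV` -/
def nu (s : E → Cm p) : Measure O := P.μ.withDensity fun y => ENNReal.ofReal (gl C (rf P s) y)

variable [BorelSpace E] (h1 : K1Stmt) (hs : Sub C s O)
include h1 hs

theorem rf_meas : Measurable fun y : O => ENNReal.ofReal (gl C (rf P s) y) :=
  ((fn_rf P h1 hs.hol).continuous P.hO).measurable.ennreal_ofReal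

theorem nu_eq (F : O → ℝ) : ∫⁻ y, ENNReal.ofReal (F y) ∂nu P s =
    ∫⁻ y, ENNReal.ofReal (F y * gl C (rf P s) y) ∂P.μ := by
  rw [nu, lintegral_withDensity_eq_lintegral_mul_non_measurable _ (rf_meas P h1 hs)
    (Eventually.of_forall fun _ => ENNReal.ofReal_lt_top)]
  exact lintegral_congr fun y => by
    rw [Pi.mul_apply, mul_comm, ENNReal.ofReal_mul' (rf_nonneg P y)]

theorem low [Countable Γ] (hw : Psd C (P.w - C.om 1 fun _ => 0) O) :
    ∃ c < (⊤ : ℝ≥0∞), ∀ a (ξ : Fin p → Cm n), ‖ξ‖ ≤ 1 → ∀ f : E → ℝ≥0∞,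
      (Measurable fun y : O => f y) →
      ∑' γ : Γ, ∫⁻ z in {z ∈ C.B 3 a | C.pt γ a z ∈ O},
        f (C.pt γ a z) * ‖ds C s γ a z ξ‖ₑ ^ 2 ≤ c * ∫⁻ y : O, f y ∂nu P s := by
  have h2 : ∀ a, ∃ K : ℝ, 0 ≤ K ∧ ∀ γ, ∀ z ∈ C.B 3 a, C.pt γ a z ∈ O → ∀ ξ : Fin p → Cm n,
      ‖ξ‖ ≤ 1 → ‖ds C s γ a z ξ‖ ^ 2 ≤ K * (rf P s γ a z * (P.w γ a z).det.re) := fun a => by
    obtain ⟨c, hc, h2⟩ := K.rho_dom (C := C) a (C.isCompact_cB 3 a) (C.cB_sub_B (by norm_num) a)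
      (A := fun _ => 1) continuousOn_const fun _ _ => Matrix.isHermitian_one
    obtain ⟨K, h0, h3⟩ := low_pt n p (one_pos.trans_le hc)
    refine ⟨K, h0, fun γ z hz hy ξ hξ => ?_⟩
    have hz' := C.B_mono (by norm_num : (3 : ℝ) ≤ 4) a hz
    rw [ds, ← dF_apply]
    refine h3 _ (P.pos _ _ z hz' hy) ?_ _ ξ hξ
    have := (psd_smul (hw γ a z hz' hy) (zero_le_one.trans hc)).add (h2 z (C.B_sub_cB 3 a hz))
    simpa only [Cov.om, Pi.sub_apply, one_mul, add_zero, smul_sub, sub_add_sub_cancel] using this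
  choose K h0 hK using h2
  refine ⟨∑ a, ENNReal.ofReal (K a), ENNReal.sum_lt_top.2 fun _ _ => ENNReal.ofReal_lt_top,
    fun a ξ hξ f hf => ?_⟩
  have hm := hf.mul (rf_meas P h1 hs)
  have h3 : ∀ γ, ∫⁻ z in {z ∈ C.B 3 a | C.pt γ a z ∈ O}, f (C.pt γ a z) * ‖ds C s γ a z ξ‖ₑ ^ 2 ≤
      ENNReal.ofReal (K a) * ∫⁻ y in Pre.pc O 3 γ a,
        f y * ENNReal.ofReal (gl C (rf P s) y) ∂P.μ := fun γ => by
    rw [P.lint P.hO subset_rfl (by norm_num) γ a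
      (f := fun y => f y * ENNReal.ofReal (gl C (rf P s) y)) hm,
      ← lintegral_const_mul' _ _ ENNReal.ofReal_ne_top]
    refine setLIntegral_mono' (((C.continuousOn_pt γ a).mono (C.B_mono (by norm_num) a)
      ).isOpen_inter_preimage (C.isOpen_B 3 a) P.hO).measurableSet fun z hz => ?_
    have h4 := rf_nonneg P (s := s) ⟨_, hz.2⟩
    rw [(fn_rf P h1 hs.hol).pt (C.B_mono (by norm_num) a hz.1) hz.2] at h4 ⊢
    rw [mul_assoc, mul_left_comm, ← ofReal_norm_eq_enorm, ← ENNReal.ofReal_pow (norm_nonneg _),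
      ← ENNReal.ofReal_mul h4]
    exact mul_le_mul_right ((ENNReal.ofReal_le_ofReal (hK a γ z hz.1 hz.2 ξ hξ)).trans_eq
      (ENNReal.ofReal_mul (h0 a))) _
  refine (ENNReal.tsum_le_tsum h3).trans ?_
  rw [ENNReal.tsum_mul_left, ← lintegral_iUnion (fun γ => Pre.pc_meas P.hO (by norm_num) γ a), nu,
    lintegral_withDensity_eq_lintegral_mul _ (rf_meas P h1 hs) hf]
  · exact mul_le_mul' (Finset.single_le_sum (f := fun a => ENNReal.ofReal (K a))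
      (fun _ _ => zero_le) (Finset.mem_univ a))
      ((setLIntegral_le_lintegral _ _).trans_eq (lintegral_congr fun _ => mul_comm _ _))
  · refine fun γ γ' h => disjoint_left.2 ?_
    rintro y ⟨-, z, k1, k2⟩ ⟨-, z', k3, k4⟩
    have k5 := C.Ov_of_eq (C.B_mono (by norm_num) a k1) (C.B_mono (by norm_num) a k3)
      (k2.trans k4.symm)
    exact h (inv_mul_eq_one.1 (C.disj _ a _ ((C.e a).map_target (C.mem_tgt.2 k5.1.1)) k5.1.2)).symm

omit h1 hs in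
theorem pf [Countable Γ] [T2Space E] {r : ℕ} {s : E → Cm (r + 1)} (hE : Eng) (hs : Sub C s O)
    (h2a : St2a) (h2b : St2b) {h0 : ∀ y ∈ O, C.SmAt (fun _ => (0 : ℝ)) y} (hc : (P.K _ h0).Cut)
    (hp : C.CFOn (C.pbs s) O) {t₀ : Cm (r + 1)} {R : ℝ} (T : Tb s O Ω t₀ R)
    (hm : ∑' γ : Γ, ∑ a, ∫⁻ z in {z ∈ C.B 1 a | C.pt γ a z ∈ Ω},
      ENNReal.ofReal (P.w γ a z + C.pbs s γ a z).det.re < ⊤) :
    ∀ R₁ < R, ∃ V₀ < (⊤ : ℝ≥0∞), ∀ g : Cm (r + 1) → ℝ≥0∞, Measurable g →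
      ∫⁻ y in {y : O | y.1 ∈ Ω ∧ s y ∈ ball t₀ R₁}, g (s y) ∂nu P s ≤
        V₀ * ∫⁻ t in ball t₀ R₁, g t := by
  intro R₁ hR
  have h1 : Continuous fun y : O => s y := continuous_iff_continuousAt.2 fun y =>
    (hs.hol.continuousAt C y.2).comp continuous_subtype_val.continuousAt
  have h2 : IsOpen {y : O | y.1 ∈ Ω} := T.opn.preimage continuous_subtype_val
  have h3 := fn_tf P hp
  have h4 := rf_meas P hE.k1 hs
  obtain ⟨k1, k2⟩ := h2a hE n r O _ hc _ _ (tv P hE.k1 hs _) _ t₀ R h2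
    (fun r' hr => closure_subset_iff_isClosed.1 fun y hy => ⟨T.clos r' hr y y.2
      (map_mem_closure continuous_subtype_val hy fun _ k => k),
      closure_minimal (fun _ k => k.2) (isClosed_le (h1.sub continuous_const).norm
        continuous_const) hy⟩) (fun y => gl C (tf P s) y) (fun i z hz => by
      rw [JGx.jm_congr (kev P hz s)]
      refine le_of_eq ((div_mul_cancel₀ _ (det_pos (P.pos _ _ z hz.1 hz.2)).ne').symm.trans ?_)
      exact congrArg (· * _) ((kev P hz _).self_of_nhds.trans (h3.pt hz.1 hz.2)).symm) (by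
      refine lt_of_le_of_lt ((lintegral_mono_set (t := ⋃ γ, ⋃ a, Pre.pc (C := C) Ω 1 γ a)
        fun y hy => ?_).trans ((lintegral_iUnion_le _ _).trans (ENNReal.tsum_le_tsum fun γ =>
          (lintegral_iUnion_le _ _).trans ?_))) hm
      · obtain ⟨γ, a, z, hz, e⟩ := C.exists_pt y.1
        exact mem_iUnion.2 ⟨γ, mem_iUnion.2 ⟨a, hy, z, hz, e.symm⟩⟩
      rw [tsum_fintype]
      refine Finset.sum_le_sum fun a _ => (P.lint T.opn T.sub (by norm_num) γ a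
        (f := fun y => ENNReal.ofReal (gl C (tf P s) y))
        (h3.continuous P.hO).measurable.ennreal_ofReal).trans_le ?_
      refine setLIntegral_mono' (((C.continuousOn_pt γ a).mono fun _ => C.B14
        ).isOpen_inter_preimage (C.isOpen_B 1 a) T.opn).measurableSet fun z hz => ?_
      have h5 := det_pos (P.pos _ _ z (C.B14 hz.1) (T.sub hz.2))
      rw [h3.pt (C.B14 hz.1) (T.sub hz.2), ← ENNReal.ofReal_mul' h5.le, tf,
        div_mul_cancel₀ _ h5.ne'])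
  have : IsFiniteMeasure ((nu P s).restrict {y : O | y.1 ∈ Ω}) :=
    ⟨by rwa [Measure.restrict_apply_univ, nu, withDensity_apply _ h2.measurableSet]⟩
  obtain ⟨V₀, k3, k4⟩ := h2b _ (((nu P s).restrict {y : O | y.1 ∈ Ω}).map fun y : O => s y)
    t₀ R₁ R hR fun χ c1 c2 c3 v => by
      rw [integral_map h1.aemeasurable ((c1.continuous_fderiv (by simp)).clm_apply
        continuous_const).aestronglyMeasurable, nu, setIntegral_withDensity_eq_setIntegral_toReal_smul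
        h4 (Eventually.of_forall fun _ => ENNReal.ofReal_lt_top) _ h2.measurableSet,
        ← k2 χ c1 c2 c3 v]
      exact integral_congr_ae (Eventually.of_forall fun y => by
        simp only [ENNReal.toReal_ofReal (rf_nonneg P y), smul_eq_mul, mul_comm])
  refine ⟨V₀, k3, fun g hg => le_of_eq_of_le ?_ (k4 g hg)⟩
  rw [setLIntegral_map measurableSet_ball hg h1.measurable,
    Measure.restrict_restrict (h1.measurable measurableSet_ball), inter_comm]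
  rfl

omit h1 hs [MeasurableSpace E] [BorelSpace E] in
theorem fib_lf (hs : Sub C s O) {V : Type} [NormedAddCommGroup V] [NormedSpace ℝ V] {f : E → V}
    (hf : ∀ y ∈ O, C.SmAt f y) (h : Fib s f O) {γ : Γ} {a : C.I} {z : Cm n} (hz : z ∈ C.B 4 a)
    (hy : C.pt γ a z ∈ O) : Lf (fun w => s (C.pt γ a w)) (fun w => f (C.pt γ a w)) z :=
  lf_of (hs.hol γ a z hz hy) (hs.surj γ a z hz hy)
    ((hf _ hy γ a z hz rfl).differentiableAt (by simp))
    (((C.continuousAt_pt hz γ).prodMap' (C.continuousAt_pt hz γ)).eventually (h _ hy))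

omit h1 hs in
theorem solve [T2Space E] {r : ℕ} {s : E → Cm (r + 1)} (hE : Eng) (hs : Sub C s O) (h1 : St1)
    (hc : ∀ ψ hψ, Nonempty (P.K ψ hψ).Cut) (ψ : E → ℝ) (g : E → ℂ) (Λ : E → ℝ) (C₀ : ℝ)
    (D : Dat C s O ψ g Λ) (h0 : 0 ≤ C₀)
    (h2 : ∫⁻ y : O, ENNReal.ofReal (‖g y‖ ^ 2 * Real.exp (-ψ y)) ∂nu P s < ⊤)
    (h3 : ∫⁻ y : O, ENNReal.ofReal (Λ y * Real.exp (-ψ y)) ∂nu P s ≤ ENNReal.ofReal C₀) :
    ∃ f : E → ℂ, C.HolOn f O ∧ Bas C s f O ∧ ∫⁻ y : O,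
      ENNReal.ofReal (‖f y - g y‖ ^ 2 * Real.exp (-ψ y)) ∂nu P s ≤ ENNReal.ofReal C₀ := by
  classical
  obtain ⟨ε, hε, h4⟩ := D.ψ_psd
  rw [nu_eq P hE.k1 hs] at h2 h3
  obtain ⟨f, k1, k2⟩ := h1 hE n r O _ (hc ψ D.ψ_sm).some _ _ _ (tv P hE.k1 hs D.ψ_sm) ε hε
    (fun i z hz => by
      rw [JGx.jm_congr (kev P hz s)]
      exact h4 _ _ z hz.1 hz.2)
    (fun i z hz => Lf.congr (fib_lf hs D.ψ_sm D.ψ_fib hz.1 hz.2) (kev P hz s) EventuallyEq.rfl)
    (fun y => g y) (fun i z hz => ⟨(D.g_sm _ hz.2 _ _ z hz.1 rfl).congr_of_eventuallyEq (kev P hz g),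
      Lf.congr (fib_lf hs D.g_sm D.g_fib hz.1 hz.2) (kev P hz s) (kev P hz g)⟩) h2
    (fun y => Λ y) (fun y => D.Λ_nonneg y y.2) (fun i z hz => by
      rw [bb_congr (kev P hz g), show Λ _ = _ from (kev P hz Λ).self_of_nhds]
      exact D.Λ_psd _ _ z hz.1 hz.2) C₀ h0 h3
  obtain ⟨F, hF⟩ : ∃ F : E → ℂ, ∀ y : O, F y = f y :=
    ⟨fun y => if h : y ∈ O then f ⟨y, h⟩ else 0, fun y => dif_pos y.2⟩
  simp only [← hF] at k1 k2
  refine ⟨F, fun γ a z hz hy => (k1 (γ, a) z ⟨hz, hy⟩).1.congr (kev P (i := (γ, a)) ⟨hz, hy⟩ F),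
    fun γ a z hz hy => ?_, (nu_eq P hE.k1 hs _).trans_le k2⟩
  have := (k1 (γ, a) z ⟨hz, hy⟩).2
  rwa [Kil, (kev P (i := (γ, a)) ⟨hz, hy⟩ F).fderiv_eq,
    (kev P (i := (γ, a)) ⟨hz, hy⟩ s).fderiv_eq] at this

end S3

open S3 in
theorem st3 : St3 := by
  intro hE h1 h2a h2b _ n p Γ E _ _ _ _ _ _ _ C jg hp s O Ω t₀ R ⟨y₀, hy⟩ hs T M
  obtain ⟨r, rfl⟩ := Nat.exists_eq_add_of_le' hp
  have : SigmaCompactSpace O := isSigmaCompact_iff_sigmaCompactSpace.1 (by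
    rw [show O = ⋃ c : ℕ, {y ∈ O | M.η y ≤ c} from (iUnion_subset fun _ _ h => h.1).antisymm'
      fun y h => mem_iUnion.2 ((exists_nat_ge (M.η y)).imp fun _ k => ⟨h, k⟩)]
    exact isSigmaCompact_iUnion_of_isCompact _ fun c => M.η_cpt c)
  obtain ⟨P, hP⟩ := exists_pre hE.meas hs.opn ⟨y₀, hy⟩ (jg.cf_om M.A M.κ O hs.opn M.sm)
    fun γ a z hz h => by
      have := (C.ρ_pos a z hz).add_posSemidef (M.ge γ a z hz h)
      simpa only [Cov.om, Pi.sub_apply, one_mul, add_zero, add_sub_cancel] using this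
  obtain ⟨K, hK⟩ := M.η_grad
  have hc := fun ψ hψ => P.cut ψ hψ M.η_sm M.η_cpt (hP ▸ hK)
  exact ⟨⟨nu P s, low P hE.k1 hs (hP ▸ M.ge), pf P hE hs h2a h2b
    (hc _ fun _ _ _ _ _ _ _ => contDiffAt_const).some (jg.cf_pbs _ s O hs.opn hs.hol) T
    (hP ▸ M.mass), solve P hE hs h1 hc⟩⟩

end Vale.Agent.P284Z.L
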