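import Vale.Agent.P284Z.L.Spec
import Vale.Agent.P284Z.F0.Sec

/-!
# P284Z, block L, piece 4a: affine coordinates
-/

set_option linter.all false

open scoped ContDiff Topology
open Filter Set Function Metric

noncomputable section

namespace Vale.Agent.P284Z.L

open Vale.Agent.P272.K

namespace S4a

section loc
variable {n p : ℕ} {H : Type} [NormedAddCommGroup H] [NormedSpace ℂ H]

theorem surj_iff (L : Cm n →L[ℂ] Cm p) :
    Surjective L ↔ ∃ ξ : Fin p → Cm n, (Matrix.of fun i j => L (ξ j) i).det ≠ 0 := by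
  constructor
  · intro h
    choose ξ hξ using fun j : Fin p => h (Pi.single j 1)
    refine ⟨ξ, ?_⟩
    have e : (Matrix.of fun i j => L (ξ j) i) = 1 := by
      ext i j
      rw [Matrix.of_apply, hξ, Matrix.one_apply, Pi.single_apply]
    rw [e, Matrix.det_one]
    exact one_ne_zero
  · rintro ⟨ξ, h⟩ v
    obtain ⟨c, hc⟩ := Matrix.mulVec_surjective_iff_isUnit.2
      ((Matrix.isUnit_iff_isUnit_det _).2 (isUnit_iff_ne_zero.2 h)) v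
    refine ⟨∑ j, c j • ξ j, ?_⟩
    rw [← hc, map_sum]
    ext i
    simp [Matrix.mulVec, dotProduct, Finset.sum_apply, mul_comm]

theorem exists_dual {v : Fin (p + 1) → H} (hv : LinearIndependent ℂ v) :
    ∃ T : H →L[ℂ] Cm (p + 1), ∀ k, T (v k) = Pi.single k 1 := by
  have := FiniteDimensional.span_of_finite ℂ (finite_range v)
  obtain ⟨T, hT⟩ := ((Module.Basis.span hv).equivFunL :
    Submodule.span ℂ (range v) →L[ℂ] Cm (p + 1)).exist_extension_of_finiteDimensional_range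
  refine ⟨T, fun k => ?_⟩
  have h := congrArg (fun L : Submodule.span ℂ (range v) →L[ℂ] Cm (p + 1) =>
    L (Module.Basis.span hv k)) hT
  simp only [ContinuousLinearMap.comp_apply, Submodule.subtypeL_apply,
    Module.Basis.span_apply] at h
  rw [← h]
  ext i
  simp [Pi.single_apply, Finsupp.single_apply, eq_comm]

/-- the determinant without denominators -/
def Dl (l₀ : H →L[ℂ] ℂ) (l : H →L[ℂ] Cm p) (f : Cm n → H) (ξ : Fin p → Cm n) (w : Cm n) : ℂ :=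
  (Matrix.of fun i j => l₀ (f w) * l (fderiv ℂ f w (ξ j)) i -
    l₀ (fderiv ℂ f w (ξ j)) * l (f w) i).det

variable {l₀ : H →L[ℂ] ℂ} {l : H →L[ℂ] Cm p} {f : Cm n → H} {w : Cm n}

theorem Dl_an [CompleteSpace H] (hf : AnalyticAt ℂ f w) (ξ : Fin p → Cm n) :
    AnalyticAt ℂ (Dl l₀ l f ξ) w := by
  have h1 : ∀ j, AnalyticAt ℂ (fun z => fderiv ℂ f z (ξ j)) w := fun j =>
    ((ContinuousLinearMap.apply ℂ H (ξ j)).analyticAt _).comp hf.fderiv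
  have h2 : ∀ i {g : Cm n → H}, AnalyticAt ℂ g w → AnalyticAt ℂ (fun z => l (g z) i) w :=
    fun i _ hg => (((ContinuousLinearMap.proj i).comp l).analyticAt _).comp hg
  unfold Dl
  simp only [Matrix.det_apply', Matrix.of_apply]
  exact Finset.analyticAt_fun_sum _ fun σ _ => analyticAt_const.mul
    (Finset.analyticAt_fun_prod _ fun j _ => (((l₀.analyticAt _).comp hf).mul (h2 _ (h1 j))).sub
      (((l₀.analyticAt _).comp (h1 j)).mul (h2 _ hf)))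

theorem Dl_eq (hf : DifferentiableAt ℂ f w) (hu : l₀ (f w) ≠ 0) {b : Cm n → Cm p}
    (hb : b =ᶠ[𝓝 w] fun z => l ((l₀ (f z))⁻¹ • f z)) (ξ : Fin p → Cm n) :
    Dl l₀ l f ξ w = (l₀ (f w) ^ 2) ^ p * dd b w ξ := by
  have h1 := l.hasFDerivAt.comp w ((((hasDerivAt_inv hu).comp_hasFDerivAt w
    (l₀.hasFDerivAt.comp w hf.hasFDerivAt))).smul hf.hasFDerivAt)
  have h2 : fderiv ℂ b w = _ := hb.fderiv_eq.trans h1.fderiv
  have h3 := Matrix.det_smul (Matrix.of fun i j => fderiv ℂ b w (ξ j) i) (l₀ (f w) ^ 2)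
  rw [Fintype.card_fin] at h3
  rw [Dl, dd, ← h3]
  congr 1
  ext i j
  simp [h2]
  field_simp
  ring

theorem mul_ne {U : Set (Cm n)} (hU : IsOpen U) (hc : IsPreconnected U) {h h' : Cm n → ℂ}
    (h1 : AnalyticOnNhd ℂ h U) (h2 : AnalyticOnNhd ℂ h' U) (e1 : ∃ z ∈ U, h z ≠ 0)
    (e2 : ∃ z ∈ U, h' z ≠ 0) : ∃ z ∈ U, h z * h' z ≠ 0 := by
  obtain ⟨z, hz, e2⟩ := e2
  obtain ⟨w, w1, w2, w3⟩ := ((dense_ne_zero hc h1 e1 hz).and_eventually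
    (((h2 z hz).continuousAt.eventually_ne e2).and (hU.mem_nhds hz))).exists
  exact ⟨w, w3, mul_ne_zero w1 w2⟩

end loc

variable {n p : ℕ} {Γ E : Type} [Group Γ] [TopologicalSpace E] [MulAction Γ E] {C : Cov n Γ E}
  {P : Pol C} {J : IX Γ} {m : ℕ} (Λ : Fn J p) (V : HSec P J m) {γ γ' : Γ} {a b : C.I}
  {z z' : Cm n}

theorem ch₀_spec (C : Cov n Γ E) (y : E) : (C.ch₀ y).2.2 ∈ C.B 4 (C.ch₀ y).2.1 ∧
    C.pt (C.ch₀ y).1 (C.ch₀ y).2.1 (C.ch₀ y).2.2 = y := by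
  obtain ⟨h1, h2⟩ := (C.cover y).choose_spec.choose_spec.choose_spec
  exact ⟨C.B14 (by rwa [Cov.B, one_mul]), h2.symm⟩

theorem cont_of_chart {Z : Type} [TopologicalSpace Z] {f : E → Z}
    (h : ∀ γ a, ∀ z ∈ C.B 4 a, ContinuousAt (fun w => f (C.pt γ a w)) z) : Continuous f := by
  refine continuous_iff_continuousAt.2 fun y => ?_
  obtain ⟨γ, a, z, hz, rfl⟩ := C.exists_pt y
  rw [ContinuousAt, ← C.map_pt' (C.B14 hz), tendsto_map'_iff]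
  exact h γ a z (C.B14 hz)

theorem vv_an (hz : z ∈ C.B 4 a) (γ : Γ) : AnalyticAt ℂ (vv V γ a) z :=
  ((U J γ).analyticAt _).comp (V.an a z hz)

theorem u_an (hz : z ∈ C.B 4 a) (γ : Γ) : AnalyticAt ℂ (Λ.u V γ a) z :=
  (Λ.l₀.analyticAt _).comp (vv_an V hz γ)

theorem vv_ch (hz : z ∈ C.B 4 a) (hz' : z' ∈ C.B 4 b) (e : C.pt γ a z = C.pt γ' b z') :
    ∃ t : ℂ, t ≠ 0 ∧ vv V γ a z = t ^ m • vv V γ' b z' ∧
      C.ρ a z = C.ρ b z' + Real.log (‖t‖ ^ 2) := by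
  obtain ⟨h1, h2⟩ := C.Ov_of_eq hz hz' e
  obtain ⟨g, -, g1, g2⟩ := V.val_ch h1
  obtain ⟨g3, g4⟩ := g2.self_of_nhds
  rw [h2] at g3 g4
  refine ⟨g z, g1, lp.ext (funext fun i => ?_), g4⟩
  have := g3 γ' i
  rw [mul_inv_cancel_left] at this
  exact this

theorem lz_eq (γ : Γ) (hz : z ∈ C.B 4 a) :
    Λ.lz V (C.pt γ a z) = ‖Λ.u V γ a z‖ ^ 2 * Real.exp (-(m : ℝ) * C.ρ a z) := by
  obtain ⟨h1, h2⟩ := ch₀_spec C (C.pt γ a z)
  obtain ⟨t, t0, t1, t2⟩ := vv_ch V hz h1 h2.symm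
  have h6 : 0 < ‖t‖ ^ 2 := by positivity
  rw [Fn.lz, Fn.u, Fn.u, t1, t2, map_smul, norm_smul, norm_pow, mul_add, Real.exp_add,
    neg_mul _ (Real.log _), Real.exp_neg (_ * Real.log _), Real.exp_nat_mul, Real.exp_log h6]
  field_simp
  ring

theorem N_eq (γ : Γ) (hz : z ∈ C.B 4 a) : Nm V (C.pt γ a z) = V.nm a z := by
  obtain ⟨h1, h2⟩ := ch₀_spec C (C.pt γ a z)
  obtain ⟨h3, h4⟩ := C.Ov_of_eq hz h1 h2.symm
  rw [V.nm_ch h3, h4, Nm]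

theorem G_eq (γ : Γ) (hz : z ∈ C.B 4 a) :
    Λ.G V (C.pt γ a z) = (Λ.u V γ a z)⁻¹ • vv V γ a z := by
  obtain ⟨h1, h2⟩ := ch₀_spec C (C.pt γ a z)
  obtain ⟨t, t0, t1, -⟩ := vv_ch V hz h1 h2.symm
  rw [Fn.G, Fn.u, Fn.u, t1, map_smul, smul_smul, smul_eq_mul, mul_inv, mul_right_comm,
    inv_mul_cancel₀ (pow_ne_zero m t0), one_mul]

theorem lz_pos (γ : Γ) (hz : z ∈ C.B 4 a) : 0 < Λ.lz V (C.pt γ a z) ↔ Λ.u V γ a z ≠ 0 := by
  rw [lz_eq Λ V γ hz, mul_pos_iff_of_pos_right (Real.exp_pos _), sq_pos_iff, norm_ne_zero_iff]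

theorem ρ_cont (hz : z ∈ C.B 4 a) (k : ℝ) : ContinuousAt (fun w => Real.exp (k * C.ρ a w)) z :=
  (continuousAt_const.mul (C.ρ_sm a z hz).continuousAt).rexp

theorem σ_cont (P : Pol C) : Continuous P.σ := cont_of_chart (C := C) fun γ a z hz =>
  (((P.s_an a z hz).continuousAt.norm.pow 2).mul (ρ_cont hz (-1))).congr
    (Eventually.mono ((C.isOpen_B 4 a).mem_nhds hz) fun w hw => by
      simp only [P.σ_eq γ a w hw, neg_one_mul]
      rfl)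

theorem lz_cont : Continuous (Λ.lz V) := cont_of_chart (C := C) fun γ a z hz =>
  (((u_an Λ V hz γ).continuousAt.norm.pow 2).mul (ρ_cont hz _)).congr
    (Eventually.mono ((C.isOpen_B 4 a).mem_nhds hz) fun w hw => (lz_eq Λ V γ hw).symm)

theorem N_cont : Continuous (Nm V) := cont_of_chart (C := C) fun γ a z hz =>
  (((V.an a z hz).continuousAt.norm.pow 2).mul (ρ_cont hz _)).congr
    (Eventually.mono ((C.isOpen_B 4 a).mem_nhds hz) fun w hw => (N_eq V γ hw).symm)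

theorem G_hol : C.HolOn (Λ.G V) {y | 0 < Λ.lz V y} := fun γ a z hz h =>
  (((u_an Λ V hz γ).inv ((lz_pos Λ V γ hz).1 h)).smul (vv_an V hz γ)).congr
    (Eventually.mono ((C.isOpen_B 4 a).mem_nhds hz) fun w hw => (G_eq Λ V γ hw).symm)

theorem s_hol : C.HolOn (Λ.s V) {y | 0 < Λ.lz V y} := fun γ a z hz h =>
  (Λ.l.analyticAt _).comp (G_hol Λ V γ a z hz h)

/-- the points where `s` is a submersion -/
def O' : Set E := {y | 0 < Λ.lz V y ∧ ∀ γ a, ∀ z ∈ C.B 4 a,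
  C.pt γ a z = y → Surjective (fderiv ℂ (fun w => Λ.s V (C.pt γ a w)) z)}

theorem mem_O' (hz : z ∈ C.B 4 a) (h : 0 < Λ.lz V (C.pt γ a z)) {ξ : Fin p → Cm n}
    (hξ : ds C (Λ.s V) γ a z ξ ≠ 0) : C.pt γ a z ∈ O' Λ V := by
  refine ⟨h, fun γ' b z' hz' e => ?_⟩
  obtain ⟨h1, h2⟩ := C.Ov_of_eq hz hz' e.symm
  have h3 := (surj_iff _).2 ⟨ξ, hξ⟩
  have h4 : (fun w => Λ.s V (C.pt γ a w)) =ᶠ[𝓝 z]
      (fun w => Λ.s V (C.pt γ' b w)) ∘ C.tr (γ'⁻¹ * γ) a b := (C.ev_Ov h1).mono fun w hw => by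
    simp only [Function.comp, C.pt_tr hw, mul_inv_cancel_left]
  rw [h4.fderiv_eq, fderiv_comp z (by
    rw [h2]
    exact (s_hol Λ V γ' b z' hz' (e ▸ h)).differentiableAt) (C.an_tr h1).differentiableAt, h2] at h3
  exact Surjective.of_comp h3

theorem Dl_ds (hz : z ∈ C.B 4 a) (h : Λ.u V γ a z ≠ 0) (ξ : Fin p → Cm n) :
    Dl Λ.l₀ Λ.l (vv V γ a) ξ z = (Λ.u V γ a z ^ 2) ^ p * ds C (Λ.s V) γ a z ξ :=
  Dl_eq (vv_an V hz γ).differentiableAt h (Eventually.mono ((C.isOpen_B 4 a).mem_nhds hz)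
    fun w hw => congrArg Λ.l (G_eq Λ V γ hw)) ξ

theorem mem_of_Dl (hz : z ∈ C.B 4 a) {ξ : Fin p → Cm n}
    (h : Λ.u V γ a z * Dl Λ.l₀ Λ.l (vv V γ a) ξ z ≠ 0) : C.pt γ a z ∈ O' Λ V := by
  have h1 := right_ne_zero_of_mul h
  rw [Dl_ds Λ V hz (left_ne_zero_of_mul h)] at h1
  exact mem_O' Λ V hz ((lz_pos Λ V γ hz).2 (left_ne_zero_of_mul h)) (right_ne_zero_of_mul h1)

theorem key (hz : z ∈ C.B 4 a) (h : C.pt γ a z ∈ O' Λ V) : ∃ f : Cm n → ℂ,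
    AnalyticOnNhd ℂ f (C.B 4 a) ∧ f z ≠ 0 ∧ ∀ w ∈ C.B 4 a, f w ≠ 0 → C.pt γ a w ∈ O' Λ V := by
  obtain ⟨ξ, hξ⟩ := (surj_iff _).1 (h.2 γ a z hz rfl)
  have hu := (lz_pos Λ V γ hz).1 h.1
  refine ⟨fun w => Λ.u V γ a w * Dl Λ.l₀ Λ.l (vv V γ a) ξ w,
    fun w hw => (u_an Λ V hw γ).mul (Dl_an (vv_an V hw γ) ξ), mul_ne_zero hu ?_,
    fun w hw => mem_of_Dl Λ V hw⟩
  rw [Dl_ds Λ V hz hu]
  exact mul_ne_zero (pow_ne_zero _ (pow_ne_zero _ hu)) hξ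

theorem isOpen_O' : IsOpen (O' Λ V) := by
  refine isOpen_iff_mem_nhds.2 fun y hy => ?_
  obtain ⟨γ, a, z, hz, rfl⟩ := C.exists_pt y
  have hz := C.B14 hz
  obtain ⟨f, f1, f2, f3⟩ := key Λ V hz hy
  refine (C.ev_pt hz γ).2 ?_
  filter_upwards [(C.isOpen_B 4 a).mem_nhds hz, (f1 z hz).continuousAt.eventually_ne f2]
    with w w1 w2 using f3 w w1 w2

theorem chart_of_closure (hz : z ∈ C.B 4 a) (h : C.pt γ a z ∈ closure (O' Λ V)) :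
    ∃ w ∈ C.B 4 a, C.pt γ a w ∈ O' Λ V := by
  rw [mem_closure_iff_frequently, ← C.map_pt' hz, frequently_map] at h
  obtain ⟨w, w1, w2⟩ := (h.and_eventually ((C.isOpen_B 4 a).mem_nhds hz)).exists
  exact ⟨w, w2, w1⟩

theorem dense_O' [ConnectedSpace E] (h : (O' Λ V).Nonempty) : closure (O' Λ V) = univ := by
  refine IsClopen.eq_univ ⟨isClosed_closure, isOpen_iff_mem_nhds.2 fun y hy => ?_⟩ h.closure
  obtain ⟨γ, a, z, hz, rfl⟩ := C.exists_pt y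
  have hz := C.B14 hz
  obtain ⟨w, w1, w2⟩ := chart_of_closure Λ V hz hy
  obtain ⟨f, f1, f2, f3⟩ := key Λ V w1 w2
  refine (C.ev_pt hz γ).2 (Eventually.mono ((C.isOpen_B 4 a).mem_nhds hz) fun v hv => ?_)
  change C.pt γ a v ∈ closure (O' Λ V)
  rw [mem_closure_iff_frequently, ← C.map_pt' hv, frequently_map]
  exact ((dense_ne_zero (C.preconn_B 4 a) f1 ⟨w, w1, f2⟩ hv).and_eventually
    ((C.isOpen_B 4 a).mem_nhds hv)).mono fun x hx => f3 x hx.2 hx.1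

theorem exists_Fn (hz : z ∈ C.B 4 a) {ξ : Fin p → Cm n} (h : V.Imm a z ξ) :
    ∃ Λ : Fn J p, C.pt 1 a z ∈ O' Λ V := by
  obtain ⟨T, hT⟩ := exists_dual h
  have e : vv V 1 a = V.L a := funext fun w => lp.ext (funext fun i => by
    rw [vv, U_apply, inv_one, one_smul])
  refine ⟨⟨(ContinuousLinearMap.proj 0).comp T,
    ContinuousLinearMap.pi fun i => (ContinuousLinearMap.proj i.succ).comp T⟩,
    mem_of_Dl _ V hz (ξ := ξ) ?_⟩
  have h0 : T (V.L a z) = Pi.single 0 1 := hT 0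
  have h1 : ∀ j, T (fderiv ℂ (V.L a) z (ξ j)) = Pi.single j.succ 1 := fun j => hT j.succ
  have h2 : (Matrix.of fun i j : Fin p => T (V.L a z) 0 * T (fderiv ℂ (V.L a) z (ξ j)) i.succ -
      T (fderiv ℂ (V.L a) z (ξ j)) 0 * T (V.L a z) i.succ) = 1 := by
    ext i j
    simp [h0, h1, Pi.single_apply, Matrix.one_apply]
  rw [Fn.u, e]
  change T (V.L a z) 0 * (Matrix.of fun i j : Fin p => T (V.L a z) 0 *
    T (fderiv ℂ (V.L a) z (ξ j)) i.succ -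
      T (fderiv ℂ (V.L a) z (ξ j)) 0 * T (V.L a z) i.succ).det ≠ 0
  rw [h2, h0]
  simp

end S4a

open S4a in
theorem st4a : St4a := by
  intro n p Γ E _ _ _ _ _ _ C P J m V D R hq hF a₀ z₀ hz₀ h0 hσ
  obtain ⟨ξ, hξ⟩ := hq.F_imm 0 a₀ z₀ hz₀ h0
  obtain ⟨Λ, hΛ⟩ := exists_Fn V hz₀ (R.Q_imm 0 a₀ z₀ hz₀ ξ hξ)
  have e : Λ.O V (D.F 0) = {y | 0 < D.F 0 y} ∩ ({y | 0 < P.σ y} ∩ O' Λ V) := rfl
  refine ⟨Λ, fun γ a z => lz_eq Λ V γ, fun γ a z => N_eq V γ, fun γ a z => G_eq Λ V γ, σ_cont P,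
    lz_cont Λ V, N_cont V, G_hol Λ V, fun γ a z hz a1 a2 a3 ξ a4 => ⟨a1, a2, mem_O' Λ V hz a3 a4⟩,
    ⟨?_, fun γ a z hz h => s_hol Λ V γ a z hz h.2.2.1, fun γ a z hz h => h.2.2.2 γ a z hz rfl⟩,
    ⟨h0, hσ, hΛ⟩, fun γ a => ?_⟩
  · rw [e]
    exact (isOpen_lt continuous_const (D.F_cont 0)).inter
      ((isOpen_lt continuous_const (σ_cont P)).inter (isOpen_O' Λ V))
  · obtain ⟨w, w1, w2⟩ := chart_of_closure Λ V (γ := γ) (C.c_mem four_pos a)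
      (by rw [dense_O' Λ V ⟨_, hΛ⟩]; trivial)
    obtain ⟨f, f1, f2, f3⟩ := key Λ V w1 w2
    obtain ⟨v, v1, v2⟩ := hF a
    obtain ⟨g, g1, g2, g3⟩ := hq.F_an 0 a v v1 v2
    refine ⟨fun z => g z * (P.s a z * f z), g1.mul ((P.s_an a).mul f1),
      mul_ne (C.isOpen_B 4 a) (C.preconn_B 4 a) g1 ((P.s_an a).mul f1) ⟨v, v1, g2⟩
        (mul_ne (C.isOpen_B 4 a) (C.preconn_B 4 a) (P.s_an a) f1 (P.s_ne a) ⟨w, w1, f2⟩),
      fun z hz h => ⟨?_, P.σ_pos hz (left_ne_zero_of_mul (right_ne_zero_of_mul h)) γ,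
        f3 z hz (right_ne_zero_of_mul (right_ne_zero_of_mul h))⟩⟩
    rw [C.pt_eq γ, D.F_inv]
    exact g3 z hz (left_ne_zero_of_mul h)

end Vale.Agent.P284Z.L
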