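import Vale.Agent.P284Z.L.Spec
import Vale.Agent.P284Z.F0.Cov.Ch
import Vale.Agent.P284.H625.NS.Strt

/-!
# P284Z, block L4b: the local structure
-/

open scoped Topology
open Filter Set Function Metric

noncomputable section

namespace Vale.Agent.P284Z.L

open Vale.Agent.P272.K J

namespace S4b

section alg
variable {H : Type} [AddCommGroup H] [Module ℂ H] {p : ℕ}

theorem li_cons (l₀ : H →ₗ[ℂ] ℂ) {g : H} (hg : l₀ g = 1) {c : ℂ} (hc : c ≠ 0) {d : Fin p → H}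
    (hd : ∀ i, l₀ (d i) = 0) (a : Fin p → ℂ) :
    LinearIndependent ℂ (Fin.cons (c • g) fun i => a i • g + c • d i : Fin (p + 1) → H) ↔
      LinearIndependent ℂ d := by
  have key : ∀ (x₀ : ℂ) (x : Fin p → ℂ), x₀ • c • g + ∑ i, x i • (a i • g + c • d i) =
      (x₀ * c + ∑ i, x i * a i) • g + c • ∑ i, x i • d i := fun x₀ x => by
    simp only [smul_add, Finset.sum_add_distrib, add_smul, Finset.sum_smul, Finset.smul_sum,
      smul_smul, add_assoc, mul_comm c]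
  simp only [Fintype.linearIndependent_iff, Fin.sum_univ_succ, Fin.cons_zero, Fin.cons_succ, key]
  constructor
  · intro h x hx i
    have := h (Fin.cons (-(∑ i, x i * a i) / c) x) (by
      simp only [Fin.cons_zero, Fin.cons_succ, hx, smul_zero, add_zero]
      rw [div_mul_cancel₀ _ hc, neg_add_cancel, zero_smul]) i.succ
    simpa using this
  · intro h y hy
    have h1 := congrArg l₀ hy
    simp only [map_add, map_smul, map_sum, hg, hd, Finset.sum_const_zero, add_zero,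
      smul_eq_mul, mul_one, map_zero, mul_zero] at h1
    rw [h1, zero_smul, zero_add, smul_eq_zero] at hy
    have h2 := h _ (hy.resolve_left hc)
    simp only [h2, zero_mul, Finset.sum_const_zero, add_zero, mul_eq_zero] at h1
    intro i
    refine Fin.cases (h1.resolve_right hc) h2 i

theorem det_ne_iff (d : Fin p → Cm p) :
    (Matrix.of fun i j => d j i).det ≠ 0 ↔ LinearIndependent ℂ d := by
  rw [Ne, ← Matrix.exists_mulVec_eq_zero_iff, Fintype.linearIndependent_iff]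
  have key : ∀ x : Fin p → ℂ, (Matrix.of fun i j => d j i).mulVec x = ∑ j, x j • d j := fun x => by
    funext i
    simp [Matrix.mulVec, dotProduct, mul_comm]
  simp only [key, not_exists, not_and]
  exact ⟨fun h x hx i => by
    by_contra h0
    exact h x (fun e => h0 (congrFun e i)) hx, fun h x h0 hx => h0 (funext (h x hx))⟩

end alg

/-- a local section of a submersion -/
theorem exists_sec {n p : ℕ} {b : Cm n → Cm p} {z : Cm n} (hb : AnalyticAt ℂ b z)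
    (hs : Surjective (fderiv ℂ b z)) :
    ∃ σ : Cm p → Cm n, AnalyticAt ℂ σ (b z) ∧ σ (b z) = z ∧ ∀ᶠ t in 𝓝 (b z), b (σ t) = t := by
  obtain ⟨s, φ, χ, h1, -, -, h2, h3, -, -, h4⟩ := P284.H625.exists_straight hb hs
  have e0 : s (b z - b z) = 0 := by rw [sub_self, map_zero]
  have e1 : AnalyticAt ℂ (fun t => s (t - b z)) (b z) :=
    (s.analyticAt _).comp (analyticAt_id.sub analyticAt_const)
  have e2 : Tendsto (fun t => s (t - b z)) (𝓝 (b z)) (𝓝 0) := e0 ▸ e1.continuousAt.tendsto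
  refine ⟨fun t => χ (s (t - b z)), AnalyticAt.fun_comp (by rw [e0]; exact h2) e1,
    by simp only [e0, h3], (e2.eventually h4).mono fun t ht => ?_⟩
  rw [ht, h1, add_sub_cancel]

variable {n p : ℕ} {Γ E : Type} [Group Γ] [TopologicalSpace E] [MulAction Γ E]
  {C : Cov n Γ E} {P : Pol C} {J : IX Γ} {m : ℕ} {V : HSec P J m} {Λ : Fn J p} {F : E → ℝ}
  {x₀ : E} {γ : Γ} {a : C.I} {z : Cm n}

theorem U_mul (γ g : Γ) (f : J.H) : U J (γ * g) f = U J γ (U J g f) := by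
  ext i
  rw [U_apply, U_apply, U_apply, mul_inv_rev, mul_smul]

theorem U_inj (γ : Γ) : Injective (U J γ) := by
  rw [injective_iff_map_eq_zero]
  intro f hf
  rw [← norm_eq_zero, ← norm_U J γ, hf, norm_zero]

theorem an_vv (γ : Γ) (hz : z ∈ C.B 4 a) : AnalyticAt ℂ (vv V γ a) z :=
  ((U J γ).analyticAt _).comp (V.an a z hz)

theorem an_u (γ : Γ) (hz : z ∈ C.B 4 a) : AnalyticAt ℂ (Λ.u V γ a) z :=
  (Λ.l₀.analyticAt _).comp (an_vv γ hz)

theorem u_ne (g1 : G1 Λ V F x₀) (hz : z ∈ C.B 4 a) (hO : C.pt γ a z ∈ Λ.O V F) :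
    Λ.u V γ a z ≠ 0 := fun h => by
  have := hO.2.2.1
  rw [g1.lz_eq γ a z hz, h] at this
  simp at this

theorem an_G (g1 : G1 Λ V F x₀) (hz : z ∈ C.B 4 a) (hO : C.pt γ a z ∈ Λ.O V F) :
    AnalyticAt ℂ (fun w => Λ.G V (C.pt γ a w)) z := g1.G_hol γ a z hz hO.2.2.1

theorem vv_eq (g1 : G1 Λ V F x₀) (hz : z ∈ C.B 4 a) (hO : C.pt γ a z ∈ Λ.O V F) :
    vv V γ a z = Λ.u V γ a z • Λ.G V (C.pt γ a z) := by
  rw [g1.G_eq γ a z hz, smul_inv_smul₀ (u_ne g1 hz hO)]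

theorem l₀_G (g1 : G1 Λ V F x₀) (hz : z ∈ C.B 4 a) (hO : C.pt γ a z ∈ Λ.O V F) :
    Λ.l₀ (Λ.G V (C.pt γ a z)) = 1 := by
  rw [g1.G_eq γ a z hz, map_smul, smul_eq_mul]
  exact inv_mul_cancel₀ (u_ne g1 hz hO)

theorem ev_O (g1 : G1 Λ V F x₀) (hz : z ∈ C.B 4 a) (hO : C.pt γ a z ∈ Λ.O V F) :
    ∀ᶠ w in 𝓝 z, w ∈ C.B 4 a ∧ C.pt γ a w ∈ Λ.O V F :=
  (C.isOpen_preimage_pt γ a g1.sub.opn).mem_nhds ⟨hz, hO⟩

theorem fderiv_s (g1 : G1 Λ V F x₀) (hz : z ∈ C.B 4 a) (hO : C.pt γ a z ∈ Λ.O V F) (ξ : Cm n) :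
    fderiv ℂ (fun w => Λ.s V (C.pt γ a w)) z ξ =
      Λ.l (fderiv ℂ (fun w => Λ.G V (C.pt γ a w)) z ξ) :=
  DFunLike.congr_fun
    (Λ.l.hasFDerivAt.comp z (an_G g1 hz hO).differentiableAt.hasFDerivAt).fderiv ξ

theorem imm_iff (g1 : G1 Λ V F x₀) (hz : z ∈ C.B 4 a) (hO : C.pt γ a z ∈ Λ.O V F) {r : ℕ}
    (ξ : Fin r → Cm n) : V.Imm a z ξ ↔
      LinearIndependent ℂ fun i => fderiv ℂ (fun w => Λ.G V (C.pt γ a w)) z (ξ i) := by
  have hG := (an_G g1 hz hO).differentiableAt.hasFDerivAt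
  have hu := (an_u (Λ := Λ) (V := V) γ hz).differentiableAt.hasFDerivAt
  have h0 : ∀ η, Λ.l₀ (fderiv ℂ (fun w => Λ.G V (C.pt γ a w)) z η) = 0 := fun η => by
    have h1 := Λ.l₀.hasFDerivAt.comp z hG
    have h2 : HasFDerivAt (Λ.l₀ ∘ fun w => Λ.G V (C.pt γ a w)) (0 : Cm n →L[ℂ] ℂ) z :=
      (hasFDerivAt_const (1 : ℂ) z).congr_of_eventuallyEq
        ((ev_O g1 hz hO).mono fun w hw => l₀_G g1 hw.1 hw.2)
    exact DFunLike.congr_fun (h1.unique h2) η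
  have h3 : ∀ η, U J γ (fderiv ℂ (V.L a) z η) = fderiv ℂ (Λ.u V γ a) z η • Λ.G V (C.pt γ a z) +
      Λ.u V γ a z • fderiv ℂ (fun w => Λ.G V (C.pt γ a w)) z η := fun η => by
    have h1 := (U J γ).hasFDerivAt.comp z (V.an a z hz).differentiableAt.hasFDerivAt
    have h2 := (hu.smul hG).congr_of_eventuallyEq (f₁ := U J γ ∘ V.L a)
      ((ev_O g1 hz hO).mono fun w hw => vv_eq g1 hw.1 hw.2)
    have := DFunLike.congr_fun (h1.unique h2) η
    rw [add_comm]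
    simpa using this
  rw [← li_cons (Λ.l₀ : J.H →ₗ[ℂ] ℂ) (l₀_G g1 hz hO) (u_ne g1 hz hO) (fun i => h0 (ξ i))
    fun i => fderiv ℂ (Λ.u V γ a) z (ξ i), HSec.Imm,
    ← (U J γ : J.H →ₗ[ℂ] J.H).linearIndependent_iff_of_injOn (U_inj γ).injOn]
  refine iff_of_eq (congrArg (fun v : Fin (r + 1) → J.H => LinearIndependent ℂ v)
    (funext fun i => ?_))
  refine Fin.cases ?_ (fun i => ?_) i
  · exact vv_eq g1 hz hO
  · exact h3 (ξ i)

theorem kill (hV : V.VD p) (g1 : G1 Λ V F x₀) (hz : z ∈ C.B 4 a) (hO : C.pt γ a z ∈ Λ.O V F)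
    (η : Cm n) (h : fderiv ℂ (fun w => Λ.s V (C.pt γ a w)) z η = 0) :
    fderiv ℂ (fun w => Λ.G V (C.pt γ a w)) z η = 0 := by
  choose ξ hξ using fun i : Fin p => g1.sub.surj γ a z hz hO (Pi.single i 1)
  have h1 := hV.rank a z hz (Fin.cons η ξ)
  rw [imm_iff g1 hz hO, Fintype.not_linearIndependent_iff] at h1
  obtain ⟨x, hx, i, hi⟩ := h1
  rw [Fin.sum_univ_succ] at hx
  simp only [Fin.cons_zero, Fin.cons_succ] at hx
  have h2 := congrArg Λ.l hx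
  simp only [map_add, map_smul, map_sum, ← fderiv_s g1 hz hO, h, hξ, smul_zero, zero_add,
    map_zero] at h2
  have h3 : ∀ j : Fin p, x j.succ = 0 := fun j => by
    simpa [Pi.single_apply] using congrFun h2 j
  simp only [h3, zero_smul, Finset.sum_const_zero, add_zero, smul_eq_zero] at hx
  refine hx.resolve_left ?_
  revert hi
  exact Fin.cases id (fun j hj => absurd (h3 j) hj) i

theorem imm (hV : V.VD p) (g1 : G1 Λ V F x₀) (hz : z ∈ C.B 4 a) (hO : C.pt γ a z ∈ Λ.O V F)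
    (ξ : Fin p → Cm n) : V.Imm a z ξ ↔ ds C (Λ.s V) γ a z ξ ≠ 0 := by
  rw [imm_iff g1 hz hO, ds, dd, det_ne_iff fun j => fderiv ℂ (fun w => Λ.s V (C.pt γ a w)) z (ξ j),
    Fintype.linearIndependent_iff, Fintype.linearIndependent_iff]
  refine forall_congr' fun x => imp_congr_left ?_
  simp only [← map_smul, ← map_sum]
  exact ⟨fun h => by rw [fderiv_s g1 hz hO, h, map_zero], kill hV g1 hz hO _⟩

theorem lc (hV : V.VD p) (g1 : G1 Λ V F x₀) {y : E} (hy : y ∈ Λ.O V F) :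
    ∃ γ₀ : Cm p → J.H, AnalyticAt ℂ γ₀ (Λ.s V y) ∧ ∀ᶠ y' in 𝓝 y, Λ.G V y' = γ₀ (Λ.s V y') := by
  obtain ⟨γ, a, z, hz, rfl⟩ := C.exists_pt y
  have hz := C.B14 hz
  obtain ⟨γ₀, h1, h2⟩ := P284.H625.exists_desc (g1.sub.hol γ a z hz hy) (g1.sub.surj γ a z hz hy)
    (an_G g1 hz hy) ((ev_O g1 hz hy).mono fun w hw => kill hV g1 hw.1 hw.2)
  exact ⟨γ₀, h1, (C.ev_pt hz γ).2 h2⟩

theorem rel (hV : V.VD p) (g1 : G1 Λ V F x₀) {y y' : E} (hy : y ∈ Λ.O V F) (hy' : y' ∈ Λ.O V F)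
    (hs : Λ.s V y = Λ.s V y') {γ₀ : Cm p → J.H} (h1 : ∀ᶠ x in 𝓝 y, Λ.G V x = γ₀ (Λ.s V x))
    (h2 : ∀ᶠ x in 𝓝 y', Λ.G V x = γ₀ (Λ.s V x)) : Λ.Rel V F y y' := by
  refine ⟨hy, hy', by rw [h1.self_of_nhds, h2.self_of_nhds, hs], ?_⟩
  rintro γ a z γ' b z' hz hz' rfl rfl ξ hξ
  rw [C.ev_pt hz] at h1
  rw [C.ev_pt hz'] at h2
  obtain ⟨σ, hσ, hσ0, hσ1⟩ :=
    exists_sec (g1.sub.hol γ' b z' hz' hy') (g1.sub.surj γ' b z' hz' hy')
  rw [← hs] at hσ hσ0 hσ1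
  let A : Cm p →L[ℂ] Cm n := ∑ k, (ContinuousLinearMap.proj k : Cm p →L[ℂ] ℂ).smulRight (ξ k)
  have hA : ∀ k, A (Pi.single k 1) = ξ k := fun k => by
    simp [A, Pi.single_apply]
  let u : Cm p → Cm n := fun w => z + A w
  have hu : AnalyticAt ℂ u 0 := analyticAt_const.add (A.analyticAt _)
  have hu0 : u 0 = z := by simp [u]
  have hdu : HasFDerivAt u A 0 := A.hasFDerivAt.const_add z
  have hb := g1.sub.hol γ a z hz hy
  have hb' := g1.sub.hol γ' b z' hz' hy'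
  let β : Cm p → Cm p := fun w => Λ.s V (C.pt γ a (u w))
  have hβ : AnalyticAt ℂ β 0 :=
    AnalyticAt.fun_comp (g := fun w => Λ.s V (C.pt γ a w)) (by rwa [hu0]) hu
  have hβ0 : β 0 = Λ.s V (C.pt γ a z) := by simp only [β, hu0]
  have hu' : AnalyticAt ℂ (fun w => σ (β w)) 0 := AnalyticAt.fun_comp (by rwa [hβ0]) hβ
  have hu0' : σ (β 0) = z' := by rw [hβ0, hσ0]
  have t1 : Tendsto u (𝓝 0) (𝓝 z) := hu0 ▸ hu.continuousAt.tendsto
  have t2 : Tendsto (fun w => σ (β w)) (𝓝 0) (𝓝 z') := hu0' ▸ hu'.continuousAt.tendsto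
  have t3 : Tendsto β (𝓝 0) (𝓝 (Λ.s V (C.pt γ a z))) := hβ0 ▸ hβ.continuousAt.tendsto
  refine ⟨fun k => fderiv ℂ (fun w => σ (β w)) 0 (Pi.single k 1),
    ⟨hz, hz', (imm hV g1 hz hy ξ).2 hξ, u, fun w => σ (β w),
      fun w => Λ.u V γ a (u w) * (Λ.u V γ' b (σ (β w)))⁻¹, hu, hu', ?_, hu0, hu0', ?_,
      fun k => by rw [hdu.fderiv, hA], fun _ => rfl, ?_⟩, ?_⟩
  · refine (AnalyticAt.fun_comp (by rw [hu0]; exact an_u γ hz) hu).mul
      ((AnalyticAt.fun_comp (by rw [hu0']; exact an_u γ' hz') hu').inv ?_)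
    rw [hu0']
    exact u_ne g1 hz' hy'
  · simp only [hu0, hu0']
    exact mul_ne_zero (u_ne g1 hz hy) (inv_ne_zero (u_ne g1 hz' hy'))
  · filter_upwards [t1.eventually (h1.and (ev_O g1 hz hy)),
      t2.eventually (h2.and (ev_O g1 hz' hy')), t3.eventually hσ1] with w e1 e2 e3 i
    have e4 : V.val γ a (u w) i = vv V γ a (u w) i := rfl
    have e5 : V.val γ' b (σ (β w)) i = vv V γ' b (σ (β w)) i := rfl
    rw [e4, e5, vv_eq g1 e1.2.1 e1.2.2, vv_eq g1 e2.2.1 e2.2.2, e1.1, e2.1, e3]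
    simp only [lp.coeFn_smul, Pi.smul_apply, smul_eq_mul]
    rw [mul_assoc, inv_mul_cancel_left₀ (u_ne g1 e2.2.1 e2.2.2)]
  · have d1 : HasFDerivAt β ((fderiv ℂ (fun w => Λ.s V (C.pt γ a w)) z).comp A) 0 :=
      HasFDerivAt.comp (g := fun w => Λ.s V (C.pt γ a w)) 0
        (by rw [hu0]; exact hb.differentiableAt.hasFDerivAt) hdu
    have d2 : HasFDerivAt β ((fderiv ℂ (fun w => Λ.s V (C.pt γ' b w)) z').comp
        (fderiv ℂ (fun w => σ (β w)) 0)) 0 :=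
      (HasFDerivAt.comp (g := fun w => Λ.s V (C.pt γ' b w)) 0
        (by rw [hu0']; exact hb'.differentiableAt.hasFDerivAt)
        hu'.differentiableAt.hasFDerivAt).congr_of_eventuallyEq
        ((t3.eventually hσ1).mono fun w hw => hw.symm)
    have d3 : ∀ k, fderiv ℂ (fun w => Λ.s V (C.pt γ' b w)) z'
        (fderiv ℂ (fun w => σ (β w)) 0 (Pi.single k 1)) =
        fderiv ℂ (fun w => Λ.s V (C.pt γ a w)) z (ξ k) := fun k => by
      rw [← hA]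
      exact DFunLike.congr_fun (d2.unique d1) _
    simp only [ds, dd, d3]

theorem G_smul (g1 : G1 Λ V F x₀) (γ : Γ) {y : E} (hy : y ∈ Λ.O V F) :
    Λ.G V (γ • y) = (Λ.l₀ (U J γ (Λ.G V y)))⁻¹ • U J γ (Λ.G V y) ∧
      (γ • y ∈ Λ.O V F → Λ.l₀ (U J γ (Λ.G V y)) ≠ 0) := by
  obtain ⟨g, a, z, hz, rfl⟩ := C.exists_pt y
  have hz := C.B14 hz
  have h0 := u_ne g1 hz hy
  have e : U J γ (Λ.G V (C.pt g a z)) = (Λ.u V g a z)⁻¹ • vv V (γ * g) a z := by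
    rw [g1.G_eq g a z hz, map_smul, vv, vv, U_mul]
  have e' : Λ.l₀ (U J γ (Λ.G V (C.pt g a z))) = (Λ.u V g a z)⁻¹ * Λ.u V (γ * g) a z := by
    rw [e, map_smul]
    rfl
  rw [e', C.smul_pt]
  refine ⟨?_, fun h => mul_ne_zero (inv_ne_zero h0) (u_ne g1 hz h)⟩
  rw [e, g1.G_eq _ a z hz, smul_smul, mul_inv_rev, inv_inv, mul_inv_cancel_right₀ h0]

end S4b

theorem st4b : St4b := by
  intro n p Γ E _ _ _ _ C P J m V hV Λ F x₀ g1
  refine ⟨fun y hy => S4b.lc hV g1 hy, fun γ a z hz hO ξ => S4b.imm hV g1 hz hO ξ,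
    fun y hy y' hy' hs ⟨γ₀, _, h1, h2⟩ => S4b.rel hV g1 hy hy' hs h1 h2, fun y hy => ?_,
    fun γ y hy hγ => ?_⟩
  · obtain ⟨γ₀, -, h⟩ := S4b.lc hV g1 hy
    have h1 := h.eventually_nhds.and (g1.sub.opn.mem_nhds hy)
    filter_upwards [continuousAt_fst.tendsto.eventually h1, continuousAt_snd.tendsto.eventually h1]
      with q h2 h3 hs using S4b.rel hV g1 h2.2 h3.2 hs h2.1 h3.1
  · obtain ⟨γ₀, h0, h⟩ := S4b.lc hV g1 hy
    have h1 : AnalyticAt ℂ (fun t => U J γ (γ₀ t)) (Λ.s V y) := ((U J γ).analyticAt _).comp h0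
    refine ⟨fun t => Λ.l ((Λ.l₀ (U J γ (γ₀ t)))⁻¹ • U J γ (γ₀ t)),
      (Λ.l.analyticAt _).comp ((((Λ.l₀.analyticAt _).comp h1).inv ?_).smul h1), ?_⟩
    · have := (S4b.G_smul g1 γ hy).2 hγ
      rwa [h.self_of_nhds] at this
    · filter_upwards [h, g1.sub.opn.mem_nhds hy] with y' e hy'
      rw [← e, ← (S4b.G_smul g1 γ hy').1]
      rfl

end Vale.Agent.P284Z.L
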