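import Vale.Agent.P284Z.L.Spec
import Vale.Agent.P284Z.F0.Cov
import Vale.Agent.P284.H625.NS.Strt

/-!
# P284Z, block L: the tube through the base point
-/

open scoped ContDiff Topology
open Filter Set Function Metric

noncomputable section

namespace Vale.Agent.P284Z.L

open Vale.Agent.P272.K

namespace S4c

variable {n p : ℕ}

theorem exists_sec {b : Cm n → Cm p} {z₀ : Cm n} (hb : AnalyticAt ℂ b z₀)
    (hs : Surjective (fderiv ℂ b z₀)) : ∃ σ : Cm p → Cm n, AnalyticAt ℂ σ (b z₀) ∧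
      σ (b z₀) = z₀ ∧ ∀ᶠ t in 𝓝 (b z₀), b (σ t) = t := by
  obtain ⟨s, φ, χ, h1, -, -, h2, h3, -, -, h4⟩ := Vale.Agent.P284.H625.exists_straight hb hs
  have h5 : AnalyticAt ℂ (fun t => s (t - b z₀)) (b z₀) :=
    (s.analyticAt _).comp (analyticAt_id.sub analyticAt_const)
  have h6 : s (b z₀ - b z₀) = 0 := by rw [sub_self, map_zero]
  refine ⟨fun t => χ (s (t - b z₀)), h2.comp_of_eq h5 h6, by simp only [h6, h3], ?_⟩
  have h7 := h5.continuousAt.tendsto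
  rw [h6] at h7
  filter_upwards [h7.eventually h4] with t ht
  rw [ht, h1, add_sub_cancel]

theorem exists_frame {b : Cm n → Cm p} {z : Cm n} (hs : Surjective (fderiv ℂ b z)) :
    ∃ ξ, dd b z ξ ≠ 0 := by
  choose ξ hξ using fun j : Fin p => hs (Pi.single j 1)
  refine ⟨ξ, ?_⟩
  have : (Matrix.of fun i j => fderiv ℂ b z (ξ j) i) = 1 := by
    ext i j
    rw [Matrix.of_apply, hξ, Matrix.one_apply, Pi.single_apply]
  rw [dd, this, Matrix.det_one]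
  exact one_ne_zero

variable {Γ E : Type} [Group Γ] [TopologicalSpace E] [MulAction Γ E] {C : Cov n Γ E} {P : Pol C}
  {J : IX Γ} {m : ℕ} {V : HSec P J m} {Λ : Fn J p} {F : E → ℝ} {x₀ y y' : E}

theorem mem_E0 (g1 : G1 Λ V F x₀) (g2 : G2 Λ V F) (hy : y ∈ Λ.O V F) : y ∈ V.E0 p := by
  obtain ⟨γ, a, z, hz, rfl⟩ := C.exists_pt y
  obtain ⟨ξ, hξ⟩ := exists_frame (g1.sub.surj γ a z (C.B14 hz) hy)
  exact ⟨γ, a, z, C.B14 hz, rfl, ξ, (g2.imm γ a z (C.B14 hz) hy ξ).2 hξ⟩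

theorem par (g1 : G1 Λ V F x₀) (hy : y ∈ Λ.O V F) (hy' : y' ∈ Λ.O V F)
    (h : Λ.G V y = Λ.G V y') : V.Par y y' := by
  obtain ⟨γ, a, z, hz, rfl⟩ := C.exists_pt y
  obtain ⟨γ', b, z', hz', rfl⟩ := C.exists_pt y'
  have key : ∀ γ a, ∀ z ∈ C.B 4 a, C.pt γ a z ∈ Λ.O V F → Λ.u V γ a z ≠ 0 := fun γ a z hz hO h0 => by
    have h1 := hO.2.2.1
    rw [g1.lz_eq γ a z hz, h0] at h1
    simp at h1
  have h1 := key γ a z (C.B14 hz) hy
  have h2 := key γ' b z' (C.B14 hz') hy'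
  rw [g1.G_eq γ a z (C.B14 hz), g1.G_eq γ' b z' (C.B14 hz'), inv_smul_eq_iff₀ h1, smul_smul] at h
  exact ⟨γ, a, z, C.B14 hz, γ', b, z', C.B14 hz', rfl, rfl, _, mul_ne_zero h1 (inv_ne_zero h2),
    fun i => congrArg (fun f : J.H => f i) h⟩

end S4c

open S4c in
theorem st4c : St4c := by
  intro n p Γ E _ _ _ _ C P J m V hV Λ F a₀ z₀ hz₀ g1 g2
  have hz4 := C.B14 hz₀
  obtain ⟨σ, σ1, σ2, σ3⟩ := exists_sec (g1.sub.hol 1 a₀ z₀ hz4 g1.base)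
    (g1.sub.surj 1 a₀ z₀ hz4 g1.base)
  obtain ⟨γ₀, γ1, γ2⟩ := g2.lc _ g1.base
  set t₀ := Λ.s V (C.pt 1 a₀ z₀) with ht₀
  have hσ : Tendsto σ (𝓝 t₀) (𝓝 z₀) := σ2 ▸ σ1.continuousAt.tendsto
  have hp := (C.continuousAt_pt hz4 1).tendsto.comp hσ
  obtain ⟨ε, hε, hb⟩ := Metric.eventually_nhds_iff_ball.1
    (σ1.eventually_analyticAt.and (γ1.eventually_analyticAt.and
      ((hσ.eventually ((C.isOpen_B 2 a₀).mem_nhds (C.B_mono (by norm_num) a₀ hz₀))).and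
      ((hp.eventually (g1.sub.opn.mem_nhds g1.base)).and
      (σ3.and (hp.eventually γ2.eventually_nhds))))))
  have e2 : 2 * (ε / 2) = ε := by ring
  have hb' : ∀ t ∈ closedBall t₀ (ε / 2), t ∈ ball t₀ ε := fun t ht =>
    closedBall_subset_ball (half_lt_self hε) ht
  have hc : ∀ y ∈ Λ.O V F, ContinuousAt (Λ.s V) y := fun y hy => g1.sub.hol.continuousAt C hy
  refine ⟨{
    Ω := {y ∈ Λ.O V F | Λ.s V y ∈ ball t₀ (ε / 2) ∧ ∀ᶠ x in 𝓝 y, Λ.G V x = γ₀ (Λ.s V x)}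
    R := ε / 2
    σ := σ
    tb := ⟨half_pos hε, isOpen_iff_mem_nhds.2 fun y hy => ?_, fun y hy => hy.1,
      fun y hy => hy.2.1, fun r hr y hy h => ?_⟩
    base := ⟨g1.base, mem_ball_self (half_pos hε), γ2⟩
    bdd := ?_
    σ_an := fun t ht => (hb t (e2 ▸ ht)).1
    σ_mem := fun t ht => ⟨(hb t (e2 ▸ ht)).2.2.1, (hb t (e2 ▸ ht)).2.2.2.1,
      (hb t (e2 ▸ ht)).2.2.2.2.1⟩
    σ_base := σ2
    rel := fun y hy => ?_ }⟩
  · filter_upwards [g1.sub.opn.mem_nhds hy.1, hc y hy.1 (isOpen_ball.mem_nhds hy.2.1),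
      hy.2.2.eventually_nhds] with x h1 h2 h3 using ⟨h1, h2, h3⟩
  · have h1 := mem_closure_iff_frequently.1 h
    have h2 : Λ.s V y ∈ closedBall t₀ r := isClosed_closedBall.mem_of_frequently_of_tendsto
      (h1.mono fun x hx => mem_closedBall_iff_norm.2 hx.2) (hc y hy)
    have h3 := closedBall_subset_ball hr h2
    refine ⟨hy, h3, ?_⟩
    obtain ⟨γ, a, z, hz, rfl⟩ := C.exists_pt y
    have h4 := C.B14 hz
    rw [← C.map_pt' h4, frequently_map] at h1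
    have h5 := ev_zero ((g1.G_hol γ a z h4 hy.2.2.1).sub
      ((hb _ (hb' _ (ball_subset_closedBall h3))).2.1.comp_of_eq (g1.sub.hol γ a z h4 hy) rfl))
      ((h1.and_eventually ((C.isOpen_B 4 a).mem_nhds h4)).mono fun w hw =>
        ((C.ev_pt hw.2 γ).1 hw.1.1.2.2).mono fun _ e => sub_eq_zero.2 e)
    exact (C.ev_pt h4 γ).2 (h5.mono fun _ e => sub_eq_zero.1 e)
  · obtain ⟨K, hK, h⟩ := hV.proper (C.pt 1 a₀ '' (σ '' closedBall t₀ (ε / 2)))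
      (C.isCompact_image_pt 1 ((isCompact_closedBall _ _).image_of_continuousOn fun t ht =>
        (hb t (hb' t ht)).1.continuousAt.continuousWithinAt) (by
          rintro _ ⟨t, ht, rfl⟩
          exact C.B_mono (by norm_num) a₀ (hb t (hb' t ht)).2.2.1)) (by
        rintro _ ⟨_, ⟨t, ht, rfl⟩, rfl⟩
        exact mem_E0 g1 g2 (hb t (hb' t ht)).2.2.2.1)
    refine ⟨K, hK, fun y hy => ?_⟩
    obtain ⟨-, -, -, h1, h2, h3⟩ := hb _ (hb' _ (ball_subset_closedBall hy.2.1))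
    refine h y (mem_E0 g1 g2 hy.1) _ ⟨_, ⟨_, ball_subset_closedBall hy.2.1, rfl⟩, rfl⟩
      (par g1 hy.1 h1 ?_)
    exact hy.2.2.self_of_nhds.trans (h3.self_of_nhds.trans (congrArg γ₀ h2)).symm
  · obtain ⟨-, h0, -, h1, h2, h3⟩ := hb _ (hb' _ (ball_subset_closedBall hy.2.1))
    exact g2.rel y hy.1 _ h1 h2.symm ⟨γ₀, h0, hy.2.2, h3⟩

end Vale.Agent.P284Z.L
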