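import Vale.Agent.P284Z.L.Spec
import Vale.Agent.P284Z.H.Bas

/-!
# P284Z, block L: `s` is constant on the plaques
-/

open scoped Topology
open Filter Set Function Metric

noncomputable section

namespace Vale.Agent.P284Z.L

open Vale.Agent.P272.K Vale.Agent.P284.H608.K

theorem const_of_dep {W H : Type} [NormedAddCommGroup W] [NormedSpace ℂ W] [NormedAddCommGroup H]
    [NormedSpace ℂ H] {f : W → H} (φ : H →L[ℂ] ℂ) {R : ℝ}
    (hf : ∀ u ∈ ball (0 : W) R, DifferentiableAt ℂ f u) (h0 : ∀ u ∈ ball (0 : W) R, φ (f u) ≠ 0)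
    (hd : ∀ u ∈ ball (0 : W) R, ∀ ζ, ∃ c : ℂ, c • f u = fderiv ℂ f u ζ) {b b' : W}
    (hb : b ∈ ball (0 : W) R) (hb' : b' ∈ ball (0 : W) R) :
    (φ (f b))⁻¹ • f b = (φ (f b'))⁻¹ • f b' := by
  have key : ∀ u ∈ ball (0 : W) R, HasFDerivAt (fun u => (φ (f u))⁻¹ • f u) (0 : W →L[ℂ] H) u := by
    intro u hu
    have h1 := (hf u hu).hasFDerivAt
    have h2 := ((hasDerivAt_inv (h0 u hu)).comp_hasFDerivAt u (φ.hasFDerivAt.comp u h1)).smul h1
    refine h2.congr_fderiv (ContinuousLinearMap.ext fun ζ => ?_)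
    obtain ⟨c, hc⟩ := hd u hu ζ
    have h3 := h0 u hu
    simp only [add_apply, smul_apply,
      ContinuousLinearMap.smulRight_apply, ContinuousLinearMap.comp_apply, comp_apply, ← hc,
      map_smul, smul_smul, ← add_smul, smul_eq_mul, zero_apply]
    rw [show (φ (f u))⁻¹ * c + -(φ (f u) ^ 2)⁻¹ * (c * φ (f u)) = 0 by field_simp; ring, zero_smul]
  exact isOpen_ball.is_const_of_fderiv_eq_zero (𝕜 := ℂ) (convex_ball 0 R).isPreconnected
    (fun u hu => (key u hu).differentiableAt.differentiableWithinAt)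
    (fun u hu => (key u hu).fderiv) hb hb'

theorem st4d : St4d := by
  intro n p Γ E _ _ _ _ C P J m V Λ F x₀ g1 D L Z Φ hx hM
  obtain ⟨N, h1, h2, h3⟩ := Φ.nice x₀ hx _ (g1.sub.opn.mem_nhds g1.base)
  have hN := hM N fun y hy => (h3 hy).1
  let f : Cm Φ.d × Cm Φ.q → J.H := fun u => V.L N.a (C.co N.g N.a (N.Ψ.symm u))
  have hs : ∀ u ∈ ball (0 : Cm Φ.d × Cm Φ.q) N.R, N.Ψ.symm u ∈ N.Ψ.source := fun u hu =>
    N.Ψ.map_target (N.tgt ▸ hu)
  have h4 : ∀ y ∈ N.Ψ.source, C.co N.g N.a y ∈ C.B 4 N.a := fun y hy =>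
    H.B_le (by norm_num) _ (H.inch hy).1
  have hf : ∀ u ∈ ball (0 : Cm Φ.d × Cm Φ.q) N.R, DifferentiableAt ℂ f u := fun u hu =>
    ((V.an N.a _ (h4 _ (hs u hu))).comp (f := fun u => C.co N.g N.a (N.Ψ.symm u))
      (N.hol' u hu)).differentiableAt
  let φ : J.H →L[ℂ] ℂ := Λ.l₀.comp (U J N.g)
  have h0 : ∀ u ∈ ball (0 : Cm Φ.d × Cm Φ.q) N.R, φ (f u) ≠ 0 := fun u hu e => by
    have h5 := (h3 (hs u hu)).2.2.2.1
    rw [← (H.inch (hs u hu)).2, g1.lz_eq _ _ _ (h4 _ (hs u hu)),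
      show Λ.u V N.g N.a (C.co N.g N.a (N.Ψ.symm u)) = 0 from e] at h5
    simp at h5
  have hb : ∀ b ∈ ball (0 : Cm Φ.d) N.R, (b, (0 : Cm Φ.q)) ∈ ball (0 : Cm Φ.d × Cm Φ.q) N.R :=
    fun b hb => by simpa [Prod.norm_def, N.R_pos] using hb
  have hG : ∀ y ∈ N.Ψ.source, Λ.G V y = U J N.g ((φ (f (N.Ψ y)))⁻¹ • f (N.Ψ y)) := fun y hy => by
    have h5 := g1.G_eq N.g N.a _ (h4 y hy)
    rw [(H.inch hy).2] at h5
    rw [h5, map_smul]
    simp only [f, N.Ψ.left_inv hy]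
    rfl
  have hd := fun b h => (hf _ (hb b h)).hasFDerivAt.comp (f := fun b => (b, (0 : Cm Φ.q))) b
    (hasFDerivAt_prodMk_left b 0)
  filter_upwards [N.Ψ.open_source.mem_nhds h1] with y hy hZ
  have h5 : N.Ψ y = ((N.Ψ y).1, 0) := Prod.ext rfl (by rw [← (N.rel _ h1 _ hy).1 hZ, h2]; rfl)
  have h6 := const_of_dep (f := fun b => f (b, 0)) φ (R := N.R)
    (fun b h => (hd b h).differentiableAt)
    (fun b h => h0 _ (hb b h)) (fun b h ζ => ?_) (mem_ball_zero_iff.2 (H.lt_R hy).1)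
    (mem_ball_self N.R_pos)
  · rw [Fn.s, Fn.s, hG y hy, hG x₀ h1, h5, h2, h6]
    rfl
  · have h7 : f (b, 0) ≠ 0 := fun e => h0 _ (hb b h) (by rw [e, map_zero])
    have h8 : ¬ LinearIndependent ℂ ![f (b, 0), fderiv ℂ f (b, 0) (ζ, 0)] := fun e =>
      hN ⟨_, hb b h, ζ, e⟩
    rw [LinearIndependent.pair_iff' h7] at h8
    push Not at h8
    refine h8.imp fun c hc => hc.trans ?_
    exact (DFunLike.congr_fun (hd b h).fderiv ζ).symm

end Vale.Agent.P284Z.L
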