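import Vale.Agent.P284Z.L.Spec
import Vale.Agent.P284Z.L.S6b.Loc
import Vale.Agent.P284Z.F0.Levi
import Vale.Agent.P284Z.F0.Cov.Ch

/-!
# P284Z, block L, piece 6b: the data for the complete metric
-/

set_option linter.all false

open scoped ContDiff Topology ComplexOrder ComplexConjugate
open Filter Set Function Metric

noncomputable section

namespace Vale.Agent.P284Z.L

open Vale.Agent.P272.K J Vale.Agent.P284.H213.KL

namespace S6b

variable {n p m : ℕ} {Γ E : Type} [Group Γ] [TopologicalSpace E] [MulAction Γ E] {C : Cov n Γ E}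
  {P : Pol C} {J : IX Γ} {V : HSec P J m} {D : LD C} {R : LQ V p D} {Λ : Fn J p} {γ : Γ}
  {a : C.I} {z : Cm n} {y x₀ : E} {F : E → ℝ}

theorem cont_of_sm {f : E → ℝ} (h : C.SmAt f y) : ContinuousAt f y := by
  obtain ⟨γ, a, z, hz, rfl⟩ := C.exists_pt y
  rw [ContinuousAt, ← C.map_pt' (C.B14 hz), tendsto_map'_iff]
  exact (h γ a z (C.B14 hz) rfl).continuousAt

theorem evB (hz : z ∈ C.B 4 a) : ∀ᶠ w in 𝓝 z, w ∈ C.B 4 a := (C.isOpen_B 4 a).mem_nhds hz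

theorem F_pt (D : LD C) (j : ℕ) (γ : Γ) (a : C.I) (z : Cm n) :
    D.F j (C.pt γ a z) = D.F j (C.pt 1 a z) := by rw [C.pt_eq, D.F_inv]

theorem σ_nonneg (P : Pol C) (y : E) : 0 ≤ P.σ y := by
  obtain ⟨γ, a, z, hz, rfl⟩ := C.exists_pt y
  rw [P.σ_eq γ a z (C.B14 hz)]
  positivity

theorem σ_inv (P : Pol C) (g : Γ) (y : E) : P.σ (g • y) = P.σ y := by
  obtain ⟨γ, a, z, hz, rfl⟩ := C.exists_pt y
  rw [C.smul_pt, P.σ_eq _ a z (C.B14 hz), P.σ_eq _ a z (C.B14 hz)]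

theorem σ_sm (P : Pol C) (y : E) : C.SmAt P.σ y := fun γ a z hz _ =>
  ((contDiffAt_normSq (P.s_an a z hz)).mul (C.ρ_sm a z hz).neg.exp).congr_of_eventuallyEq
    ((evB hz).mono fun w hw => P.σ_eq γ a w hw)

theorem pos_of (h : 0 < D.F 0 y * P.σ y) : 0 < D.F 0 y ∧ 0 < P.σ y :=
  ⟨(D.F_nonneg 0 y).lt_of_ne fun e => by simp [← e] at h,
    (σ_nonneg P y).lt_of_ne fun e => by simp [← e] at h⟩

theorem F_sm (h : 0 < D.F 0 y) : C.SmAt (D.F 0) y := fun γ a z hz e => by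
  simp only [F_pt D 0 γ]
  exact D.F_sm 0 a z hz (by rwa [← F_pt D 0 γ, e])

theorem ρ_psd (hz : z ∈ C.B 4 a) {c : ℝ} (hc : 0 ≤ c) :
    ((c : ℂ) • cHess (C.ρ a) z).PosSemidef := psd_smul (C.ρ_pos a z hz).posSemidef hc

theorem P_psd (m : ℕ) : Psd C (C.om (D.A + 1 + m) fun y => Real.log (D.F 0 y * P.σ y))
    {y | 0 < D.F 0 y * P.σ y} := fun γ a z hz h => by
  obtain ⟨h1, h2⟩ := pos_of h
  have hρ := C.ρ_sm a z hz
  have h3 : P.s a z ≠ 0 := fun e => by simp [P.σ_eq γ a z hz, e] at h2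
  rw [F_pt] at h1
  have h4 := D.F_sm 0 a z hz h1
  have h5 := h4.mul (contDiffAt_const.mul hρ (f := fun _ => D.A)).exp
  have h6 := mul_pos h1 (Real.exp_pos (D.A * C.ρ a z))
  have h7 := h5.log h6.ne'
  have h8 := sm_log (P.s_an a z hz) h3
  have e : (fun w => (D.A + 1 + m) * C.ρ a w + Real.log (D.F 0 (C.pt γ a w) * P.σ (C.pt γ a w)))
      =ᶠ[𝓝 z] fun w => (Real.log (D.F 0 (C.pt 1 a w) * Real.exp (D.A * C.ρ a w)) +
        Real.log (‖P.s a w‖ ^ 2)) + m * C.ρ a w := by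
    filter_upwards [evB hz, h4.continuousAt.eventually (lt_mem_nhds h1),
      (P.s_an a z hz).continuousAt.eventually_ne h3] with w w1 w2 w3
    have := (sq_pos' w3).ne'
    rw [F_pt, P.σ_eq γ a w w1, Real.log_mul w2.ne' (by positivity), Real.log_mul this (by positivity),
      Real.log_mul w2.ne' (by positivity), Real.log_exp, Real.log_exp]
    ring
  rw [Cov.om, C2.cHess_congr e, C2.cHess_add (two (h7.add h8)) (two (contDiffAt_const.mul hρ)),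
    C2.cHess_add (two h7) (two h8), C2.cHess_const_mul _ (two hρ)]
  exact (((D.F_psh 0 a).cHess_psd (evB hz) h6 (two h5)).add (fs_psd (P.s_an a z hz) h3)).add
    (ρ_psd hz m.cast_nonneg)

theorem L_ne (hq : QX R) (hz : z ∈ C.B 4 a) (h : 0 < D.F 0 (C.pt γ a z)) : V.L a z ≠ 0 := by
  obtain ⟨ξ, hξ⟩ := hq.F_imm 0 a z hz (by rwa [← F_pt D 0 γ])
  exact (R.Q_imm 0 a z hz ξ hξ).ne_zero 0

section g1
variable (g : G1 Λ V F x₀)
include g

theorem N_inv (γ : Γ) (y : E) : Nm V (γ • y) = Nm V y := by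
  obtain ⟨γ, a, z, hz, rfl⟩ := C.exists_pt y
  rw [C.smul_pt, g.N_eq _ a z (C.B14 hz), g.N_eq _ a z (C.B14 hz)]

theorem N_sm (y : E) : C.SmAt (Nm V) y := fun γ a z hz _ =>
  ((contDiffAt_normSq (V.an a z hz)).mul
    (contDiffAt_const.mul (C.ρ_sm a z hz)).exp).congr_of_eventuallyEq
    ((evB hz).mono fun w hw => g.N_eq γ a w hw)

theorem om_N (A : ℝ) (hz : z ∈ C.B 4 a) (h : V.L a z ≠ 0) :
    C.om A (fun y => Real.log (Nm V y)) γ a z =
      cHess (fun w => Real.log (‖V.L a w‖ ^ 2)) z + ((A - m : ℝ) : ℂ) • cHess (C.ρ a) z := by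
  have hρ := C.ρ_sm a z hz
  have e : (fun w => A * C.ρ a w + Real.log (Nm V (C.pt γ a w))) =ᶠ[𝓝 z]
      fun w => Real.log (‖V.L a w‖ ^ 2) + (A - m) * C.ρ a w := by
    filter_upwards [evB hz, (V.an a z hz).continuousAt.eventually_ne h] with w w1 w2
    rw [g.N_eq γ a w w1, HSec.nm, Real.log_mul (sq_pos' w2).ne' (by positivity), Real.log_exp]
    ring
  rw [Cov.om, C2.cHess_congr e, C2.cHess_add (two (sm_log (V.an a z hz) h))
    (two (contDiffAt_const.mul hρ)), C2.cHess_const_mul _ (two hρ)]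

theorem u_ne (hz : z ∈ C.B 4 a) (h : 0 < Λ.lz V (C.pt γ a z)) : Λ.u V γ a z ≠ 0 := fun e => by
  simp [g.lz_eq γ a z hz, e] at h

theorem l₀_G (h : 0 < Λ.lz V y) : Λ.l₀ (Λ.G V y) = 1 := by
  obtain ⟨γ, a, z, hz, rfl⟩ := C.exists_pt y
  rw [g.G_eq γ a z (C.B14 hz), map_smul]
  exact inv_mul_cancel₀ (u_ne g (C.B14 hz) h)

theorem G_ne (h : 0 < Λ.lz V y) : Λ.G V y ≠ 0 := fun e => by simpa [e] using l₀_G g h

theorem L_sq (hz : z ∈ C.B 4 a) (h : 0 < Λ.lz V (C.pt γ a z)) :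
    ‖V.L a z‖ ^ 2 = ‖Λ.G V (C.pt γ a z)‖ ^ 2 * ‖Λ.u V γ a z‖ ^ 2 := by
  have := norm_ne_zero_iff.2 (u_ne g hz h)
  rw [g.G_eq γ a z hz, norm_smul, norm_inv, vv, norm_U]
  field_simp

theorem N_G (h : 0 < Λ.lz V y) : Nm V y = ‖Λ.G V y‖ ^ 2 * Λ.lz V y := by
  obtain ⟨γ, a, z, hz, rfl⟩ := C.exists_pt y
  rw [g.N_eq γ a z (C.B14 hz), HSec.nm, L_sq g (C.B14 hz) h, g.lz_eq γ a z (C.B14 hz), mul_assoc]

theorem hess_L (jb : JB) (hz : z ∈ C.B 4 a) (h : 0 < Λ.lz V (C.pt γ a z)) :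
    cHess (fun w => Real.log (‖V.L a w‖ ^ 2)) z =
      cHess (fun w => Real.log (‖Λ.G V (C.pt γ a w)‖ ^ 2)) z := by
  have h1 : AnalyticAt ℂ (Λ.u V γ a) z :=
    (Λ.l₀.analyticAt _).comp (((U J γ).analyticAt _).comp (V.an a z hz))
  have e : (fun w => Real.log (‖V.L a w‖ ^ 2)) =ᶠ[𝓝 z] fun w =>
      Real.log (‖Λ.G V (C.pt γ a w)‖ ^ 2) + Real.log (‖Λ.u V γ a w‖ ^ 2) := by
    filter_upwards [evB hz, (C.ev_pt hz γ).1 (g.lz_cont.continuousAt.eventually (lt_mem_nhds h))]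
      with w w1 w2
    rw [L_sq g w1 w2, Real.log_mul (sq_pos' (G_ne g w2)).ne' (sq_pos' (u_ne g w1 w2)).ne']
  rw [C2.cHess_congr e, C2.cHess_add (two (sm_log (g.G_hol γ a z hz h) (G_ne g h)))
    (two (sm_log h1 (u_ne g hz h))), (jb.hess_re n _ z h1).2.2 (u_ne g hz h), add_zero]

end g1

variable {l : ℕ} (W : Wf Λ R l x₀)

/-- the exhaustion in the directions of the boundary of `O` -/
def vf (y : E) : ℝ := Real.log (1 + ‖Λ.G V y‖ ^ 2) + Real.log (1 + W.q 0 y)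

theorem vf_le (hy : y ∈ Λ.O V (D.F 0)) :
    0 ≤ vf W y ∧ ‖Λ.G V y‖ ^ 2 ≤ Real.exp (vf W y) ∧ W.q 0 y ≤ Real.exp (vf W y) := by
  have h1 := W.q_pos y hy
  have h2 : 0 ≤ ‖Λ.G V y‖ ^ 2 := by positivity
  refine ⟨add_nonneg (Real.log_nonneg (by linarith)) (Real.log_nonneg (by linarith)), ?_⟩
  rw [vf, Real.exp_add, Real.exp_log (by linarith), Real.exp_log (by linarith)]
  constructor <;> nlinarith

variable (g : G1 Λ V (D.F 0) x₀)
include g

theorem vf_sm (hy : y ∈ Λ.O V (D.F 0)) : C.SmAt (vf W) y := fun γ a z hz e => by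
  subst e
  exact (sm_log1 (contDiffAt_normSq (g.G_hol γ a z hz hy.2.2.1)) (by positivity)).add
    (sm_log1 ((W.q_wt 0).sm _ hy (W.q_pos _ hy) γ a z hz rfl) (W.q_pos _ hy).le)

theorem vf_psd : Psd C (hs C (vf W)) (Λ.O V (D.F 0)) := fun γ a z hz hy => by
  have h1 := g.G_hol γ a z hz hy.2.2.1
  have h2 := (W.q_wt 0).sm _ hy (W.q_pos _ hy) γ a z hz rfl
  have h3 := G_ne g hy.2.2.1
  have e := C2.cHess_add (two (sm_log1 (contDiffAt_normSq h1) (by positivity)))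
    (two (sm_log1 h2 (W.q_pos _ hy).le))
  have h4 := (psd_log1 (contDiffAt_normSq h1) (sq_pos' h3) (fs_psd h1 h3)).add
    (psd_log1 h2 (W.q_pos _ hy) ((W.q_wt 0).psd γ a z hz ⟨hy, W.q_pos _ hy⟩))
  rwa [← e] at h4

theorem N_pos (hq : QX R) (h : 0 < D.F 0 y) : 0 < Nm V y := by
  obtain ⟨γ, a, z, hz, rfl⟩ := C.exists_pt y
  rw [g.N_eq γ a z (C.B14 hz)]
  exact mul_pos (sq_pos' (L_ne hq (C.B14 hz) h)) (Real.exp_pos _)

theorem mem_O (hq : QX R) (h1 : 0 < D.F 0 y) (h2 : 0 < P.σ y) {c : ℝ}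
    (h : ∃ᶠ x in 𝓝 y, x ∈ Λ.O V (D.F 0) ∧ vf W x ≤ c) : y ∈ Λ.O V (D.F 0) := by
  have h3 : Nm V y ≤ Real.exp c * Λ.lz V y :=
    le_of_tendsto_of_tendsto_of_frequently g.N_cont.continuousAt
      (continuous_const.mul g.lz_cont).continuousAt (h.mono fun x hx => by
        rw [N_G g hx.1.2.2.1]
        exact mul_le_mul_of_nonneg_right ((vf_le W hx.1).2.1.trans (Real.exp_le_exp.2 hx.2))
          hx.1.2.2.1.le)
  have h4 : 0 < Λ.lz V y :=
    (mul_pos_iff_of_pos_left (Real.exp_pos c)).1 ((N_pos g hq h1).trans_le h3)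
  obtain ⟨γ, a, z, hz, rfl⟩ := C.exists_pt y
  have hz := C.B14 hz
  obtain ⟨ξ, hξ⟩ := hq.F_imm 0 a z hz (by rwa [← F_pt D 0 γ])
  refine g.mem γ a z hz h1 h2 h4 ξ fun e => hξ.not_ge ?_
  have c1 : ContinuousAt (fun w => R.Q 0 a w ξ) z :=
    ((R.Q_cont 0 a).continuousAt (prod_mem_nhds (evB hz) univ_mem)).comp
      (f := fun w => (w, ξ)) (by fun_prop)
  have c2 : ContinuousAt (fun w => Real.exp c * (Λ.lz V (C.pt γ a w) ^ R.τ 0 *
      ‖ds C (Λ.s V) γ a w ξ‖ ^ (2 / (p + 1 : ℝ)))) z :=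
    continuousAt_const.mul (((g.lz_cont.continuousAt.comp (C.continuousAt_pt hz γ)).rpow_const
      (.inr (R.τ_nonneg 0))).mul ((dd_cont ((Λ.l.analyticAt _).comp (g.G_hol γ a z hz h4))
        ξ).norm.rpow_const (.inr (by positivity))))
  rw [← C.map_pt' hz, frequently_map] at h
  have := le_of_tendsto_of_tendsto_of_frequently c1 c2
    ((h.and_eventually (evB hz)).mono fun w hw => by
      rw [← W.q_eq 0 γ a w hw.2 hw.1.1 ξ]
      have := hw.1.1.2.2.1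
      exact mul_le_mul_of_nonneg_right ((vf_le W hw.1.1).2.2.trans (Real.exp_le_exp.2 hw.1.2))
        (by positivity))
  beta_reduce at this
  rwa [e, norm_zero, Real.zero_rpow (by positivity), mul_zero, mul_zero] at this

theorem cpt [T2Space E] (hq : QX R) (K : Set E) (hK : IsCompact K) (c : ℝ) (hc : 0 < c) (c' : ℝ) :
    IsCompact {y ∈ K | y ∈ Λ.O V (D.F 0) ∧ c ≤ D.F 0 y * P.σ y ∧ vf W y ≤ c'} := by
  refine hK.of_isClosed_subset (isClosed_of_closure_subset fun y hy => ?_) fun _ h => h.1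
  have h1 := mem_closure_iff_frequently.1 hy
  have h2 : c ≤ D.F 0 y * P.σ y := le_of_tendsto_of_tendsto_of_frequently tendsto_const_nhds
    ((D.F_cont 0).mul g.σ_cont).continuousAt (h1.mono fun x hx => hx.2.2.1)
  obtain ⟨h3, h4⟩ := pos_of (hc.trans_le h2)
  have h5 := mem_O W g hq h3 h4 (h1.mono fun x hx => ⟨hx.2.1, hx.2.2.2⟩)
  exact ⟨hK.isClosed.closure_subset (closure_mono (fun _ h => h.1) hy), h5, h2,
    le_of_tendsto_of_tendsto_of_frequently (cont_of_sm (vf_sm W g h5)) tendsto_const_nhds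
      (h1.mono fun x hx => hx.2.2.2)⟩

theorem tube (jb : JB) (hq : QX R) {a₀ : C.I} {z₀ : Cm n} (T : G3 Λ V (D.F 0) a₀ z₀) {A : ℝ}
    (hA : m ≤ A) : ∃ M : ℝ, 0 ≤ M ∧ Psd C ((M : ℂ) • C.om A (fun y => Real.log (Nm V y)) -
      hs C (fun y => vf W y ^ 2) - C.pbs (Λ.s V)) T.Ω := by
  have hR := T.tb.pos
  have key : ∀ t ∈ closedBall (Λ.s V (C.pt 1 a₀ z₀)) T.R,
      AnalyticAt ℂ (fun t => Λ.G V (C.pt 1 a₀ (T.σ t))) t ∧
      ContDiffAt ℝ ∞ (fun t => vf W (C.pt 1 a₀ (T.σ t)) ^ 2) t ∧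
      ∀ᶠ w in 𝓝 t, Λ.l₀ (Λ.G V (C.pt 1 a₀ (T.σ w))) = 1 ∧ Λ.l (Λ.G V (C.pt 1 a₀ (T.σ w))) = w :=
    fun t ht => by
      have h1 := closedBall_subset_ball (show T.R < 2 * T.R by linarith) ht
      obtain ⟨h2, h3, -⟩ := T.σ_mem t h1
      have h4 := C.B_mono (show (2 : ℝ) ≤ 4 by norm_num) a₀ h2
      refine ⟨(g.G_hol 1 a₀ _ h4 h3.2.2.1).comp (T.σ_an t h1),
        ((vf_sm W g h3 1 a₀ _ h4 rfl).comp t
          ((T.σ_an t h1).contDiffAt.restrict_scalars ℝ)).pow 2, ?_⟩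
      filter_upwards [isOpen_ball.mem_nhds h1] with w hw
      exact ⟨l₀_G g (T.σ_mem w hw).2.1.2.2.1, (T.σ_mem w hw).2.2⟩
  obtain ⟨M, hM, h⟩ := dominate (isCompact_closedBall _ _) Λ.l₀ Λ.l key
  refine ⟨M, hM, fun γ a z hz hy => ?_⟩
  have hO := T.tb.sub hy
  have ht := ball_subset_closedBall (T.tb.mem _ hy)
  have hs := g.sub.hol γ a z hz hO
  have ev := ((C.ev_pt hz γ).1 (T.tb.opn.mem_nhds hy)).mono fun w hw => T.rel _ hw
  have e1 := jb.hess_comp n p _ _ z hs (two (sm_log (key _ ht).1 (h _ ht).1))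
  have e2 := jb.hess_comp n p _ _ z hs (two (key _ ht).2.1)
  rw [← C2.cHess_congr (u := fun w => Real.log (‖Λ.G V (C.pt γ a w)‖ ^ 2))
    (ev.mono fun w hw => by simp only [hw.2.2.1])] at e1
  rw [← C2.cHess_congr (u := fun w => vf W (C.pt γ a w) ^ 2)
    (ev.mono fun w hw => by simp only [vf, hw.2.2.1, W.q_rel 0 _ _ hw])] at e2
  have h1 := (pb_psd (jm (fun w => Λ.s V (C.pt γ a w)) z) (h _ ht).2).add
    (psd_smul (ρ_psd hz (sub_nonneg.2 hA)) hM)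
  rw [pb_lin, ← e1, ← e2] at h1
  simp only [Pi.sub_apply, Pi.smul_apply]
  rw [om_N g A hz (L_ne hq hz hO.1), hess_L g jb hz hO.2.2.1, smul_add, add_sub_right_comm,
    add_sub_right_comm]
  exact h1

end S6b

open S6b in
theorem st6b : St6b := by
  intro jb n p Γ E _ _ _ _ C P J m V D R hq Λ a₀ z₀ g _ T l W
  have hA := D.A_pos
  have hm : (0 : ℝ) ≤ m := m.cast_nonneg
  exact ⟨{
    A := D.A + 1 + m
    A_nonneg := by positivity
    P := fun y => D.F 0 y * P.σ y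
    P_cont := (D.F_cont 0).mul g.σ_cont
    P_inv := fun γ y => by rw [D.F_inv, σ_inv]
    P_nonneg := fun y => mul_nonneg (D.F_nonneg 0 y) (σ_nonneg P y)
    P_le := fun y => mul_le_one₀ (D.F_le 0 y) (σ_nonneg P y) (P.σ_lt y).le
    P_sm := fun y h γ a z hz e => (F_sm (pos_of h).1 γ a z hz e).mul (σ_sm P y γ a z hz e)
    P_psd := P_psd m
    N := Nm V
    N_cont := g.N_cont
    N_inv := N_inv g
    N_pos := fun y h => N_pos g hq (pos_of h).1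
    N_sm := fun y _ => N_sm g y
    N_psd := fun γ a z hz h => by
      have h1 := L_ne hq hz (pos_of h).1
      rw [om_N g _ hz h1]
      exact (fs_psd (V.an a z hz) h1).add (ρ_psd hz (by linarith))
    sub := fun y h => mul_pos h.1 h.2.1
    v := vf W
    v_sm := fun y => vf_sm W g
    v_nonneg := fun y h => (vf_le W h).1
    v_psd := vf_psd W g
    cpt := cpt W g hq
    bdd := T.bdd
    tube := tube W g jb hq T (by linarith) }⟩

end Vale.Agent.P284Z.L
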