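import Vale.Agent.P284Z.L.Spec
import Vale.Agent.P284Z.F0.Psh
import Vale.Agent.P284Z.Z.Skoda

/-!
# P284Z, block L, piece 6c: the estimates of the weights
-/

open scoped ContDiff Topology ENNReal
open Filter Set Function Metric MeasureTheory

noncomputable section

namespace Vale.Agent.P284Z.L

open Vale.Agent.P272.K

namespace S6c

/-- a small frame with nonzero determinant -/
theorem small_frame {n p : ℕ} {b : Cm n → Cm p} {z : Cm n} (h : Surjective (fderiv ℂ b z)) :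
    ∃ ξ : Fin p → Cm n, ‖ξ‖ ≤ 1 ∧ dd b z ξ ≠ 0 := by
  choose ξ hξ using fun j : Fin p => h (Pi.single j 1)
  have h0 : 0 < ‖ξ‖ + 1 := by positivity
  refine ⟨((‖ξ‖ + 1 : ℝ) : ℂ)⁻¹ • ξ, ?_, ?_⟩
  · rw [norm_smul, norm_inv, Complex.norm_real, Real.norm_of_nonneg h0.le, inv_mul_le_iff₀ h0]
    linarith
  · have e : (Matrix.of fun i j => fderiv ℂ b z ((((‖ξ‖ + 1 : ℝ) : ℂ)⁻¹ • ξ) j) i) =
        ((‖ξ‖ + 1 : ℝ) : ℂ)⁻¹ • (1 : Matrix (Fin p) (Fin p) ℂ) := by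
      ext i j
      simp only [Matrix.of_apply, Pi.smul_apply, map_smul, hξ, Matrix.smul_apply, Matrix.one_apply,
        Pi.single_apply]
    rw [dd, e, Matrix.det_smul, Matrix.det_one, mul_one]
    exact pow_ne_zero _ (inv_ne_zero (Complex.ofReal_ne_zero.2 h0.ne'))

theorem cont_dd {n p : ℕ} {b : Cm n → Cm p} {z : Cm n} (h : AnalyticAt ℂ b z)
    (ξ : Fin p → Cm n) : ContinuousAt (fun w => dd b w ξ) z := by
  have h1 : ContinuousAt (fun w => Matrix.of fun i j => fderiv ℂ b w (ξ j) i) z :=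
    continuousAt_pi.2 fun i => continuousAt_pi.2 fun j =>
      (continuous_apply i).continuousAt.comp (h.fderiv.continuousAt.clm_apply continuousAt_const)
  exact (Continuous.matrix_det continuous_id).continuousAt.comp h1

/-- two sided bounds of `f ^ τ j`, uniform in `j` -/
theorem rpow_bd {X : Type} [TopologicalSpace X] {f : X → ℝ} {x : X} (hf : ContinuousAt f x)
    (h0 : 0 < f x) {τ : ℕ → ℝ} (hτ : ∀ j, 0 ≤ τ j) {t : ℝ} (ht : Tendsto τ atTop (𝓝 t)) :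
    ∃ κ > (0 : ℝ), ∀ᶠ w in 𝓝 x, 0 < f w ∧ ∀ j, κ ≤ f w ^ τ j ∧ f w ^ τ j ≤ κ⁻¹ := by
  obtain ⟨T, hT⟩ := ht.bddAbove_range
  have hT' : ∀ j, τ j ≤ T := fun j => hT ⟨j, rfl⟩
  obtain ⟨a, ha, ha1, h1, h2⟩ : ∃ a > (0 : ℝ), a ≤ 1 ∧ a < f x ∧ f x < a⁻¹ := by
    have h1 : ∀ᶠ a in 𝓝[>] (0 : ℝ), a ≤ 1 ∧ a < f x ∧ a < (f x)⁻¹ :=
      mem_nhdsWithin_of_mem_nhds ((ge_mem_nhds one_pos).and ((gt_mem_nhds h0).and
        (gt_mem_nhds (inv_pos.2 h0))))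
    obtain ⟨a, ⟨h1, h2, h3⟩, h4⟩ := (h1.and self_mem_nhdsWithin).exists
    exact ⟨a, h4, h1, h2, (lt_inv_comm₀ h4 h0).1 h3⟩
  refine ⟨a ^ T, Real.rpow_pos_of_pos ha T, ?_⟩
  filter_upwards [hf.eventually (lt_mem_nhds h1), hf.eventually (gt_mem_nhds h2)] with w h3 h4
  refine ⟨ha.trans h3, fun j => ⟨?_, ?_⟩⟩
  · exact (Real.rpow_le_rpow_of_exponent_ge ha ha1 (hT' j)).trans
      (Real.rpow_le_rpow ha.le h3.le (hτ j))
  · rw [← Real.inv_rpow ha.le]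
    exact (Real.rpow_le_rpow (ha.trans h3).le h4.le (hτ j)).trans
      (Real.rpow_le_rpow_of_exponent_le ((one_le_inv₀ ha).2 ha1) (hT' j))

theorem rpow_neg_le {x q b K : ℝ} (hb : 0 < b) (hK : 0 ≤ K) (h : x ≤ b * q) :
    ENNReal.ofReal q ^ (-K) ≤ ENNReal.ofReal b ^ K * ENNReal.ofReal x ^ (-K) := by
  have h1 : ENNReal.ofReal x ^ K ≤ ENNReal.ofReal b ^ K * ENNReal.ofReal q ^ K := by
    rw [← ENNReal.mul_rpow_of_nonneg _ _ hK, ← ENNReal.ofReal_mul hb.le]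
    exact ENNReal.rpow_le_rpow (ENNReal.ofReal_le_ofReal h) hK
  have h2 : ENNReal.ofReal b ^ K ≠ 0 :=
    (ENNReal.rpow_pos (ENNReal.ofReal_pos.2 hb) ENNReal.ofReal_ne_top).ne'
  have h3 : ENNReal.ofReal b ^ K ≠ ⊤ := ENNReal.rpow_ne_top_of_nonneg hK ENNReal.ofReal_ne_top
  rw [ENNReal.rpow_neg, ENNReal.rpow_neg, ← ENNReal.inv_mul_le_iff h2 h3,
    ← ENNReal.mul_inv (Or.inl h2) (Or.inl h3)]
  exact ENNReal.inv_le_inv.2 h1

/-- uniform integrability of negative powers -/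
theorem sk_gen {p : ℕ} {g : ℕ → Cm p → ℝ} {φ : Cm p → ℝ} {U : Set (Cm p)} {t₀ : Cm p} {G K : ℝ}
    (hU : IsOpen U) (h0 : t₀ ∈ U) (hg : ∀ j, LPsh (fun t => g j t * φ t) U)
    (hg0 : ∀ j t, 0 ≤ g j t) (hφ : ContinuousAt φ t₀) (hφ0 : 0 < φ t₀) (hG : 0 < G)
    (h1 : Tendsto (fun j => g j t₀) atTop (𝓝 G))
    (h2 : ∀ s > G, ∀ᶠ q : ℕ × Cm p in atTop ×ˢ 𝓝 t₀, g q.1 q.2 < s) (hK : 0 < K) :
    ∃ ε > (0 : ℝ), ∃ B < (⊤ : ℝ≥0∞), ∀ᶠ j in atTop,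
      ∫⁻ t in ball t₀ ε, ENNReal.ofReal (g j t) ^ (-K) ≤ B := by
  obtain ⟨c, c0, B, hB, hsk⟩ := Z.skoda (volume : Measure (Cm p))
  have s0 : 0 < c / K := div_pos c0 hK
  have hθ : 1 < Real.exp (c / K / 4) := Real.one_lt_exp_iff.2 (by positivity)
  have hθ' : Real.exp (-(c / K / 2)) < 1 := Real.exp_lt_one_iff.2 (by linarith)
  have e : Real.exp (c / K / 4) * Real.exp (c / K / 4) * Real.exp (-(c / K)) =
      Real.exp (-(c / K / 2)) := by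
    rw [← Real.exp_add, ← Real.exp_add]
    congr 1
    ring
  generalize Real.exp (c / K / 4) = θ at hθ e
  have g0 : 0 < G * θ := by positivity
  have f0 : 0 < φ t₀ * θ := by positivity
  obtain ⟨pa, ha, pb, hb, hab⟩ := eventually_prod_iff.1 (h2 _ (lt_mul_of_one_lt_right hG hθ))
  obtain ⟨δ, d0, hδ⟩ := nhds_basis_closedBall.eventually_iff.1 (hb.and
    ((hφ.eventually (gt_mem_nhds (lt_mul_of_one_lt_right hφ0 hθ))).and (hU.mem_nhds h0)))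
  have b0 : ENNReal.ofReal (G * θ)⁻¹ ^ K ≠ ⊤ :=
    ENNReal.rpow_ne_top_of_nonneg hK.le ENNReal.ofReal_ne_top
  refine ⟨δ / 8, by positivity, ENNReal.ofReal (G * θ)⁻¹ ^ K * (B * volume (closedBall t₀ δ)),
    ENNReal.mul_lt_top b0.lt_top (ENNReal.mul_lt_top hB measure_closedBall_lt_top), ?_⟩
  filter_upwards [ha, h1.eventually (lt_mem_nhds (mul_lt_of_lt_one_right hG hθ'))] with j a1 a2
  have h3 := hsk _ U t₀ δ (G * θ * (φ t₀ * θ)) (c / K) hU (hg j) (fun t ht => (hδ ht).2.2) d0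
    (mul_pos g0 f0) s0 (fun t ht => (mul_le_mul_of_nonneg_left (hδ ht).2.1.le (hg0 j t)).trans
      (mul_le_mul_of_nonneg_right (hab a1 (hδ ht).1).le f0.le)) (by
        calc _ = G * (θ * θ * Real.exp (-(c / K))) * φ t₀ := by ring
          _ ≤ _ := by rw [e]; exact mul_le_mul_of_nonneg_right a2.le hφ0.le)
  rw [div_div_cancel₀ c0.ne'] at h3
  refine le_trans ?_ (mul_le_mul_right h3 _)
  rw [← lintegral_const_mul' _ _ b0]
  refine (lintegral_mono_set ball_subset_closedBall).trans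
    (setLIntegral_mono' measurableSet_closedBall fun t ht => rpow_neg_le (inv_pos.2 g0) hK.le ?_)
  have h4 := (hδ (closedBall_subset_closedBall (by linarith) ht)).2.1.le
  rw [div_le_iff₀ (mul_pos g0 f0)]
  calc _ ≤ g j t * (φ t₀ * θ) := mul_le_mul_of_nonneg_left h4 (hg0 j t)
    _ = _ := by field_simp

theorem pole_alg {w F W q c ε : ℝ} (hF : 0 ≤ F) (hW : 0 ≤ W) (hq : 0 ≤ q) (hc : 0 ≤ c)
    (h1 : w * F = W * q) (h2 : q ≤ c * F) (h3 : w ≤ ε * q) : w ≤ c * W := by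
  rcases hF.eq_or_lt with rfl | hF
  · rw [le_antisymm (h2.trans_eq (mul_zero c)) hq, mul_zero] at h3
    exact h3.trans (mul_nonneg hc hW)
  · refine le_of_mul_le_mul_right ?_ hF
    rw [h1, mul_right_comm, mul_comm W]
    exact mul_le_mul_of_nonneg_right h2 hW

theorem shell_alg {w F F₀ f W q c κ : ℝ} (hF : 0 ≤ F) (hF1 : F ≤ 1) (hq : 0 ≤ q) (hw : 0 ≤ w)
    (hc : 0 ≤ c) (hκ : 0 < κ) (hf : 0 < f) (hf1 : f ≤ 1) (h0 : f ≤ F₀) (h1 : w * F = W * q)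
    (h2 : q ≤ c * F) (h3 : κ * min F₀ F ^ 3 * (F₀ * F) ≤ W) :
    q ^ 4 ≤ c ^ 3 / (κ * f ^ 4) * w := by
  rcases hF.eq_or_lt with rfl | hF
  · rw [le_antisymm (h2.trans_eq (mul_zero c)) hq, zero_pow four_ne_zero]
    positivity
  have h4 : f * F ≤ min F₀ F :=
    le_min ((mul_le_of_le_one_right hf.le hF1).trans h0) (mul_le_of_le_one_left hF.le hf1)
  have h4' : 0 ≤ min F₀ F := le_trans (by positivity) h4
  have h5 : κ * (f * F) ^ 3 * (f * F) ≤ W := le_trans (by gcongr) h3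
  have h6 : κ * f ^ 4 * (F ^ 3 * q) ≤ w := by
    refine le_of_mul_le_mul_right ?_ hF
    rw [h1]
    calc _ = κ * (f * F) ^ 3 * (f * F) * q := by ring
      _ ≤ _ := mul_le_mul_of_nonneg_right h5 hq
  rw [div_mul_eq_mul_div, le_div_iff₀ (by positivity)]
  calc q ^ 4 * (κ * f ^ 4) = q ^ 3 * (q * (κ * f ^ 4)) := by ring
    _ ≤ (c * F) ^ 3 * (q * (κ * f ^ 4)) := by gcongr
    _ = c ^ 3 * (κ * f ^ 4 * (F ^ 3 * q)) := by ring
    _ ≤ _ := by gcongr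

variable {n p : ℕ} {Γ E : Type} [Group Γ] [TopologicalSpace E] [MulAction Γ E] {C : Cov n Γ E}
  {P : Pol C} {J : IX Γ} {m : ℕ} {V : HSec P J m} {D : LD C} {R : LQ V p D} {Λ : Fn J p}
  {x₀ : E} {l : ℕ}

/-- `q j` is comparable with `Q j` along a fixed frame -/
theorem frame (g1 : G1 Λ V (D.F 0) x₀) (W : Wf Λ R l x₀) {γ : Γ} {a : C.I} {z : Cm n}
    (hz : z ∈ C.B 4 a) (hO : C.pt γ a z ∈ Λ.O V (D.F 0)) :
    ∃ ξ : Fin p → Cm n, ‖ξ‖ ≤ 1 ∧ ∃ κ > (0 : ℝ), ∀ᶠ w in 𝓝 z, w ∈ C.B 4 a ∧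
      C.pt γ a w ∈ Λ.O V (D.F 0) ∧ ds C (Λ.s V) γ a w ξ ≠ 0 ∧
      ∀ j, κ * W.q j (C.pt γ a w) ≤ R.Q j a w ξ ∧ κ * R.Q j a w ξ ≤ W.q j (C.pt γ a w) := by
  obtain ⟨ξ, h1, h2⟩ := small_frame (g1.sub.surj γ a z hz hO)
  have hc := C.continuousAt_pt hz γ
  obtain ⟨κ₁, k1, e1⟩ := rpow_bd (f := fun w => Λ.lz V (C.pt γ a w))
    (g1.lz_cont.continuousAt.comp hc) hO.2.2.1 R.τ_nonneg R.τ_tend
  obtain ⟨κ₂, k2, e2⟩ := rpow_bd (f := fun w => ‖ds C (Λ.s V) γ a w ξ‖)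
    (cont_dd (g1.sub.hol γ a z hz hO) ξ).norm (norm_pos_iff.2 h2)
    (τ := fun _ => 2 / (p + 1 : ℝ)) (fun _ => by positivity) tendsto_const_nhds
  refine ⟨ξ, h1, κ₁ * κ₂, mul_pos k1 k2, ?_⟩
  filter_upwards [e1, e2, (C.isOpen_B 4 a).mem_nhds hz, hc.eventually (g1.sub.opn.mem_nhds hO)]
    with w a1 a2 a3 a4
  refine ⟨a3, a4, norm_pos_iff.1 a2.1, fun j => ?_⟩
  have hq := (W.q_wt j).nonneg _ a4
  obtain ⟨b1, b2⟩ := a1.2 j
  obtain ⟨b3, b4⟩ := a2.2 j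
  rw [← W.q_eq j γ a w a3 a4 ξ]
  refine ⟨?_, ?_⟩
  · rw [mul_comm]
    exact mul_le_mul_of_nonneg_left (mul_le_mul b1 b3 k2.le (k1.le.trans b1)) hq
  · rw [mul_left_comm]
    refine mul_le_of_le_one_right hq ?_
    rw [← le_inv_mul_iff₀ (mul_pos k1 k2), mul_one, mul_inv]
    exact mul_le_mul b2 b4 (k2.le.trans b3) (inv_pos.2 k1).le

theorem loc (hq : QX R) (g1 : G1 Λ V (D.F 0) x₀) (W : Wf Λ R l x₀) (K : Set E)
    (hK : K ⊆ Λ.O V (D.F 0)) (hc : IsCompact K) : ∃ M' : ℝ, ∀ j, ∀ y ∈ K, W.q j y ≤ M' := by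
  obtain ⟨B, hB⟩ := hq.Q_bd
  refine hc.induction_on (p := fun S => ∃ M' : ℝ, ∀ j, ∀ y ∈ S, W.q j y ≤ M')
    ⟨0, fun _ _ h => h.elim⟩ (fun _ _ h ⟨M, hM⟩ => ⟨M, fun j y hy => hM j y (h hy)⟩)
    (fun _ _ ⟨M, hM⟩ ⟨M', hM'⟩ => ⟨max M M', fun j y hy => hy.elim
      (fun h => (hM j y h).trans (le_max_left _ _)) fun h => (hM' j y h).trans (le_max_right _ _)⟩)
    fun y hy => ?_
  obtain ⟨γ, a, z, hz, rfl⟩ := C.exists_pt y
  obtain ⟨ξ, h1, κ, k0, h2⟩ := frame g1 W (C.B14 hz) (hK hy)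
  refine ⟨{y | ∀ j, W.q j y ≤ κ⁻¹ * B}, mem_nhdsWithin_of_mem_nhds
    ((C.ev_pt (C.B14 hz) γ).2 ?_), κ⁻¹ * B, fun j y hy => hy j⟩
  filter_upwards [h2, (C.isOpen_B 3 a).mem_nhds (C.B_mono (by norm_num) a hz)] with w a1 a2 j
  rw [le_inv_mul_iff₀ k0]
  exact (a1.2.2.2 j).1.trans (hB j a w a2 ξ h1)

theorem up (hq : QX R) (W : Wf Λ R l x₀) : ∃ M' : ℝ, ∀ γ a, ∀ z ∈ C.B 3 a,
    C.pt γ a z ∈ Λ.O V (D.F 0) → ∀ ξ : Fin p → Cm n, ‖ξ‖ ≤ 1 → ∀ᶠ j in atTop,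
      W.q j (C.pt γ a z) * ‖ds C (Λ.s V) γ a z ξ‖ ^ (2 / (p + 1 : ℝ)) ≤ M' := by
  obtain ⟨B, hB⟩ := hq.Q_bd
  refine ⟨2 * B, fun γ a z hz hO ξ hξ => ?_⟩
  have h1 : Tendsto (fun j => Λ.lz V (C.pt γ a z) ^ R.τ j) atTop (𝓝 1) := by
    simpa using (tendsto_const_nhds (x := Λ.lz V (C.pt γ a z))).rpow R.τ_tend
      (Or.inl hO.2.2.1.ne')
  filter_upwards [h1.eventually (lt_mem_nhds (by norm_num : (1 / 2 : ℝ) < 1))] with j hj
  have h2 := hB j a z hz ξ hξ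
  rw [← W.q_eq j γ a z (C.B_mono (by norm_num) a hz) hO ξ] at h2
  have h3 := mul_nonneg ((W.q_wt j).nonneg _ hO)
    (Real.rpow_nonneg (norm_nonneg (ds C (Λ.s V) γ a z ξ)) (2 / (p + 1 : ℝ)))
  nlinarith

/-- `q j` is comparable with `F j` -/
theorem cmp (hq : QX R) (g1 : G1 Λ V (D.F 0) x₀) (g2 : G2 Λ V (D.F 0)) (W : Wf Λ R l x₀)
    {a : C.I} {z : Cm n} (hz : z ∈ C.B 3 a) (hO : C.pt 1 a z ∈ Λ.O V (D.F 0)) :
    ∃ c > (0 : ℝ), ∀ᶠ w in 𝓝 z, ∀ j, W.q j (C.pt 1 a w) ≤ c * D.F j (C.pt 1 a w) ∧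
      D.F j (C.pt 1 a w) ≤ c * W.q j (C.pt 1 a w) := by
  obtain ⟨ξ, h1, κ, k0, h2⟩ := frame g1 W (C.B_mono (by norm_num) a hz) hO
  obtain ⟨K, hK⟩ := hq.Q_loc a z hz hO.2.1
  obtain ⟨ε, e0, he⟩ := nhds_basis_closedBall.eventually_iff.1 h2
  obtain ⟨κ', k1, h3⟩ := R.le_Q a (closedBall z ε ×ˢ {ξ})
    ((isCompact_closedBall z ε).prod isCompact_singleton) fun q hq' => by
      obtain ⟨b1, b2, b3, -⟩ := he hq'.1
      exact ⟨b1, (g2.imm 1 a q.1 b1 b2 q.2).2 (by rwa [mem_singleton_iff.1 hq'.2])⟩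
  refine ⟨max (κ⁻¹ * K) (κ * κ')⁻¹, lt_max_of_lt_right (inv_pos.2 (mul_pos k0 k1)), ?_⟩
  filter_upwards [hK, closedBall_mem_nhds z e0] with w a1 a2 j
  obtain ⟨-, b2, -, b4⟩ := he a2
  refine ⟨le_trans ?_ (mul_le_mul_of_nonneg_right (le_max_left _ _) (D.F_nonneg j _)),
    le_trans ?_ (mul_le_mul_of_nonneg_right (le_max_right _ _) ((W.q_wt j).nonneg _ b2))⟩
  · rw [mul_assoc, le_inv_mul_iff₀ k0]
    exact (b4 j).1.trans (a1 j ξ h1)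
  · rw [le_inv_mul_iff₀ (mul_pos k0 k1), mul_assoc]
    exact (mul_le_mul_of_nonneg_left (h3 j (w, ξ) ⟨a2, rfl⟩) k0.le).trans (b4 j).2

end S6c

open S6c in
theorem st6c : St6c := by
  classical
  intro n p Γ E _ _ _ _ C P J m V D R hq Λ a₀ z₀ hz g1 g2 T l W L Z hSB nm hL hT K hK
  have hz3 : z₀ ∈ C.B 3 a₀ := C.B_mono (by norm_num) a₀ hz
  have R0 := T.tb.pos
  have hb := T.σ_base
  have h4 : ∀ t ∈ ball (Λ.s V (C.pt 1 a₀ z₀)) (2 * T.R), T.σ t ∈ C.B 4 a₀ := fun t ht =>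
    C.B_mono (by norm_num) a₀ (T.σ_mem t ht).1
  have hyc : ContinuousOn (fun t => C.pt 1 a₀ (T.σ t)) (ball _ (2 * T.R)) :=
    (C.continuousOn_pt 1 a₀).comp T.σ_an.continuousOn h4
  have hm := T.σ_mem
  have han := T.σ_an
  have hΩ : ∀ y ∈ T.Ω, Λ.s V y ∈ ball _ (2 * T.R) := fun y hy =>
    ball_subset_ball (by linarith) (T.tb.mem y hy)
  have hq0 : 0 < W.q 0 (C.pt 1 a₀ z₀) := W.q_pos _ g1.base
  obtain ⟨c, c0, hc⟩ := cmp hq g1 g2 W hz3 g1.base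
  obtain ⟨Kp, hp⟩ := D.pole (l + 1)
  generalize ht₀ : Λ.s V (C.pt 1 a₀ z₀) = t₀ at hb h4 hyc hm han hΩ nm
  have m0 : t₀ ∈ ball t₀ (2 * T.R) := mem_ball_self (by positivity)
  have hσ : Tendsto T.σ (𝓝 t₀) (𝓝 z₀) := by
    simpa only [hb] using (han t₀ m0).continuousAt.tendsto
  have hy : Tendsto (fun t => C.pt 1 a₀ (T.σ t)) (𝓝 t₀) (𝓝 (C.pt 1 a₀ z₀)) :=
    (C.continuousAt_pt (C.B14 hz) 1).tendsto.comp hσ
  obtain ⟨Ls, L0, hLs⟩ := (han t₀ m0).differentiableAt.isBigO_sub.exists_pos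
  obtain ⟨ε, e0, B, hB, hsk⟩ := sk_gen (g := fun j t => D.F j (C.pt 1 a₀ (T.σ t)))
    (φ := fun t => Real.exp (D.A * C.ρ a₀ (T.σ t))) isOpen_ball m0
    (fun j => (D.F_psh j a₀).comp (C.isOpen_B 4 a₀) isOpen_ball han.differentiableOn h4)
    (fun j t => D.F_nonneg j _) (Real.continuous_exp.continuousAt.comp (continuousAt_const.mul
      ((C.ρ_sm a₀ _ (h4 t₀ m0)).continuousAt.comp (han t₀ m0).continuousAt)))
    (Real.exp_pos _) hL (by simpa only [hb] using hT)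
    (fun s hs => (tendsto_id.prodMap hy).eventually ((L.F_lim _ s).1 hs)) hK
  have hr : ∀ᶠ y in 𝓝 (C.pt 1 a₀ z₀), W.q 0 (C.pt 1 a₀ z₀) / 2 < W.q 0 y :=
    ((W.q_wt 0).cont.continuousAt (g1.sub.opn.mem_nhds g1.base)).eventually
      (lt_mem_nhds (half_lt_self hq0))
  obtain ⟨δ, d0, hδ⟩ := nhds_basis_closedBall.eventually_iff.1
    ((hσ.eventually hc).and ((hy.eventually nm).and ((hy.eventually hr).and hLs.bound)))
  obtain ⟨R₂, ⟨r1, r2, r3⟩, r0⟩ := (eventually_nhdsWithin_of_eventually_nhds (s := Ioi (0 : ℝ))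
    ((ge_mem_nhds e0).and ((ge_mem_nhds d0).and (gt_mem_nhds R0)))).and
      self_mem_nhdsWithin |>.exists
  replace r0 : 0 < R₂ := r0
  have s1 : closedBall t₀ R₂ ⊆ ball t₀ (2 * T.R) := closedBall_subset_ball (by linarith)
  replace hδ := fun t (ht : t ∈ closedBall t₀ R₂) => hδ (closedBall_subset_closedBall r2 ht)
  obtain ⟨κ, k0, hκ, -⟩ := hSB l ((fun t => (C.pt 1 a₀ z₀, C.pt 1 a₀ (T.σ t))) ''
      (closedBall t₀ R₂ \ ball t₀ (R₂ / 2)))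
    (((isCompact_closedBall _ _).diff isOpen_ball).image_of_continuousOn
      (continuousOn_const.prodMk (hyc.mono fun t ht => s1 ht.1)))
    (disjoint_left.2 fun _ ⟨t, ht, e⟩ h => ht.2 (by
      have h1 := (hδ t ht.1).2.1 (by rwa [← e] at h)
      rw [(hm t (s1 ht.1)).2.2] at h1
      exact h1 ▸ mem_ball_self (half_pos r0)))
  obtain ⟨M, M1, M2, M3, M4, M5⟩ := ((eventually_ge_atTop (1 : ℝ)).and
    ((eventually_ge_atTop (W.q 0 (C.pt 1 a₀ z₀) / 2)⁻¹).and ((eventually_ge_atTop c).and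
    ((eventually_ge_atTop (c * (|Kp| * Ls ^ D.c (l + 1)))).and
      (eventually_ge_atTop (c ^ 3 / (κ * (L.F (C.pt 1 a₀ z₀) / 2) ^ 4))))))).exists
  have eq : ∀ j, ∀ y ∈ T.Ω, W.q j y = W.q j (C.pt 1 a₀ (T.σ (Λ.s V y))) := fun j y hy =>
    W.q_rel j _ _ (T.rel y hy)
  have ew : ∀ j, ∀ y ∈ T.Ω, W.w j y = W.w j (C.pt 1 a₀ (T.σ (Λ.s V y))) := fun j y hy =>
    W.w_rel j _ _ (T.rel y hy)
  have qM : ∀ y ∈ T.Ω, Λ.s V y ∈ ball t₀ R₂ → ∀ j, W.q j y ≤ M := fun y hy h j => by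
    rw [eq j y hy]
    exact ((hδ _ (ball_subset_closedBall h)).1 j).1.trans
      ((mul_le_of_le_one_right c0.le (D.F_le j _)).trans M3)
  have b0 : ENNReal.ofReal c ^ K ≠ ⊤ := ENNReal.rpow_ne_top_of_nonneg hK.le ENNReal.ofReal_ne_top
  refine ⟨
    { r := W.q 0
      q := W.q
      w := W.w
      r_wt := W.q_wt 0
      q_wt := W.q_wt
      w_wt := W.w_wt
      r_pos := W.q_pos
      w_le := (D.ε_tend.eventually (gt_mem_nhds one_lt_two)).mono fun j hj y hy =>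
        (W.w_le j y hy).trans (mul_le_mul_of_nonneg_right hj.le ((W.q_wt j).nonneg y hy))
      R₁ := R₂ / 2
      R₂ := R₂
      R₁_pos := half_pos r0
      R₁_lt := half_lt_self r0
      R₂_lt := r3
      M := M
      one_le := M1
      bd := fun y hy h => ⟨?_, qM y hy h 0, qM y hy h⟩
      pole := ?_
      shell := ?_
      qh := fun j => (ball t₀ (2 * T.R)).piecewise (fun t => W.q j (C.pt 1 a₀ (T.σ t))) fun _ => 0
      qh_meas := fun j => (((W.q_wt j).cont.comp hyc fun t ht => (hm t ht).2.1)).measurable_piecewise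
        continuousOn_const measurableSet_ball
      qh_eq := fun j y hy => by rw [piecewise_eq_of_mem _ _ _ (hΩ y hy), eq j y hy]
      sk := ⟨ENNReal.ofReal c ^ K * B, ENNReal.mul_lt_top b0.lt_top hB, hsk.mono fun j hj => ?_⟩
      loc := loc hq g1 W
      up := up hq W }⟩
  · rw [eq 0 y hy]
    exact (inv_le_of_inv_le₀ (half_pos hq0) M2).trans (hδ _ (ball_subset_closedBall h)).2.2.1.le
  · filter_upwards [hp] with j hj y hy h
    obtain ⟨a1, -, -, a4⟩ := hδ _ (ball_subset_closedBall h)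
    obtain ⟨b1, b2, -⟩ := hm _ (hΩ y hy)
    have h1 := hj a₀ z₀ hz3 _ (C.B_mono (by norm_num) a₀ b1)
    rw [hb, norm_sub_rev] at a4
    have h2 := Real.rpow_le_rpow (norm_nonneg _) a4 (D.c_pos (l + 1)).le
    rw [Real.mul_rpow L0.le (norm_nonneg _)] at h2
    rw [ew j y hy]
    refine (pole_alg (D.F_nonneg j _) (D.W_nonneg _ j _ _) ((W.q_wt j).nonneg _ b2) c0.le
      (W.w_eq j _ b2) (a1 j).1 (W.w_le j _ b2)).trans (le_trans ?_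
        (mul_le_mul_of_nonneg_right M4 (Real.rpow_nonneg (norm_nonneg _) _)))
    rw [mul_assoc, mul_assoc]
    exact mul_le_mul_of_nonneg_left (h1.trans (mul_le_mul (le_abs_self _) h2
      (Real.rpow_nonneg (norm_nonneg _) _) (abs_nonneg _))) c0.le
  · filter_upwards [hκ, hT.eventually (lt_mem_nhds (half_lt_self hL))] with j hj hj' y hy h h'
    obtain ⟨-, b2, -⟩ := hm _ (hΩ y hy)
    have hw := (W.w_wt j).nonneg _ b2
    rw [eq j y hy, ew j y hy]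
    exact (shell_alg (D.F_nonneg j _) (D.F_le j _) ((W.q_wt j).nonneg _ b2) hw c0.le k0
      (half_pos hL) (by linarith [L.F_le (C.pt 1 a₀ z₀)]) hj'.le (W.w_eq j _ b2)
      ((hδ _ (ball_subset_closedBall h)).1 j).1 (hj _ ⟨_, ⟨ball_subset_closedBall h, fun h'' =>
        (mem_ball_iff_norm.1 h'').not_ge h'⟩, rfl⟩)).trans (mul_le_mul_of_nonneg_right M5 hw)
  · refine le_trans ?_ (mul_le_mul_right ((lintegral_mono_set (ball_subset_ball r1)).trans hj) _)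
    rw [← lintegral_const_mul' _ _ b0]
    refine setLIntegral_mono' measurableSet_ball fun t ht => ?_
    rw [piecewise_eq_of_mem _ _ _ (s1 (ball_subset_closedBall ht))]
    exact rpow_neg_le c0 hK.le ((hδ _ (ball_subset_closedBall ht)).1 j).2

end Vale.Agent.P284Z.L
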