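import Vale.Agent.P284Z.L.Spec
import Vale.Agent.P284Z.L.S8b.Ten

/-!
# P284Z, block L, piece 8b: the basic tensors
-/

open scoped ContDiff Topology ENNReal
open Filter Set Function Metric MeasureTheory

noncomputable section

namespace Vale.Agent.P284Z.L

open Vale.Agent.P272.K

namespace S8b

variable {n p : ℕ} {Γ E : Type} [Group Γ] [TopologicalSpace E] [MulAction Γ E]
  {C : Cov n Γ E} {s : E → Cm p} {O : Set E} {f : E → ℂ} {k : ℕ} {γ : Γ} {a : C.I} {z : Cm n}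

theorem loc_ds (hs : Sub C s O) (hF : Fact Γ s O) (hz : z ∈ C.B 4 a) (h1 : C.pt 1 a z ∈ O)
    (hO : C.pt γ a z ∈ O) : ∃ S : Cm p → Cm p, AnalyticAt ℂ S (s (C.pt 1 a z)) ∧
      (∀ᶠ w in 𝓝 z, s (C.pt γ a w) = S (s (C.pt 1 a w))) ∧
      ∀ᶠ w in 𝓝 z, ∀ ξ, ds C s γ a w ξ = jac S (s (C.pt 1 a w)) * ds C s 1 a w ξ := by
  obtain ⟨S, S1, S2⟩ := hF γ _ h1 (by rwa [← C.pt_eq])
  have hb := hs.hol 1 a z hz h1
  have S3 : ∀ᶠ w in 𝓝 z, s (C.pt γ a w) = S (s (C.pt 1 a w)) :=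
    ((C.ev_pt hz 1).1 S2).mono fun w hw => by rwa [← C.pt_eq] at hw
  refine ⟨S, S1, S3, ?_⟩
  filter_upwards [S3.eventually_nhds, hb.eventually_analyticAt,
    hb.continuousAt.tendsto.eventually S1.eventually_analyticAt] with w w1 w2 w3 ξ
  rw [ds, dd_congr w1]
  exact dd_left (b := fun w => s (C.pt 1 a w)) w3.differentiableAt w2.differentiableAt ξ

theorem kil_mul {b : Cm n → Cm p} {S : Cm p → Cm p} {J : Cm p → ℂ} {b' : Cm n → Cm p}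
    {u F : Cm n → ℂ} (hb : AnalyticAt ℂ b z) (hS : AnalyticAt ℂ S (b z))
    (hJ : AnalyticAt ℂ J (b z)) (hu : AnalyticAt ℂ u z) (h1 : ∀ᶠ w in 𝓝 z, b' w = S (b w))
    (h2 : ∀ᶠ w in 𝓝 z, F w = u w * J (b w)) (h : Kil b' u z) : Kil b F z := fun v hv => by
  have h3 : fderiv ℂ u z v = 0 := h v (by
    rw [Filter.EventuallyEq.fderiv_eq h1, fderiv_fun_comp z hS.differentiableAt
      hb.differentiableAt, ContinuousLinearMap.comp_apply, hv, map_zero])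
  have h4 : fderiv ℂ (fun w => J (b w)) z v = 0 := by
    rw [fderiv_fun_comp z hJ.differentiableAt hb.differentiableAt,
      ContinuousLinearMap.comp_apply, hv, map_zero]
  have h5 : DifferentiableAt ℂ (fun w => J (b w)) z := (hJ.comp hb).differentiableAt
  rw [Filter.EventuallyEq.fderiv_eq h2, fderiv_fun_mul hu.differentiableAt h5]
  simp [h3, h4]

theorem basic (hs : Sub C s O) (ht : Thin C O) (hF : Fact Γ s O) {z₀ : Cm n}
    (hz : z₀ ∈ C.B 4 a) (hO : C.pt 1 a z₀ ∈ O) : ∃ U ∈ 𝓝 z₀, ∀ (f : E → ℂ) (k : ℕ)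
      (T : Ten C p (k + 1)), C.HolOn f O → Bas C s f O →
      (∀ γ a, ∀ z ∈ C.B 4 a, C.pt γ a z ∈ O → ∀ ξ, T.τ γ a z ξ = raw C s f k γ a z ξ) →
      ∀ γ, ∃ h : Cm p → ℂ, AnalyticAt ℂ h (s (C.pt 1 a z₀)) ∧
        (∀ z ∈ U, ∀ ξ, T.τ γ a z ξ = ds C s 1 a z ξ ^ (k + 1) * h (s (C.pt 1 a z))) ∧
        (γ = 1 → ∀ z ∈ U, f (C.pt 1 a z) = h (s (C.pt 1 a z))) := by
  obtain ⟨ξ₀, hξ⟩ := exists_frame (hs.surj 1 a z₀ hz hO)
  have hU₀ : IsOpen {z | (z ∈ C.B 4 a ∧ C.pt 1 a z ∈ O) ∧ ds C s 1 a z ξ₀ ≠ 0} :=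
    ContinuousOn.isOpen_inter_preimage (f := fun z => ds C s 1 a z ξ₀)
      (fun z hz => (an_ds hs hz.1 hz.2 ξ₀).continuousAt.continuousWithinAt)
      (C.isOpen_preimage_pt 1 a hs.opn) isOpen_compl_singleton
  obtain ⟨U, U1, U2, U3⟩ := desc (hs.hol 1 a z₀ hz hO) (hs.surj 1 a z₀ hz hO)
    (hU₀.mem_nhds ⟨⟨hz, hO⟩, hξ⟩)
  refine ⟨U, U1, fun f k T hf hb hT γ => ?_⟩
  have hτ : ∀ z ∈ C.B 4 a, ∀ ξ, AnalyticAt ℂ (fun w => T.τ γ a w ξ) z := fun z hz ξ =>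
    AnalyticAt.comp (g := fun q : Cm n × (Fin p → Cm n) => T.τ γ a q.1 q.2) (f := fun w => (w, ξ))
      (T.an γ a (z, ξ) (mk_mem_prod hz (mem_univ _))) (analyticAt_id.prod analyticAt_const)
  obtain ⟨h, h1, h2⟩ := U3 (fun z => T.τ γ a z ξ₀ / ds C s 1 a z ξ₀ ^ (k + 1))
    (fun z => C.pt γ a z ∈ O)
    (fun z hz => (hτ z hz.1.1 ξ₀).div ((an_ds hs hz.1.1 hz.1.2 ξ₀).pow _) (pow_ne_zero _ hz.2))
    (fun z hz => dens ht γ hz.1.1) fun z hz hγ => by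
      obtain ⟨S, S1, S2, S3⟩ := loc_ds hs hF hz.1.1 hz.1.2 hγ
      refine kil_mul (J := fun t => jac S t ^ (k + 1)) (hs.hol 1 a z hz.1.1 hz.1.2) S1
        ((an_dd S1 _).pow _) (hf γ a z hz.1.1 hγ) S2 ?_ (hb γ a z hz.1.1 hγ)
      filter_upwards [S3, hU₀.mem_nhds hz,
        (C.isOpen_preimage_pt γ a hs.opn).mem_nhds ⟨hz.1.1, hγ⟩] with w w1 w2 w3
      rw [hT γ a w w3.1 w3.2, raw, w1, mul_pow, ← mul_assoc,
        mul_div_cancel_right₀ _ (pow_ne_zero _ w2.2)]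
  refine ⟨h, h1, fun z hz ξ => ?_, fun hγ z hz => ?_⟩
  · have hz' := U2 hz
    have h3 : T.τ γ a z ξ * ds C s 1 a z ξ₀ ^ (k + 1) =
        ds C s 1 a z ξ ^ (k + 1) * T.τ γ a z ξ₀ := by
      refine eq_of_dense (f := fun z => T.τ γ a z ξ * ds C s 1 a z ξ₀ ^ (k + 1))
        (g := fun z => ds C s 1 a z ξ ^ (k + 1) * T.τ γ a z ξ₀)
        ((hτ z hz'.1.1 ξ).mul ((an_ds hs hz'.1.1 hz'.1.2 ξ₀).pow _)).continuousAt
        (((an_ds hs hz'.1.1 hz'.1.2 ξ).pow _).mul (hτ z hz'.1.1 ξ₀)).continuousAt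
        (dens ht γ hz'.1.1) ?_
      filter_upwards [hU₀.mem_nhds hz'] with w hw hγ
      obtain ⟨S, -, -, S3⟩ := loc_ds hs hF hw.1.1 hw.1.2 hγ
      rw [hT γ a w hw.1.1 hγ, hT γ a w hw.1.1 hγ, raw, raw, S3.self_of_nhds, S3.self_of_nhds]
      ring
    rw [← h2 z hz, ← mul_div_assoc, ← h3, mul_div_cancel_right₀ _ (pow_ne_zero _ hz'.2)]
  · have hz' := U2 hz
    subst hγ
    rw [← h2 z hz, hT 1 a z hz'.1.1 hz'.1.2, raw, mul_div_cancel_right₀ _ (pow_ne_zero _ hz'.2)]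

end S8b

open S8b in
theorem st8b : St8b := by
  intro n p Γ E _ _ _ _ _ C s O a z₀ hz hp hs ht hF hO k H₀ H
  have hz4 := C.B14 hz
  have hb := hs.hol 1 a z₀ hz4 hO
  obtain ⟨U, U1, U2⟩ := basic hs ht hF hz4 hO
  let f : Option (Fin p) → E → ℂ := fun i => i.elim H₀.f fun j => (H j).f
  have f1 : ∀ i, C.HolOn (f i) O := fun i => by
    cases i
    exacts [H₀.hol, (H _).hol]
  have f2 : ∀ i, Bas C s (f i) O := fun i => by
    cases i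
    exacts [H₀.bas, (H _).bas]
  have f3 : ∀ i, Bd C s O (f i) k := fun i => by
    cases i
    exacts [H₀.l2, (H _).l2]
  choose T hT using fun i => exists_ten hs ht (f1 i) (f3 i)
  choose h h1 h2 h3 using fun i => U2 (f i) k (T i) (f1 i) (f2 i) (hT i)
  have h0 : ∀ i, h i 1 (s (C.pt 1 a z₀)) = f i (C.pt 1 a z₀) := fun i =>
    (h3 i 1 rfl z₀ (mem_of_mem_nhds U1)).symm
  refine ⟨⟨p, k + 1, hp, Nat.succ_pos k, a, z₀, hz, fun w => s (C.pt 1 a w), U, U1, hb,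
    hs.surj 1 a z₀ hz4 hO, T, h, h2, fun i => h1 i 1, ⟨?_, fun i => ?_⟩, fun η hη => ?_⟩⟩
  · rw [h0]
    exact H₀.jet0.trans_ne one_ne_zero
  · rw [h0]
    exact (H i).jet0.trans (sub_self _)
  · obtain ⟨v, rfl⟩ := hs.surj 1 a z₀ hz4 hO η
    ext i
    have h4 : (fun w => (H i).f (C.pt 1 a w)) =ᶠ[𝓝 z₀] fun w => h (some i) 1 (s (C.pt 1 a w)) :=
      mem_of_superset U1 fun w hw => h3 (some i) 1 rfl w hw
    have h5 := (H i).jet1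
    rw [h4.fderiv_eq, fderiv_fun_comp (f := fun w => s (C.pt 1 a w)) z₀
      (h1 (some i) 1).differentiableAt hb.differentiableAt,
      ((hasFDerivAt_pi'.1 hb.differentiableAt.hasFDerivAt i).sub_const _).fderiv] at h5
    exact (DFunLike.congr_fun h5 v).symm.trans (hη i)

end Vale.Agent.P284Z.L
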