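import Vale.Agent.P284.H608.K.Eng
import Vale.Agent.P284.H286.K.Meas
import Vale.Agent.P284Z.J.Main
import Vale.Agent.P284Z.L.S0
import Vale.Agent.P284Z.L.S1
import Vale.Agent.P284Z.L.S2a
import Vale.Agent.P284Z.L.S2b
import Vale.Agent.P284Z.L.S3
import Vale.Agent.P284Z.L.S4a
import Vale.Agent.P284Z.L.S4b
import Vale.Agent.P284Z.L.S4c
import Vale.Agent.P284Z.L.S4d
import Vale.Agent.P284Z.L.S5a
import Vale.Agent.P284Z.L.S5b
import Vale.Agent.P284Z.L.S6a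
import Vale.Agent.P284Z.L.S6b
import Vale.Agent.P284Z.L.S6c
import Vale.Agent.P284Z.L.S7a
import Vale.Agent.P284Z.L.S7b
import Vale.Agent.P284Z.L.S8a
import Vale.Agent.P284Z.L.S8b

/-!
# P284Z, block L
-/

namespace Vale.Agent.P284Z

theorem L.eng : L.Eng :=
  ⟨Vale.Agent.P284.H752.k1Stmt, Vale.Agent.P284.H608.K.k3, Vale.Agent.P284.H608.K.eng,
    Vale.Agent.P284.H286.K.measStmt⟩

theorem stL : StL :=
  L.stL_of L.eng stJ L.stQ L.st0 L.st1 L.st2a L.st2b L.st3 L.st4a L.st4b L.st4c L.st4d L.st5a L.st5b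
    L.st6a L.st6b L.st6c L.st7a L.st7b L.st8a L.st8b

end Vale.Agent.P284Z
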