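import Vale.Agent.P284Z.J.Spec
import Vale.Agent.P284Z.Spec
import Vale.Agent.P284.H608.K.Spec
import Vale.Agent.P284.H661.Lim2

/-!
# P284Z, block L: definitions

See notes/P284_L.md.
-/

open scoped ContDiff Topology ComplexOrder ComplexConjugate ENNReal
open Filter Set Function Metric MeasureTheory

noncomputable section

namespace Vale.Agent.P284Z.L

open Vale.Agent.P272.K Vale.Agent.P284.H608.K J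

/-! ### local objects -/

section loc
variable {n p : ℕ}

/-- the determinant as an alternating form -/
def dt (p : ℕ) : Af p p :=
  { Matrix.detRowAlternating (n := Fin p) (R := ℂ) with
    cont := Continuous.matrix_det continuous_id }

/-- the form `db_1 ∧ … ∧ db_p` at `z` -/
def dF (b : Cm n → Cm p) (z : Cm n) : Af n p := (dt p).compContinuousLinearMap (fderiv ℂ b z)

/-- `det (db ξ)` -/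
def dd (b : Cm n → Cm p) (z : Cm n) (ξ : Fin p → Cm n) : ℂ :=
  (Matrix.of fun i j => fderiv ℂ b z (ξ j) i).det

theorem dF_apply (b : Cm n → Cm p) (z : Cm n) (ξ : Fin p → Cm n) : dF b z ξ = dd b z ξ := by
  have h : dF b z ξ = (Matrix.of fun i => fderiv ℂ b z (ξ i)).det := rfl
  rw [h, ← Matrix.det_transpose]
  rfl

/-- the derivative of `f` kills the kernel of the derivative of `b` -/
def Kil (b : Cm n → Cm p) (f : Cm n → ℂ) (z : Cm n) : Prop :=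
  ∀ ξ, fderiv ℂ b z ξ = 0 → fderiv ℂ f z ξ = 0

/-- `f` is a differentiable function of `b` near `z` -/
def Lf {V : Type} [NormedAddCommGroup V] [NormedSpace ℝ V] (b : Cm n → Cm p) (f : Cm n → V)
    (z : Cm n) : Prop :=
  ∃ f' : Cm p → V, DifferentiableAt ℝ f' (b z) ∧ ∀ᶠ w in 𝓝 z, f w = f' (b w)

/-- the matrix `conj (∂̄_j g) ∂̄_k g` -/
def bb (g : Cm n → ℂ) (z : Cm n) : Mx n := Matrix.of fun j k => conj (dzb j g z) * dzb k g z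

end loc

/-- a convex function with slope in `[0, 1]`, zero for `x ≤ 0`, of slope `1` for `1 ≤ x` -/
def Gc (x : ℝ) : ℝ := ∫ t in (0 : ℝ)..x, Real.smoothTransition t

/-- the results on the `L²` engine -/
structure Eng : Prop where
  k1 : K1Stmt
  k3 : ∀ (n : ℕ) (M : Type) [TopologicalSpace M] [T2Space M] [MeasurableSpace M] [BorelSpace M]
    (K : KA n M), K3Stmt n M K
  eng : EngStmt
  meas : MeasStmt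

/-- The bundle is trivial, the weight is `ψ`, `s` is a holomorphic submersion, `ϱ = |ds|²`. -/
structure Tv {n p : ℕ} {M : Type} [TopologicalSpace M] [MeasurableSpace M] (K : KA n M)
    (s : M → Cm p) (ψ ϱ : M → ℝ) : Prop where
  a_one : ∀ i j z, K.a i j z = 1
  φ_eq : ∀ i, ∀ z ∈ (K.e i).target, K.φ i z = ψ ((K.e i).symm z)
  an : ∀ i, ∀ z ∈ (K.e i).target, AnalyticAt ℂ (fun w => s ((K.e i).symm w)) z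
  surj : ∀ i, ∀ z ∈ (K.e i).target, Surjective (fderiv ℂ (fun w => s ((K.e i).symm w)) z)
  ϱ_eq : ∀ i, ∀ z ∈ (K.e i).target, ϱ ((K.e i).symm z) =
    (hn (K.w i z) (dF (fun w => s ((K.e i).symm w)) z) (dF (fun w => s ((K.e i).symm w)) z)).re

/-! ### objects on the covering -/

variable {n p : ℕ} {Γ E : Type} [Group Γ] [TopologicalSpace E] [MulAction Γ E]

section cov
variable (C : Cov n Γ E)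

/-- `s` is a holomorphic submersion on the open set `O` -/
structure Sub (s : E → Cm p) (O : Set E) : Prop where
  opn : IsOpen O
  hol : C.HolOn s O
  surj : ∀ γ a, ∀ z ∈ C.B 4 a, C.pt γ a z ∈ O →
    Surjective (fderiv ℂ (fun w => s (C.pt γ a w)) z)

/-- `df` kills the kernel of `ds` on `O` -/
def Bas (s : E → Cm p) (f : E → ℂ) (O : Set E) : Prop :=
  ∀ γ a, ∀ z ∈ C.B 4 a, C.pt γ a z ∈ O →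
    Kil (fun w => s (C.pt γ a w)) (fun w => f (C.pt γ a w)) z

/-- `H ≥ 0` on `O` -/
def Psd (H : C.Fm) (O : Set E) : Prop :=
  ∀ γ a, ∀ z ∈ C.B 4 a, C.pt γ a z ∈ O → (H γ a z).PosSemidef

/-- `i ∂∂̄ f` -/
def hs (f : E → ℝ) : C.Fm := fun γ a => cHess fun w => f (C.pt γ a w)

/-- `det (ds ξ)` in the chart `a` of the sheet `γ` -/
def ds (s : E → Cm p) (γ : Γ) (a : C.I) (z : Cm n) (ξ : Fin p → Cm n) : ℂ :=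
  dd (fun w => s (C.pt γ a w)) z ξ

end cov

/-- `f` is locally constant on the fibres of `s` -/
def Fib {α : Type} (s : E → Cm p) (f : E → α) (O : Set E) : Prop :=
  ∀ y ∈ O, ∀ᶠ q : E × E in 𝓝 (y, y), s q.1 = s q.2 → f q.1 = f q.2

/-- the tube over the ball -/
structure Tb (s : E → Cm p) (O Ω : Set E) (t₀ : Cm p) (R : ℝ) : Prop where
  pos : 0 < R
  opn : IsOpen Ω
  sub : Ω ⊆ O
  mem : ∀ y ∈ Ω, s y ∈ ball t₀ R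
  clos : ∀ r < R, ∀ y ∈ O, y ∈ closure {y' ∈ Ω | ‖s y' - t₀‖ ≤ r} → y ∈ Ω

/-- a smooth exhaustion of `E` with bounded gradient -/
structure Exh (C : Cov n Γ E) (η : E → ℝ) : Prop where
  sm : ∀ y, C.SmAt η y
  nonneg : ∀ y, 0 ≤ η y
  cpt : ∀ c, IsCompact {y | η y ≤ c}
  grad : ∃ K : ℝ, Psd C ((K : ℂ) • C.om 1 (fun _ => 0) - C.gg η η) univ

/-- the data for the complete metric -/
structure EX (C : Cov n Γ E) (s : E → Cm p) (O Ω : Set E) where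
  A : ℝ
  A_nonneg : 0 ≤ A
  P : E → ℝ
  P_cont : Continuous P
  P_inv : ∀ (γ : Γ) y, P (γ • y) = P y
  P_nonneg : ∀ y, 0 ≤ P y
  P_le : ∀ y, P y ≤ 1
  P_sm : ∀ y, 0 < P y → C.SmAt P y
  P_psd : Psd C (C.om A fun y => Real.log (P y)) {y | 0 < P y}
  N : E → ℝ
  N_cont : Continuous N
  N_inv : ∀ (γ : Γ) y, N (γ • y) = N y
  N_pos : ∀ y, 0 < P y → 0 < N y
  N_sm : ∀ y, 0 < P y → C.SmAt N y
  N_psd : Psd C (C.om A fun y => Real.log (N y)) {y | 0 < P y}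
  sub : ∀ y ∈ O, 0 < P y
  v : E → ℝ
  v_sm : ∀ y ∈ O, C.SmAt v y
  v_nonneg : ∀ y ∈ O, 0 ≤ v y
  v_psd : Psd C (hs C v) O
  cpt : ∀ K, IsCompact K → ∀ c > (0 : ℝ), ∀ c' : ℝ,
    IsCompact {y ∈ K | y ∈ O ∧ c ≤ P y ∧ v y ≤ c'}
  bdd : ∃ K, IsCompact K ∧ Ω ⊆ K
  tube : ∃ M : ℝ, 0 ≤ M ∧ Psd C ((M : ℂ) • C.om A (fun y => Real.log (N y)) -
    hs C (fun y => v y ^ 2) - C.pbs s) Ω

/-- a complete Kähler metric `A ω + i ∂∂̄ κ` on `O`, with finite mass on `Ω` -/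
structure KM (C : Cov n Γ E) (s : E → Cm p) (O Ω : Set E) where
  A : ℝ
  κ : E → ℝ
  sm : ∀ y ∈ O, C.SmAt κ y
  ge : Psd C (C.om A κ - C.om 1 fun _ => 0) O
  η : E → ℝ
  η_sm : ∀ y ∈ O, C.SmAt η y
  η_cpt : ∀ c, IsCompact {y ∈ O | η y ≤ c}
  η_grad : ∃ K : ℝ, Psd C ((K : ℂ) • C.om A κ - C.gg η η) O
  mass : ∑' γ : Γ, ∑ a, ∫⁻ z in {z ∈ C.B 1 a | C.pt γ a z ∈ Ω},
    ENNReal.ofReal (C.om A κ γ a z + C.pbs s γ a z).det.re < ⊤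

/-- the data of the `∂̄` problem -/
structure Dat (C : Cov n Γ E) (s : E → Cm p) (O : Set E) (ψ : E → ℝ) (g : E → ℂ) (Λ : E → ℝ) :
    Prop where
  ψ_sm : ∀ y ∈ O, C.SmAt ψ y
  ψ_fib : Fib s ψ O
  ψ_psd : ∃ ε > (0 : ℝ), Psd C (hs C ψ - (ε : ℂ) • C.pbs s) O
  g_sm : ∀ y ∈ O, C.SmAt g y
  g_fib : Fib s g O
  Λ_nonneg : ∀ y ∈ O, 0 ≤ Λ y
  Λ_psd : Psd C (fun γ a z => (Λ (C.pt γ a z) : ℂ) • hs C ψ γ a z -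
    bb (fun w => g (C.pt γ a w)) z) O

/-- the measure `|ds|² dV` on `O` and its properties -/
structure HM (C : Cov n Γ E) [MeasurableSpace E] (s : E → Cm p) (O Ω : Set E) (t₀ : Cm p)
    (R : ℝ) where
  ν : Measure O
  low : ∃ c < (⊤ : ℝ≥0∞), ∀ a (ξ : Fin p → Cm n), ‖ξ‖ ≤ 1 → ∀ f : E → ℝ≥0∞,
    (Measurable fun y : O => f y) →
    ∑' γ : Γ, ∫⁻ z in {z ∈ C.B 3 a | C.pt γ a z ∈ O},
      f (C.pt γ a z) * ‖ds C s γ a z ξ‖ₑ ^ 2 ≤ c * ∫⁻ y : O, f y ∂ν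
  pf : ∀ R₁ < R, ∃ V₀ < (⊤ : ℝ≥0∞), ∀ g : Cm p → ℝ≥0∞, Measurable g →
    ∫⁻ y in {y : O | y.1 ∈ Ω ∧ s y ∈ ball t₀ R₁}, g (s y) ∂ν ≤ V₀ * ∫⁻ t in ball t₀ R₁, g t
  solve : ∀ (ψ : E → ℝ) (g : E → ℂ) (Λ : E → ℝ) (C₀ : ℝ), Dat C s O ψ g Λ → 0 ≤ C₀ →
    ∫⁻ y : O, ENNReal.ofReal (‖g y‖ ^ 2 * Real.exp (-ψ y)) ∂ν < ⊤ →
    ∫⁻ y : O, ENNReal.ofReal (Λ y * Real.exp (-ψ y)) ∂ν ≤ ENNReal.ofReal C₀ →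
    ∃ f : E → ℂ, C.HolOn f O ∧ Bas C s f O ∧
      ∫⁻ y : O, ENNReal.ofReal (‖f y - g y‖ ^ 2 * Real.exp (-ψ y)) ∂ν ≤ ENNReal.ofReal C₀

/-- a weight: `log f` is plurisubharmonic and basic -/
structure Wt (C : Cov n Γ E) (s : E → Cm p) (O : Set E) (f : E → ℝ) : Prop where
  cont : ContinuousOn f O
  nonneg : ∀ y ∈ O, 0 ≤ f y
  fib : Fib s f O
  sm : ∀ y ∈ O, 0 < f y → C.SmAt f y
  psd : Psd C (hs C fun y => Real.log (f y)) {y ∈ O | 0 < f y}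

/-- the weights and their estimates -/
structure WD (C : Cov n Γ E) (s : E → Cm p) (O Ω : Set E) (t₀ : Cm p) (R c K : ℝ) where
  r : E → ℝ
  q : ℕ → E → ℝ
  w : ℕ → E → ℝ
  r_wt : Wt C s O r
  q_wt : ∀ j, Wt C s O (q j)
  w_wt : ∀ j, Wt C s O (w j)
  r_pos : ∀ y ∈ O, 0 < r y
  w_le : ∀ᶠ j in atTop, ∀ y ∈ O, w j y ≤ 2 * q j y
  R₁ : ℝ
  R₂ : ℝ
  R₁_pos : 0 < R₁
  R₁_lt : R₁ < R₂
  R₂_lt : R₂ < R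
  M : ℝ
  one_le : 1 ≤ M
  bd : ∀ y ∈ Ω, s y ∈ ball t₀ R₂ → M⁻¹ ≤ r y ∧ r y ≤ M ∧ ∀ j, q j y ≤ M
  pole : ∀ᶠ j in atTop, ∀ y ∈ Ω, s y ∈ ball t₀ R₂ → w j y ≤ M * ‖s y - t₀‖ ^ c
  shell : ∀ᶠ j in atTop, ∀ y ∈ Ω, s y ∈ ball t₀ R₂ → R₁ ≤ ‖s y - t₀‖ → q j y ^ 4 ≤ M * w j y
  qh : ℕ → Cm p → ℝ
  qh_meas : ∀ j, Measurable (qh j)
  qh_eq : ∀ j, ∀ y ∈ Ω, q j y = qh j (s y)
  sk : ∃ B < (⊤ : ℝ≥0∞), ∀ᶠ j in atTop,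
    ∫⁻ t in ball t₀ R₂, ENNReal.ofReal (qh j t) ^ (-K) ≤ B
  loc : ∀ K' ⊆ O, IsCompact K' → ∃ M' : ℝ, ∀ j, ∀ y ∈ K', q j y ≤ M'
  up : ∃ M' : ℝ, ∀ γ a, ∀ z ∈ C.B 3 a, C.pt γ a z ∈ O → ∀ ξ : Fin p → Cm n, ‖ξ‖ ≤ 1 →
    ∀ᶠ j in atTop, q j (C.pt γ a z) * ‖ds C s γ a z ξ‖ ^ (2 / (p + 1 : ℝ)) ≤ M'

/-- the weights `ϖ j` dominate `|ds|^(2k)` in the limit -/
structure Dom (C : Cov n Γ E) (s : E → Cm p) (O : Set E) (k : ℕ) (ϖ : ℕ → E → ℝ) : Prop where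
  cont : ∀ j, ContinuousOn (ϖ j) O
  nonneg : ∀ j, ∀ y ∈ O, 0 ≤ ϖ j y
  loc : ∀ K ⊆ O, IsCompact K → ∃ c > (0 : ℝ), ∀ᶠ j in atTop, ∀ y ∈ K, c ≤ ϖ j y
  low : ∃ c > (0 : ℝ), ∀ γ a, ∀ z ∈ C.B 3 a, C.pt γ a z ∈ O → ∀ ξ : Fin p → Cm n, ‖ξ‖ ≤ 1 →
    ∀ᶠ j in atTop, c * ‖ds C s γ a z ξ‖ ^ (2 * k) ≤ ϖ j (C.pt γ a z)

/-- the weight with a pole of order `2 n + 4` in the limit -/
def pw (n : ℕ) (t₀ : Cm p) (j : ℕ) (t : Cm p) : ℝ := ((nsq (t - t₀) + 1 / (j + 1)) ^ (n + 2))⁻¹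

/-- the glued data -/
structure Glu {C : Cov n Γ E} {s : E → Cm p} {O Ω : Set E} {t₀ : Cm p} {R c K : ℝ}
    (W : WD C s O Ω t₀ R c K) (Pf : Cm p → ℂ) (k : ℕ) where
  ψ : ℕ → E → ℝ
  g : ℕ → E → ℂ
  Λ : ℕ → E → ℝ
  ϖ : ℕ → E → ℝ
  dom : Dom C s O k ϖ
  B : ℝ
  dat : ∀ᶠ j in atTop, Dat C s O (ψ j) (g j) (Λ j)
  supp : ∀ j, ∀ y ∈ O, ¬ (y ∈ Ω ∧ s y ∈ ball t₀ W.R₂) → g j y = 0 ∧ Λ j y = 0
  fin : ∀ᶠ j in atTop, ∃ B' : ℝ, ∀ y ∈ Ω, s y ∈ ball t₀ W.R₂ →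
    ‖g j y‖ ^ 2 * Real.exp (-ψ j y) ≤ B'
  le_ψ : ∀ᶠ j in atTop, ∀ y ∈ O, ϖ j y ≤ B * Real.exp (-ψ j y)
  pw_le : ∀ᶠ j in atTop, ∀ y ∈ Ω, s y ∈ ball t₀ W.R₂ →
    pw n t₀ j (s y) ≤ B * Real.exp (-ψ j y)
  inn : ∀ᶠ j in atTop, ∀ y ∈ Ω, s y ∈ ball t₀ W.R₂ → 0 < W.q j y →
    Λ j y * Real.exp (-ψ j y) ≤ B * W.q j y ^ (-K) ∧
    ‖g j y‖ ^ 2 * ϖ j y ≤ B * W.q j y ^ (-K) ∧
    ‖g j y - Pf (s y)‖ ^ 2 * pw n t₀ j (s y) ≤ B * W.q j y ^ (-K)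

/-- the solutions at level `j` -/
structure SQ (C : Cov n Γ E) [MeasurableSpace E] (s : E → Cm p) (O Ω : Set E) (t₀ : Cm p)
    (ν : Measure O) (Pf : Cm p → ℂ) (k : ℕ) where
  f : ℕ → E → ℂ
  hol : ∀ j, C.HolOn (f j) O
  bas : ∀ j, Bas C s (f j) O
  ϖ : ℕ → E → ℝ
  dom : Dom C s O k ϖ
  bd : ∃ B < (⊤ : ℝ≥0∞), ∀ᶠ j in atTop, ∫⁻ y : O, ENNReal.ofReal (‖f j y‖ ^ 2 * ϖ j y) ∂ν ≤ B
  pole : ∃ R₂ > (0 : ℝ), ∃ B < (⊤ : ℝ≥0∞), ∀ᶠ j in atTop,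
    ∫⁻ y in {y : O | y.1 ∈ Ω ∧ s y ∈ ball t₀ R₂},
      ENNReal.ofReal (‖f j y - Pf (s y)‖ ^ 2 * pw n t₀ j (s y)) ∂ν ≤ B

/-- the limit -/
structure HF (C : Cov n Γ E) (s : E → Cm p) (O : Set E) (a₀ : C.I) (z₀ : Cm n) (Pf : Cm p → ℂ)
    (k : ℕ) where
  f : E → ℂ
  hol : C.HolOn f O
  bas : Bas C s f O
  l2 : ∃ B < (⊤ : ℝ≥0∞), ∀ a (ξ : Fin p → Cm n), ‖ξ‖ ≤ 1 →
    ∑' γ : Γ, ∫⁻ z in {z ∈ C.B 3 a | C.pt γ a z ∈ O},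
      ‖f (C.pt γ a z) * ds C s γ a z ξ ^ (k + 1)‖ₑ ^ 2 ≤ B
  jet0 : f (C.pt 1 a₀ z₀) = Pf (s (C.pt 1 a₀ z₀))
  jet1 : fderiv ℂ (fun w => f (C.pt 1 a₀ w)) z₀ = fderiv ℂ (fun w => Pf (s (C.pt 1 a₀ w))) z₀

/-- the complement of `O` is thin -/
def Thin (C : Cov n Γ E) (O : Set E) : Prop := ∀ γ a, ∃ h : Cm n → ℂ,
  AnalyticOnNhd ℂ h (C.B 4 a) ∧ (∃ z ∈ C.B 4 a, h z ≠ 0) ∧
    ∀ z ∈ C.B 4 a, h z ≠ 0 → C.pt γ a z ∈ O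

/-- the translates of `s` are locally functions of `s` -/
def Fact (Γ : Type) [Group Γ] [MulAction Γ E] (s : E → Cm p) (O : Set E) : Prop :=
  ∀ (γ : Γ), ∀ y ∈ O, γ • y ∈ O →
  ∃ S : Cm p → Cm p, AnalyticAt ℂ S (s y) ∧ ∀ᶠ y' in 𝓝 y, s (γ • y') = S (s y')

/-! ### the geometry of `V` -/

/-- the action on `ℓ²` -/
def U (J : IX Γ) (γ : Γ) : J.H →L[ℂ] J.H :=
  (Vale.Agent.P284.H661.Lim.rei (Λ := J.ι)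
    (MulAction.toPerm γ⁻¹)).toLinearIsometry.toContinuousLinearMap

theorem U_apply (J : IX Γ) (γ : Γ) (f : J.H) (i : J.ι) : U J γ f i = f (γ⁻¹ • i) := rfl

theorem norm_U (J : IX Γ) (γ : Γ) (f : J.H) : ‖U J γ f‖ = ‖f‖ :=
  (Vale.Agent.P284.H661.Lim.rei (Λ := J.ι) (MulAction.toPerm γ⁻¹)).norm_map f

/-- affine coordinates of the projective space of `ℓ²` -/
structure Fn (J : IX Γ) (p : ℕ) where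
  l₀ : J.H →L[ℂ] ℂ
  l : J.H →L[ℂ] Cm p

section geo
variable {C : Cov n Γ E} {P : Pol C} {J : IX Γ} {m : ℕ}

/-- the value of `V` at the point `pt γ a z` -/
def vv (V : HSec P J m) (γ : Γ) (a : C.I) (z : Cm n) : J.H := U J γ (V.L a z)

/-- the square of the norm of `V` -/
def Nm (V : HSec P J m) (y : E) : ℝ := V.nm (C.ch₀ y).2.1 (C.ch₀ y).2.2

namespace Fn
variable (Λ : Fn J p) (V : HSec P J m)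

/-- the section `l₀ V` -/
def u (γ : Γ) (a : C.I) (z : Cm n) : ℂ := Λ.l₀ (vv V γ a z)

/-- the square of the norm of `l₀ V` -/
def lz (y : E) : ℝ := ‖Λ.u V (C.ch₀ y).1 (C.ch₀ y).2.1 (C.ch₀ y).2.2‖ ^ 2 *
  Real.exp (-(m : ℝ) * C.ρ (C.ch₀ y).2.1 (C.ch₀ y).2.2)

/-- `V / l₀ V` -/
def G (y : E) : J.H := (Λ.u V (C.ch₀ y).1 (C.ch₀ y).2.1 (C.ch₀ y).2.2)⁻¹ •
  vv V (C.ch₀ y).1 (C.ch₀ y).2.1 (C.ch₀ y).2.2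

/-- `l V / l₀ V` -/
def s (y : E) : Cm p := Λ.l (Λ.G V y)

/-- the good open set -/
def O (F : E → ℝ) : Set E := {y | 0 < F y ∧ 0 < P.σ y ∧ 0 < Λ.lz V y ∧ ∀ γ a, ∀ z ∈ C.B 4 a,
  C.pt γ a z = y → Surjective (fderiv ℂ (fun w => Λ.s V (C.pt γ a w)) z)}

/-- the germs of `[V]` at `y` and at `y'` have the same image -/
def Rel (F : E → ℝ) (y y' : E) : Prop := y ∈ Λ.O V F ∧ y' ∈ Λ.O V F ∧ Λ.G V y = Λ.G V y' ∧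
  ∀ γ a z γ' b z', z ∈ C.B 4 a → z' ∈ C.B 4 b → C.pt γ a z = y → C.pt γ' b z' = y' →
    ∀ ξ, ds C (Λ.s V) γ a z ξ ≠ 0 → ∃ ξ', V.Match γ a z ξ γ' b z' ξ' ∧
      ds C (Λ.s V) γ' b z' ξ' = ds C (Λ.s V) γ a z ξ

end Fn

/-- the formulas in the charts -/
structure G1 (Λ : Fn J p) (V : HSec P J m) (F : E → ℝ) (x₀ : E) : Prop where
  lz_eq : ∀ γ a, ∀ z ∈ C.B 4 a,
    Λ.lz V (C.pt γ a z) = ‖Λ.u V γ a z‖ ^ 2 * Real.exp (-(m : ℝ) * C.ρ a z)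
  N_eq : ∀ γ a, ∀ z ∈ C.B 4 a, Nm V (C.pt γ a z) = V.nm a z
  G_eq : ∀ γ a, ∀ z ∈ C.B 4 a, Λ.G V (C.pt γ a z) = (Λ.u V γ a z)⁻¹ • vv V γ a z
  σ_cont : Continuous P.σ
  lz_cont : Continuous (Λ.lz V)
  N_cont : Continuous (Nm V)
  G_hol : C.HolOn (Λ.G V) {y | 0 < Λ.lz V y}
  mem : ∀ γ a, ∀ z ∈ C.B 4 a, 0 < F (C.pt γ a z) → 0 < P.σ (C.pt γ a z) →
    0 < Λ.lz V (C.pt γ a z) → ∀ ξ, ds C (Λ.s V) γ a z ξ ≠ 0 → C.pt γ a z ∈ Λ.O V F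
  sub : Sub C (Λ.s V) (Λ.O V F)
  base : x₀ ∈ Λ.O V F
  thin : Thin C (Λ.O V F)

/-- the local structure -/
structure G2 (Λ : Fn J p) (V : HSec P J m) (F : E → ℝ) : Prop where
  lc : ∀ y ∈ Λ.O V F, ∃ γ₀ : Cm p → J.H, AnalyticAt ℂ γ₀ (Λ.s V y) ∧
    ∀ᶠ y' in 𝓝 y, Λ.G V y' = γ₀ (Λ.s V y')
  imm : ∀ γ a, ∀ z ∈ C.B 4 a, C.pt γ a z ∈ Λ.O V F → ∀ ξ,
    (V.Imm a z ξ ↔ ds C (Λ.s V) γ a z ξ ≠ 0)
  rel : ∀ y ∈ Λ.O V F, ∀ y' ∈ Λ.O V F, Λ.s V y = Λ.s V y' →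
    (∃ γ₀ : Cm p → J.H, AnalyticAt ℂ γ₀ (Λ.s V y) ∧ (∀ᶠ x in 𝓝 y, Λ.G V x = γ₀ (Λ.s V x)) ∧
      ∀ᶠ x in 𝓝 y', Λ.G V x = γ₀ (Λ.s V x)) → Λ.Rel V F y y'
  loc : ∀ y ∈ Λ.O V F, ∀ᶠ q : E × E in 𝓝 (y, y), Λ.s V q.1 = Λ.s V q.2 → Λ.Rel V F q.1 q.2
  fact : Fact Γ (Λ.s V) (Λ.O V F)

/-- the tube through the base point -/
structure G3 (Λ : Fn J p) (V : HSec P J m) (F : E → ℝ) (a₀ : C.I) (z₀ : Cm n) where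
  Ω : Set E
  R : ℝ
  σ : Cm p → Cm n
  tb : Tb (Λ.s V) (Λ.O V F) Ω (Λ.s V (C.pt 1 a₀ z₀)) R
  base : C.pt 1 a₀ z₀ ∈ Ω
  bdd : ∃ K, IsCompact K ∧ Ω ⊆ K
  σ_an : AnalyticOnNhd ℂ σ (ball (Λ.s V (C.pt 1 a₀ z₀)) (2 * R))
  σ_mem : ∀ t ∈ ball (Λ.s V (C.pt 1 a₀ z₀)) (2 * R), σ t ∈ C.B 2 a₀ ∧
    C.pt 1 a₀ (σ t) ∈ Λ.O V F ∧ Λ.s V (C.pt 1 a₀ (σ t)) = t
  σ_base : σ (Λ.s V (C.pt 1 a₀ z₀)) = z₀
  rel : ∀ y ∈ Ω, Λ.Rel V F y (C.pt 1 a₀ (σ (Λ.s V y)))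

/-- further properties of the frame potentials -/
structure QX {V : HSec P J m} {D : LD C} (R : LQ V p D) : Prop where
  δ_le : ∀ j, R.δ j ≤ m * R.τ j
  F_imm : ∀ j a, ∀ z ∈ C.B 4 a, 0 < D.F j (C.pt 1 a z) → ∃ ξ, 0 < R.Q j a z ξ
  F_an : ∀ j a, ∀ z₀ ∈ C.B 4 a, 0 < D.F j (C.pt 1 a z₀) → ∃ h : Cm n → ℂ,
    AnalyticOnNhd ℂ h (C.B 4 a) ∧ h z₀ ≠ 0 ∧ ∀ z ∈ C.B 4 a, h z ≠ 0 → 0 < D.F j (C.pt 1 a z)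
  Q_bd : ∃ K : ℝ, ∀ j a, ∀ z ∈ C.B 3 a, ∀ ξ : Fin p → Cm n, ‖ξ‖ ≤ 1 → R.Q j a z ξ ≤ K
  Q_loc : ∀ a, ∀ z ∈ C.B 3 a, 0 < P.σ (C.pt 1 a z) → ∃ K : ℝ, ∀ᶠ w in 𝓝 z, ∀ j,
    ∀ ξ : Fin p → Cm n, ‖ξ‖ ≤ 1 → R.Q j a w ξ ≤ K * D.F j (C.pt 1 a w)

/-- the global weights -/
structure Wf (Λ : Fn J p) {V : HSec P J m} {D : LD C} (R : LQ V p D) (l : ℕ) (x₀ : E) where
  q : ℕ → E → ℝ
  w : ℕ → E → ℝ
  q_eq : ∀ j γ a, ∀ z ∈ C.B 4 a, C.pt γ a z ∈ Λ.O V (D.F 0) → ∀ ξ,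
    q j (C.pt γ a z) * (Λ.lz V (C.pt γ a z) ^ R.τ j *
      ‖ds C (Λ.s V) γ a z ξ‖ ^ (2 / (p + 1 : ℝ))) = R.Q j a z ξ
  w_eq : ∀ j, ∀ y ∈ Λ.O V (D.F 0), w j y * D.F j y = D.W l j x₀ y * q j y
  w_le : ∀ j, ∀ y ∈ Λ.O V (D.F 0), w j y ≤ D.ε j * q j y
  q_wt : ∀ j, Wt C (Λ.s V) (Λ.O V (D.F 0)) (q j)
  w_wt : ∀ j, Wt C (Λ.s V) (Λ.O V (D.F 0)) (w j)
  q_pos : ∀ y ∈ Λ.O V (D.F 0), 0 < q 0 y
  q_rel : ∀ j y y', Λ.Rel V (D.F 0) y y' → q j y = q j y'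
  w_rel : ∀ j y y', Λ.Rel V (D.F 0) y y' → w j y = w j y'

end geo

end Vale.Agent.P284Z.L
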