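import Vale.Agent.P284Z.L.Defs

/-!
# P284Z, block L: statements of the pieces and their assembly

See notes/P284_L.md.
-/

open scoped ContDiff Topology ComplexOrder ComplexConjugate ENNReal
open Filter Set Function Metric MeasureTheory

noncomputable section

namespace Vale.Agent.P284Z.L

open Vale.Agent.P272.K Vale.Agent.P284.H608.K J

/-- **L1**: the engine for the forms `f ds` -/
def St1 : Prop := Eng →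
  ∀ (n r : ℕ) (M : Type) [TopologicalSpace M] [T2Space M] [MeasurableSpace M] [BorelSpace M]
    (K : KA n M) (_ : K.Cut) (s : M → Cm (r + 1)) (ψ ϱ : M → ℝ), Tv K s ψ ϱ →
    ∀ ε > (0 : ℝ), (∀ i, ∀ z ∈ (K.e i).target, (cHess (K.φ i) z -
      (ε : ℂ) • pb (jm (fun w => s ((K.e i).symm w)) z) 1).PosSemidef) →
    (∀ i, ∀ z ∈ (K.e i).target, Lf (fun w => s ((K.e i).symm w)) (K.φ i) z) →
    ∀ g : M → ℂ, (∀ i, ∀ z ∈ (K.e i).target, ContDiffAt ℝ ∞ (fun w => g ((K.e i).symm w)) z ∧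
      Lf (fun w => s ((K.e i).symm w)) (fun w => g ((K.e i).symm w)) z) →
    ∫⁻ x, ENNReal.ofReal (‖g x‖ ^ 2 * Real.exp (-ψ x) * ϱ x) ∂K.μ < ⊤ →
    ∀ Λ : M → ℝ, (∀ x, 0 ≤ Λ x) → (∀ i, ∀ z ∈ (K.e i).target,
      ((Λ ((K.e i).symm z) : ℂ) • cHess (K.φ i) z -
        bb (fun w => g ((K.e i).symm w)) z).PosSemidef) →
    ∀ C₀ : ℝ, 0 ≤ C₀ →
    ∫⁻ x, ENNReal.ofReal (Λ x * Real.exp (-ψ x) * ϱ x) ∂K.μ ≤ ENNReal.ofReal C₀ →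
    ∃ f : M → ℂ, (∀ i, ∀ z ∈ (K.e i).target, AnalyticAt ℂ (fun w => f ((K.e i).symm w)) z ∧
      Kil (fun w => s ((K.e i).symm w)) (fun w => f ((K.e i).symm w)) z) ∧
      ∫⁻ x, ENNReal.ofReal (‖f x - g x‖ ^ 2 * Real.exp (-ψ x) * ϱ x) ∂K.μ ≤ ENNReal.ofReal C₀

/-- **L2a**: the image of `|ds|² dV` has zero derivative -/
def St2a : Prop := Eng →
  ∀ (n r : ℕ) (M : Type) [TopologicalSpace M] [T2Space M] [MeasurableSpace M] [BorelSpace M]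
    (K : KA n M) (_ : K.Cut) (s : M → Cm (r + 1)) (ϱ : M → ℝ), Tv K s (fun _ => 0) ϱ →
    ∀ (Ω : Set M) (t₀ : Cm (r + 1)) (R : ℝ), IsOpen Ω →
    (∀ r' < R, IsClosed {x ∈ Ω | ‖s x - t₀‖ ≤ r'}) →
    ∀ Θ : M → ℝ, (∀ i, ∀ z ∈ (K.e i).target,
      (K.w i z + pb (jm (fun w => s ((K.e i).symm w)) z) 1).det.re ≤
        Θ ((K.e i).symm z) * (K.w i z).det.re) →
    ∫⁻ x in Ω, ENNReal.ofReal (Θ x) ∂K.μ < ⊤ →
    ∫⁻ x in Ω, ENNReal.ofReal (ϱ x) ∂K.μ < ⊤ ∧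
    ∀ χ : Cm (r + 1) → ℝ, ContDiff ℝ ∞ χ → HasCompactSupport χ → tsupport χ ⊆ ball t₀ R →
      ∀ v : Cm (r + 1), ∫ x in Ω, fderiv ℝ χ (s x) v * ϱ x ∂K.μ = 0

/-- **L2b**: a measure with zero derivative -/
def St2b : Prop :=
  ∀ (p : ℕ) (μ : Measure (Cm p)) [IsFiniteMeasure μ] (t₀ : Cm p) (R₁ R : ℝ), R₁ < R →
    (∀ χ : Cm p → ℝ, ContDiff ℝ ∞ χ → HasCompactSupport χ → tsupport χ ⊆ ball t₀ R →
      ∀ v : Cm p, ∫ t, fderiv ℝ χ t v ∂μ = 0) →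
    ∃ V₀ < (⊤ : ℝ≥0∞), ∀ g : Cm p → ℝ≥0∞, Measurable g →
      ∫⁻ t in ball t₀ R₁, g t ∂μ ≤ V₀ * ∫⁻ t in ball t₀ R₁, g t

/-- **L3**: the engine on `O` -/
def St3 : Prop := Eng → St1 → St2a → St2b → JB →
  ∀ (n p : ℕ) (Γ E : Type) [Group Γ] [Countable Γ] [TopologicalSpace E] [T2Space E]
    [MulAction Γ E] [MeasurableSpace E] [BorelSpace E] (C : Cov n Γ E), JG C → 1 ≤ p →
    ∀ (s : E → Cm p) (O Ω : Set E) (t₀ : Cm p) (R : ℝ), O.Nonempty → Sub C s O →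
    Tb s O Ω t₀ R → KM C s O Ω → Nonempty (HM C s O Ω t₀ R)

/-- **L4a**: affine coordinates -/
def St4a : Prop :=
  ∀ (n p : ℕ) (Γ E : Type) [Group Γ] [Countable Γ] [TopologicalSpace E] [T2Space E]
    [ConnectedSpace E] [MulAction Γ E] (C : Cov n Γ E) (P : Pol C) (J : IX Γ) (m : ℕ)
    (V : HSec P J m) (D : LD C) (R : LQ V p D), QX R →
    (∀ a, ∃ z ∈ C.B 4 a, 0 < D.F 0 (C.pt 1 a z)) → ∀ a₀, ∀ z₀ ∈ C.B 4 a₀,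
    0 < D.F 0 (C.pt 1 a₀ z₀) → 0 < P.σ (C.pt 1 a₀ z₀) →
    ∃ Λ : Fn J p, G1 Λ V (D.F 0) (C.pt 1 a₀ z₀)

/-- **L4b**: the local structure -/
def St4b : Prop :=
  ∀ (n p : ℕ) (Γ E : Type) [Group Γ] [TopologicalSpace E] [T2Space E] [MulAction Γ E]
    (C : Cov n Γ E) (P : Pol C) (J : IX Γ) (m : ℕ) (V : HSec P J m), V.VD p →
    ∀ (Λ : Fn J p) (F : E → ℝ) (x₀ : E), G1 Λ V F x₀ → G2 Λ V F

/-- **L4c**: the tube -/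
def St4c : Prop :=
  ∀ (n p : ℕ) (Γ E : Type) [Group Γ] [TopologicalSpace E] [T2Space E] [MulAction Γ E]
    (C : Cov n Γ E) (P : Pol C) (J : IX Γ) (m : ℕ) (V : HSec P J m), V.VD p →
    ∀ (Λ : Fn J p) (F : E → ℝ) (a₀ : C.I), ∀ z₀ ∈ C.B 1 a₀, G1 Λ V F (C.pt 1 a₀ z₀) →
    G2 Λ V F → Nonempty (G3 Λ V F a₀ z₀)

/-- **L4d**: `s` is constant on the plaques -/
def St4d : Prop :=
  ∀ (n p : ℕ) (Γ E : Type) [Group Γ] [TopologicalSpace E] [T2Space E] [MulAction Γ E]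
    (C : Cov n Γ E) (P : Pol C) (J : IX Γ) (m : ℕ) (V : HSec P J m) (Λ : Fn J p) (F : E → ℝ)
    (x₀ : E), G1 Λ V F x₀ → ∀ (D : LD C) (L : Lim D) (Z : ZD L) (Φ : FD Z), x₀ ∈ Φ.En →
    (∀ N : NC Z Φ.d Φ.q Φ.l₁, N.Ψ.source ⊆ Φ.En → ¬ Moves V N) →
    ∀ᶠ y in 𝓝 x₀, (x₀, y) ∈ Z.upto Φ.l₁ → Λ.s V y = Λ.s V x₀

/-- **L5a**: an exhaustion of `E` -/
def St5a : Prop :=
  ∀ (n : ℕ) (Γ E : Type) [Group Γ] [Countable Γ] [TopologicalSpace E] [T2Space E]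
    [ConnectedSpace E] [MulAction Γ E] [MeasurableSpace E] (C : Cov n Γ E), JG C →
    ∃ η, Exh C η

/-- **L5b**: the complete metric and its mass -/
def St5b : Prop := JB →
  ∀ (n p : ℕ) (Γ E : Type) [Group Γ] [Countable Γ] [TopologicalSpace E] [T2Space E]
    [MulAction Γ E] [MeasurableSpace E] (C : Cov n Γ E), JM C → JG C → ∀ η, Exh C η →
    ∀ (s : E → Cm p) (O Ω : Set E), Sub C s O → IsOpen Ω → Ω ⊆ O → EX C s O Ω →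
    Nonempty (KM C s O Ω)

/-- **L6a**: the global weights -/
def St6a : Prop := JB →
  ∀ (n p : ℕ) (Γ E : Type) [Group Γ] [TopologicalSpace E] [T2Space E] [MulAction Γ E]
    (C : Cov n Γ E) (P : Pol C) (J : IX Γ) (m : ℕ) (V : HSec P J m) (D : LD C) (R : LQ V p D),
    QX R → ∀ (Λ : Fn J p) (x₀ : E), G1 Λ V (D.F 0) x₀ → G2 Λ V (D.F 0) → ∀ l,
    Nonempty (Wf Λ R l x₀)

/-- **L6b**: the data for the metric -/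
def St6b : Prop := JB →
  ∀ (n p : ℕ) (Γ E : Type) [Group Γ] [TopologicalSpace E] [T2Space E] [MulAction Γ E]
    (C : Cov n Γ E) (P : Pol C) (J : IX Γ) (m : ℕ) (V : HSec P J m) (D : LD C) (R : LQ V p D),
    QX R → ∀ (Λ : Fn J p) (a₀ : C.I) (z₀ : Cm n), G1 Λ V (D.F 0) (C.pt 1 a₀ z₀) →
    G2 Λ V (D.F 0) → ∀ (T : G3 Λ V (D.F 0) a₀ z₀) (l : ℕ), Wf Λ R l (C.pt 1 a₀ z₀) →
    Nonempty (EX C (Λ.s V) (Λ.O V (D.F 0)) T.Ω)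

/-- **L6c**: the estimates of the weights -/
def St6c : Prop :=
  ∀ (n p : ℕ) (Γ E : Type) [Group Γ] [TopologicalSpace E] [T2Space E] [MulAction Γ E]
    (C : Cov n Γ E) (P : Pol C) (J : IX Γ) (m : ℕ) (V : HSec P J m) (D : LD C) (R : LQ V p D),
    QX R → ∀ (Λ : Fn J p) (a₀ : C.I), ∀ z₀ ∈ C.B 1 a₀, G1 Λ V (D.F 0) (C.pt 1 a₀ z₀) →
    G2 Λ V (D.F 0) → ∀ (T : G3 Λ V (D.F 0) a₀ z₀) (l : ℕ), Wf Λ R (l + 1) (C.pt 1 a₀ z₀) →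
    ∀ (L : Lim D) (Z : ZD L), Z.SB →
    (∀ᶠ y in 𝓝 (C.pt 1 a₀ z₀), (C.pt 1 a₀ z₀, y) ∈ Z.upto l →
      Λ.s V y = Λ.s V (C.pt 1 a₀ z₀)) → 0 < L.F (C.pt 1 a₀ z₀) →
    Tendsto (fun j => D.F j (C.pt 1 a₀ z₀)) atTop (𝓝 (L.F (C.pt 1 a₀ z₀))) → ∀ K > (0 : ℝ),
    Nonempty (WD C (Λ.s V) (Λ.O V (D.F 0)) T.Ω (Λ.s V (C.pt 1 a₀ z₀)) T.R (D.c (l + 1)) K)

/-- **L7a**: the gluing -/
def St7a : Prop := JB → ∀ (n p : ℕ), ∀ c > (0 : ℝ), ∃ k : ℕ, ∃ K > (0 : ℝ),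
  ∀ (Γ E : Type) [Group Γ] [TopologicalSpace E] [T2Space E] [MulAction Γ E] (C : Cov n Γ E)
    (s : E → Cm p) (O Ω : Set E) (t₀ : Cm p) (R : ℝ), Sub C s O → Tb s O Ω t₀ R →
    ∀ (W : WD C s O Ω t₀ R c K) (Pf : Cm p → ℂ), Differentiable ℂ Pf → Nonempty (Glu W Pf k)

/-- **L7b**: the integral estimates -/
def St7b : Prop :=
  ∀ (n p : ℕ) (Γ E : Type) [Group Γ] [TopologicalSpace E] [T2Space E] [MulAction Γ E]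
    [MeasurableSpace E] [BorelSpace E] (C : Cov n Γ E) (s : E → Cm p) (O Ω : Set E) (t₀ : Cm p)
    (R c K : ℝ), 0 < K → Sub C s O → Tb s O Ω t₀ R → ∀ (H : HM C s O Ω t₀ R)
    (W : WD C s O Ω t₀ R c K) (Pf : Cm p → ℂ) (k : ℕ), Differentiable ℂ Pf → Glu W Pf k →
    Nonempty (SQ C s O Ω t₀ H.ν Pf k)

/-- **L8a**: the limit -/
def St8a : Prop :=
  ∀ (n p : ℕ) (Γ E : Type) [Group Γ] [Countable Γ] [TopologicalSpace E] [T2Space E]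
    [MulAction Γ E] [MeasurableSpace E] [BorelSpace E] (C : Cov n Γ E) (s : E → Cm p)
    (O Ω : Set E) (R : ℝ) (a₀ : C.I), ∀ z₀ ∈ C.B 1 a₀, C.pt 1 a₀ z₀ ∈ Ω → Sub C s O →
    Tb s O Ω (s (C.pt 1 a₀ z₀)) R → ∀ (H : HM C s O Ω (s (C.pt 1 a₀ z₀)) R) (Pf : Cm p → ℂ)
    (k : ℕ), Differentiable ℂ Pf → SQ C s O Ω (s (C.pt 1 a₀ z₀)) H.ν Pf k →
    Nonempty (HF C s O a₀ z₀ Pf k)

/-- **L8b**: the tensors -/
def St8b : Prop :=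
  ∀ (n p : ℕ) (Γ E : Type) [Group Γ] [Countable Γ] [TopologicalSpace E] [T2Space E]
    [MulAction Γ E] (C : Cov n Γ E) (s : E → Cm p) (O : Set E) (a₀ : C.I), ∀ z₀ ∈ C.B 1 a₀,
    1 ≤ p → Sub C s O → Thin C O → Fact Γ s O → C.pt 1 a₀ z₀ ∈ O → ∀ k : ℕ,
    HF C s O a₀ z₀ (fun _ => 1) k →
    (∀ i, HF C s O a₀ z₀ (fun t => t i - s (C.pt 1 a₀ z₀) i) k) → Nonempty (BT C)

/-- **L0**: the base point -/
def St0 : Prop :=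
  ∀ (n : ℕ) (Γ E : Type) [Group Γ] [TopologicalSpace E] [Nonempty E] [MulAction Γ E]
    (C : Cov n Γ E) (P : Pol C) (D : LD C) (L : Lim D) (Z : ZD L) (Φ : FD Z),
    (∀ a, ∃ z ∈ C.B 4 a, 0 < D.F 0 (C.pt 1 a z)) ∧ ∃ a₀, ∃ z₀ ∈ C.B 1 a₀,
      C.pt 1 a₀ z₀ ∈ Φ.En ∧ 0 < D.F 0 (C.pt 1 a₀ z₀) ∧ 0 < P.σ (C.pt 1 a₀ z₀) ∧
      0 < L.F (C.pt 1 a₀ z₀) ∧
      Tendsto (fun j => D.F j (C.pt 1 a₀ z₀)) atTop (𝓝 (L.F (C.pt 1 a₀ z₀)))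

/-- the further properties of the frame potentials hold -/
def StQ : Prop :=
  ∀ (n p : ℕ) (Γ E : Type) [Group Γ] [TopologicalSpace E] [MulAction Γ E] (C : Cov n Γ E)
    (P : Pol C) (J : IX Γ) (m : ℕ) (V : HSec P J m) (D : LD C) (R : LQ V p D), QX R

theorem stL_of (hE : Eng) (hJ : StJ) (hQ : StQ) (h0 : St0) (h1 : St1) (h2a : St2a) (h2b : St2b)
    (h3 : St3) (h4a : St4a) (h4b : St4b) (h4c : St4c) (h4d : St4d) (h5a : St5a) (h5b : St5b)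
    (h6a : St6a) (h6b : St6b) (h6c : St6c) (h7a : St7a) (h7b : St7b) (h8a : St8a) (h8b : St8b) :
    StL := by
  intro n Γ E _ _ _ _ _ _ C P J m V p hV D R L Z hSB Φ hM
  let _ : MeasurableSpace E := borel E
  have : BorelSpace E := ⟨rfl⟩
  obtain ⟨-, jb, -, hC⟩ := hJ
  obtain ⟨jm, jg⟩ := hC n Γ E C
  have hq := hQ n p Γ E C P J m V D R
  obtain ⟨hF, a₀, z₀, hz, hEn, hF0, hσ, hL, hT⟩ := h0 n Γ E C P D L Z Φ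
  have hz4 : z₀ ∈ C.B 4 a₀ :=
    ball_subset_ball (mul_le_mul_of_nonneg_right (by norm_num) (C.r_pos a₀).le) hz
  obtain ⟨Λ, g1⟩ := h4a n p Γ E C P J m V D R hq hF a₀ z₀ hz4 hF0 hσ
  have g2 := h4b n p Γ E C P J m V hV Λ _ _ g1
  obtain ⟨T⟩ := h4c n p Γ E C P J m V hV Λ _ a₀ z₀ hz g1 g2
  have nm := h4d n p Γ E C P J m V Λ _ _ g1 D L Z Φ hEn hM
  obtain ⟨Wf⟩ := h6a jb n p Γ E C P J m V D R hq Λ _ g1 g2 (Φ.l₁ + 1)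
  obtain ⟨X⟩ := h6b jb n p Γ E C P J m V D R hq Λ a₀ z₀ g1 g2 T _ Wf
  obtain ⟨η, hη⟩ := h5a n Γ E C jg
  obtain ⟨km⟩ := h5b jb n p Γ E C jm jg η hη _ _ _ g1.sub T.tb.opn T.tb.sub X
  obtain ⟨H⟩ := h3 hE h1 h2a h2b jb n p Γ E C jg hV.one_le _ _ _ _ _ ⟨_, g1.base⟩ g1.sub T.tb km
  obtain ⟨k, K, hK, hg⟩ := h7a jb n p _ (D.c_pos (Φ.l₁ + 1))
  obtain ⟨W⟩ := h6c n p Γ E C P J m V D R hq Λ a₀ z₀ hz g1 g2 T _ Wf L Z hSB nm hL hT K hK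
  have key : ∀ Pf : Cm p → ℂ, Differentiable ℂ Pf →
      Nonempty (HF C (Λ.s V) (Λ.O V (D.F 0)) a₀ z₀ Pf k) := fun Pf hP => by
    obtain ⟨G⟩ := hg Γ E C _ _ _ _ _ g1.sub T.tb W Pf hP
    obtain ⟨S⟩ := h7b n p Γ E C _ _ _ _ _ _ K hK g1.sub T.tb H W Pf k hP G
    exact h8a n p Γ E C _ _ _ _ a₀ z₀ hz T.base g1.sub T.tb H Pf k hP S
  obtain ⟨f₀⟩ := key (fun _ => 1) (differentiable_const _)
  exact h8b n p Γ E C _ _ a₀ z₀ hz hV.one_le g1.sub g1.thin g2.fact g1.base k f₀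
    fun i => (key _ ((differentiable_apply i).sub_const _)).some

end Vale.Agent.P284Z.L
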