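import Vale.Agent.P284Z.L.S6a.A
import Vale.Agent.P284Z.L.Spec
import Vale.Agent.P284Z.K.Bas

/-!
# P284Z, block L, piece 6a: the global weights
-/

open scoped ContDiff Topology ComplexOrder
open Filter Set Function Metric

noncomputable section

namespace Vale.Agent.P284Z.L

open Vale.Agent.P272.K Real K

namespace S6a

variable {n p : ℕ} {Γ E : Type} [Group Γ] [TopologicalSpace E] [MulAction Γ E] {C : Cov n Γ E}
  {P : Pol C} {J : IX Γ} {m : ℕ} {V : HSec P J m} {Λ : Fn J p} {F : E → ℝ} {x₀ y y' : E}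
  {γ γ' : Γ} {a b : C.I} {z z' : Cm n}

/-- the denominator -/
def den (Λ : Fn J p) (V : HSec P J m) (τ : ℝ) (γ : Γ) (a : C.I) (z : Cm n)
    (ξ : Fin p → Cm n) : ℝ :=
  Λ.lz V (C.pt γ a z) ^ τ * ‖ds C (Λ.s V) γ a z ξ‖ ^ (2 / (p + 1 : ℝ))

theorem den_pos (h : C.pt γ a z ∈ Λ.O V F) {ξ : Fin p → Cm n} (hξ : ds C (Λ.s V) γ a z ξ ≠ 0)
    (τ : ℝ) : 0 < den Λ V τ γ a z ξ :=
  mul_pos (rpow_pos_of_pos h.2.2.1 _) (rpow_pos_of_pos (norm_pos_iff.2 hξ) _)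

theorem den_zero {ξ : Fin p → Cm n} (hξ : ds C (Λ.s V) γ a z ξ = 0) (τ : ℝ) :
    den Λ V τ γ a z ξ = 0 := by
  rw [den, hξ, norm_zero, zero_rpow (by positivity), mul_zero]

theorem u_an (hz : z ∈ C.B 4 a) : AnalyticAt ℂ (Λ.u V γ a) z :=
  (Λ.l₀.analyticAt _).comp (((U J γ).analyticAt _).comp (V.an a z hz))

theorem frame (hz : z ∈ C.B 4 a) (h : C.pt γ a z ∈ Λ.O V F) :
    ∃ ξ : Fin p → Cm n, ‖ξ‖ ≤ 1 ∧ ds C (Λ.s V) γ a z ξ ≠ 0 :=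
  exists_frame (h.2.2.2 γ a z hz rfl)

section g1
variable (g1 : G1 Λ V F x₀)
include g1

theorem u_ne (hz : z ∈ C.B 4 a) (h : C.pt γ a z ∈ Λ.O V F) : Λ.u V γ a z ≠ 0 := fun e => by
  have h1 := h.2.2.1
  rw [g1.lz_eq γ a z hz, e] at h1
  simp at h1

theorem lz_mul (hz : z ∈ C.B 4 a) (h : C.pt γ a z ∈ Λ.O V F) :
    Λ.lz V (C.pt γ a z) * ‖Λ.G V (C.pt γ a z)‖ ^ 2 = V.nm a z := by
  have h1 := norm_ne_zero_iff.2 (u_ne g1 hz h)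
  rw [g1.lz_eq γ a z hz, g1.G_eq γ a z hz, norm_smul, norm_inv, vv, norm_U, HSec.nm]
  field_simp

theorem nm_pos (hz : z ∈ C.B 4 a) (h : C.pt γ a z ∈ Λ.O V F) : 0 < V.nm a z :=
  mul_pos (pow_pos (norm_pos_iff.2 fun e => u_ne g1 hz h (by rw [Fn.u, vv, e, map_zero, map_zero]))
    2) (exp_pos _)

theorem ev_O (hz : z ∈ C.B 4 a) (h : C.pt γ a z ∈ Λ.O V F) :
    ∀ᶠ w in 𝓝 z, w ∈ C.B 4 a ∧ C.pt γ a w ∈ Λ.O V F :=
  Eventually.and ((C.isOpen_B 4 a).mem_nhds hz)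
    ((C.continuousAt_pt hz γ).eventually (g1.sub.opn.mem_nhds h))

/-- the logarithm of the denominator -/
theorem den_exp (jb : JB) (hz : z ∈ C.B 4 a) (h : C.pt γ a z ∈ Λ.O V F) {ξ : Fin p → Cm n}
    (hξ : ds C (Λ.s V) γ a z ξ ≠ 0) {τ δ : ℝ} (hδ : δ ≤ m * τ) :
    ∃ H : Cm n → ℝ, SP H z ∧ ∀ᶠ w in 𝓝 z, den Λ V τ γ a w ξ * exp (H w + δ * C.ρ a w) = 1 := by
  have h1 : ∀ {h : Cm n → ℂ}, AnalyticAt ℂ h z → h z ≠ 0 → ∀ c : ℝ,
      SP (fun w => c * log (‖h w‖ ^ 2)) z := fun {h} hh h0 c =>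
    ⟨contDiffAt_const.mul (sm_log hh h0), by
      rw [C2.cHess_const_mul c (two (sm_log hh h0)), (jb.hess_re n h z hh).2.2 h0, smul_zero]
      exact Matrix.PosSemidef.zero⟩
  have h2 := dd_an (g1.sub.hol γ a z hz h) ξ
  refine ⟨_, (((sp_rho hz).const_mul (sub_nonneg.2 hδ)).add (h1 (u_an hz) (u_ne g1 hz h) (-τ))).add
    (h1 h2 hξ (-(p + 1 : ℝ)⁻¹)), ?_⟩
  filter_upwards [ev_O g1 hz h, h2.continuousAt.eventually_ne hξ] with w h3 h4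
  have h5 := pow_pos (norm_pos_iff.2 (u_ne g1 h3.1 h3.2)) 2
  rw [den, rpow_def_of_pos h3.2.2.2.1, ds, rpow_def_of_pos (norm_pos_iff.2 h4),
    g1.lz_eq γ a w h3.1, log_mul h5.ne' (exp_pos _).ne', log_exp, ← exp_add, ← exp_add,
    exp_eq_one_iff, log_pow ‖dd _ w ξ‖]
  push_cast
  ring

/-- the regularity of a quotient by the denominator -/
theorem quot (jb : JB) (hz : z ∈ C.B 4 a) (h : C.pt γ a z ∈ Λ.O V F) {ξ : Fin p → Cm n}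
    (hξ : ds C (Λ.s V) γ a z ξ ≠ 0) {τ δ : ℝ} (hδ : δ ≤ m * τ) {f : Cm n → ℝ}
    {Q : Cm n → (Fin p → Cm n) → ℝ} (he : ∀ᶠ w in 𝓝 z, f w * den Λ V τ γ a w ξ = Q w ξ)
    (hc : ContinuousOn (fun q : Cm n × (Fin p → Cm n) => Q q.1 q.2) (C.B 4 a ×ˢ univ))
    (hp : LPsh (fun q : Cm n × (Fin p → Cm n) => Q q.1 q.2 * exp (δ * C.ρ a q.1))
      (C.B 4 a ×ˢ univ))
    (hs : 0 < Q z ξ → ContDiffAt ℝ ∞ (fun q : Cm n × (Fin p → Cm n) => Q q.1 q.2) (z, ξ)) :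
    ContinuousAt f z ∧ (0 < f z → ContDiffAt ℝ ∞ f z ∧
      (cHess (fun w => log (f w)) z).PosSemidef) := by
  obtain ⟨H, h1, h2⟩ := den_exp g1 jb hz h hξ hδ
  have h3 : f =ᶠ[𝓝 z] fun w => Q w ξ * exp (H w + δ * C.ρ a w) := by
    filter_upwards [he, h2] with w h4 h5
    rw [← h4, mul_assoc, h5, mul_one]
  have h4 : ContDiffAt ℝ ∞ (fun w => exp (H w + δ * C.ρ a w)) z :=
    (h1.sm.add (contDiffAt_const.mul (C.ρ_sm a z hz))).exp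
  have h5 : ContinuousAt (fun w => Q w ξ) z :=
    (hc.continuousAt (prod_mem_nhds ((C.isOpen_B 4 a).mem_nhds hz) univ_mem)).comp
      (f := fun w => (w, ξ)) (by fun_prop)
  refine ⟨(h5.mul h4.continuousAt).congr h3.symm, fun h0 => ?_⟩
  have h6 : 0 < Q z ξ := he.self_of_nhds ▸ mul_pos h0 (den_pos h hξ τ)
  have h7 : ContDiffAt ℝ ∞ (fun w => Q w ξ) z :=
    (hs h6).comp (f := fun w => (w, ξ)) z (contDiffAt_id.prodMk contDiffAt_const)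
  refine ⟨(h7.mul h4).congr_of_eventuallyEq h3, (((sp_of_lpsh (c := 0) (A := δ) hz
    (by simpa using hp.left (mem_univ ξ)) h7 h6).add h1).congr ?_).psd⟩
  filter_upwards [h3, h5.eventually (lt_mem_nhds h6)] with w h8 h9
  rw [h8, log_mul h9.ne' (exp_pos _).ne', log_exp]
  ring

/-- two frames at the same point -/
theorem exists_match (g2 : G2 Λ V F) (hz : z ∈ C.B 4 a) (h : C.pt γ a z ∈ Λ.O V F)
    {ξ ξ₀ : Fin p → Cm n} (hξ : ds C (Λ.s V) γ a z ξ ≠ 0) (h0 : ds C (Λ.s V) γ a z ξ₀ ≠ 0) :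
    ∃ M : Matrix (Fin p) (Fin p) ℂ, V.Match γ a z ξ γ a z (fun k => ∑ k', M k k' • ξ₀ k') ∧
      ds C (Λ.s V) γ a z ξ = M.det * ds C (Λ.s V) γ a z ξ₀ := by
  obtain ⟨u, M, u1, u2, u3, u4, u5⟩ := exists_slice (g1.sub.hol γ a z hz h) h0 ξ
  obtain ⟨γ₀, -, c⟩ := g2.lc _ h
  have v1 : AnalyticAt ℂ (fun w => z + fr ξ w) 0 := analyticAt_const.add ((fr ξ).analyticAt 0)
  have v2 : z + fr ξ 0 = z := by simp
  have e := (ev_O g1 hz h).and ((C.ev_pt hz γ).1 c)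
  refine ⟨M, ⟨hz, hz, (g2.imm γ a z hz h ξ).2 hξ, fun w => z + fr ξ w, u,
    fun w => Λ.u V γ a (z + fr ξ w) * (Λ.u V γ a (u w))⁻¹, v1, u1,
    ((u_an hz).comp_of_eq v1 v2).mul (((u_an hz).comp_of_eq u1 u2).inv
      (by simpa [u2] using u_ne g1 hz h)), v2, u2, ?_, fun k => ?_, u3, ?_⟩,
    u5.symm.trans (dd_comb M ξ₀)⟩
  · simp only [v2, u2]
    exact mul_ne_zero (u_ne g1 hz h) (inv_ne_zero (u_ne g1 hz h))
  · rw [((fr ξ).hasFDerivAt.const_add z).fderiv, fr_single]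
  · filter_upwards [u4, (v1.continuousAt.tendsto.mono_right (by rw [v2])).eventually e,
      (u1.continuousAt.tendsto.mono_right (by rw [u2])).eventually e] with w h1 h2 h3 i
    have h4 : (Λ.u V γ a (z + fr ξ w))⁻¹ • vv V γ a (z + fr ξ w) =
        (Λ.u V γ a (u w))⁻¹ • vv V γ a (u w) := by
      rw [← g1.G_eq γ a _ h2.1.1, ← g1.G_eq γ a _ h3.1.1, h2.2, h3.2, h1]
    have h5 : (Λ.u V γ a (z + fr ξ w))⁻¹ * V.val γ a (z + fr ξ w) i =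
        (Λ.u V γ a (u w))⁻¹ * V.val γ a (u w) i := congrArg (fun x : J.H => x i) h4
    rw [mul_assoc, ← h5, mul_inv_cancel_left₀ (u_ne g1 h2.1.1 h2.1.2)]

end g1

variable {D : LD C} (R : LQ V p D) {j : ℕ} {c : ℝ}

theorem Q_nonneg (hz : z ∈ C.B 4 a) (ξ : Fin p → Cm n) : 0 ≤ R.Q j a z ξ :=
  nonneg_of_mul_nonneg_left ((R.Q_psh j a).1 (z, ξ) ⟨hz, mem_univ _⟩) (exp_pos _)

theorem Q_zero (g2 : G2 Λ V F) (hz : z ∈ C.B 4 a) (h : C.pt γ a z ∈ Λ.O V F)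
    {ξ : Fin p → Cm n} (hξ : ds C (Λ.s V) γ a z ξ = 0) : R.Q j a z ξ = 0 :=
  (Q_nonneg R hz ξ).eq_or_lt.elim Eq.symm fun h1 =>
    ((g2.imm γ a z hz h ξ).1 (R.Q_imm j a z hz ξ h1) hξ).elim

/-- from one frame to all the frames -/
theorem one (g1 : G1 Λ V F x₀) (g2 : G2 Λ V F) (hz : z ∈ C.B 4 a) (h : C.pt γ a z ∈ Λ.O V F)
    {ξ₀ : Fin p → Cm n} (h0 : ds C (Λ.s V) γ a z ξ₀ ≠ 0)
    (hc : c * den Λ V (R.τ j) γ a z ξ₀ = R.Q j a z ξ₀) (ξ : Fin p → Cm n) :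
    c * den Λ V (R.τ j) γ a z ξ = R.Q j a z ξ := by
  by_cases hξ : ds C (Λ.s V) γ a z ξ = 0
  · rw [den_zero hξ, Q_zero R g2 hz h hξ, mul_zero]
  obtain ⟨M, h1, h2⟩ := exists_match g1 g2 hz h hξ h0
  rw [mul_right_cancel₀ (rpow_pos_of_pos (nm_pos g1 hz h) _).ne'
    (R.Q_basic j γ a z ξ γ a z _ h1), R.Q_det j a z hz, ← hc, den, den, h2, norm_mul,
    mul_rpow (norm_nonneg _) (norm_nonneg _)]
  ring

/-- from a point to a related point -/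
theorem move (g1 : G1 Λ V F x₀) (g2 : G2 Λ V F) (hz : z ∈ C.B 4 a) (hz' : z' ∈ C.B 4 b)
    (h : Λ.Rel V F (C.pt γ a z) (C.pt γ' b z'))
    (hc : ∀ ξ, c * den Λ V (R.τ j) γ' b z' ξ = R.Q j b z' ξ) (ξ : Fin p → Cm n) :
    c * den Λ V (R.τ j) γ a z ξ = R.Q j a z ξ := by
  by_cases hξ : ds C (Λ.s V) γ a z ξ = 0
  · rw [den_zero hξ, Q_zero R g2 hz h.1 hξ, mul_zero]
  obtain ⟨ξ', h1, h2⟩ := h.2.2.2 γ a z γ' b z' hz hz' rfl rfl ξ hξ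
  have h3 : Λ.lz V (C.pt γ a z) ^ R.τ j * V.nm b z' ^ R.τ j =
      Λ.lz V (C.pt γ' b z') ^ R.τ j * V.nm a z ^ R.τ j := by
    rw [← mul_rpow h.1.2.2.1.le (nm_pos g1 hz' h.2.1).le,
      ← mul_rpow h.2.1.2.2.1.le (nm_pos g1 hz h.1).le, ← lz_mul g1 hz h.1, ← lz_mul g1 hz' h.2.1,
      h.2.2.1, mul_left_comm]
  refine mul_right_cancel₀ (rpow_pos_of_pos (nm_pos g1 hz' h.2.1) (R.τ j)).ne' ?_
  rw [R.Q_basic j γ a z ξ γ' b z' ξ' h1, ← hc, den, den, h2]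
  linear_combination c * ‖ds C (Λ.s V) γ a z ξ‖ ^ (2 / (p + 1 : ℝ)) * h3

theorem exists_q (g1 : G1 Λ V F x₀) (g2 : G2 Λ V F) : ∃ q : ℕ → E → ℝ, ∀ j γ a, ∀ z ∈ C.B 4 a,
    C.pt γ a z ∈ Λ.O V F → ∀ ξ, q j (C.pt γ a z) * den Λ V (R.τ j) γ a z ξ = R.Q j a z ξ := by
  have h : ∀ j y, ∃ c : ℝ, y ∈ Λ.O V F → ∀ γ a, ∀ z ∈ C.B 4 a, C.pt γ a z = y → ∀ ξ,
      c * den Λ V (R.τ j) γ a z ξ = R.Q j a z ξ := by
    intro j y
    by_cases hy : y ∈ Λ.O V F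
    · obtain ⟨γ', b, z', hz', rfl⟩ := C.exists_pt y
      obtain ⟨ξ₀, -, h0⟩ := frame (C.B14 hz') hy
      refine ⟨R.Q j b z' ξ₀ / den Λ V (R.τ j) γ' b z' ξ₀, fun _ γ a z hz e => ?_⟩
      refine move R g1 g2 hz (C.B14 hz') (e ▸ (g2.loc _ hy).self_of_nhds rfl)
        (one R g1 g2 (C.B14 hz') hy h0 (div_mul_cancel₀ _ (den_pos hy h0 _).ne'))
    · exact ⟨0, fun h => (hy h).elim⟩
  choose q hq using h
  exact ⟨q, fun j γ a z hz h => hq j _ h γ a z hz rfl⟩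

end S6a

open S6a

/-- **L6a** -/
theorem st6a : St6a := by
  intro jb n p Γ E _ _ _ _ C P J m V D R hR Λ x₀ g1 g2 l
  obtain ⟨q, hq⟩ := exists_q R g1 g2
  have q0 : ∀ j, ∀ y ∈ Λ.O V (D.F 0), 0 ≤ q j y := by
    intro j y hy
    obtain ⟨γ, a, z, hz, rfl⟩ := C.exists_pt y
    obtain ⟨ξ, -, h⟩ := frame (C.B14 hz) hy
    exact nonneg_of_mul_nonneg_left
      ((Q_nonneg R (C.B14 hz) ξ).trans_eq (hq j γ a z (C.B14 hz) hy ξ).symm) (den_pos hy h _)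
  have qF : ∀ j, ∀ y ∈ Λ.O V (D.F 0), D.F j y = 0 → q j y = 0 := by
    intro j y hy h0
    obtain ⟨γ, a, z, hz, rfl⟩ := C.exists_pt y
    obtain ⟨ξ, h1, h⟩ := frame (C.B14 hz) hy
    obtain ⟨K, hK⟩ := hR.Q_loc a z (C.B_mono (by norm_num) a hz)
      (by rw [P.σ_eq 1 a z (C.B14 hz), ← P.σ_eq γ a z (C.B14 hz)]; exact hy.2.1)
    have h2 := hK.self_of_nhds j ξ h1
    rw [← F_pt D j γ, h0, mul_zero, ← hq j γ a z (C.B14 hz) hy ξ] at h2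
    exact le_antisymm (nonpos_of_mul_nonpos_left h2 (den_pos hy h _)) (q0 j _ hy)
  have qr : ∀ j y y', Λ.Rel V (D.F 0) y y' → q j y = q j y' := by
    intro j y y' h
    obtain ⟨γ, a, z, hz, rfl⟩ := C.exists_pt y
    obtain ⟨γ', b, z', hz', rfl⟩ := C.exists_pt y'
    obtain ⟨ξ, -, h1⟩ := frame (C.B14 hz) h.1
    exact mul_right_cancel₀ (den_pos h.1 h1 _).ne' ((hq j γ a z (C.B14 hz) h.1 ξ).trans
      (move R g1 g2 (C.B14 hz) (C.B14 hz') h (hq j γ' b z' (C.B14 hz') h.2.1) ξ).symm)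
  have wr : ∀ j y y', Λ.Rel V (D.F 0) y y' →
      D.W l j x₀ y * q j y / D.F j y = D.W l j x₀ y' * q j y' / D.F j y' := by
    intro j y y' h
    by_cases h0 : q j y = 0
    · rw [← qr j y y' h, h0, mul_zero, mul_zero, zero_div, zero_div]
    rw [div_eq_div_iff (fun e => h0 (qF j y h.1 e))
      (fun e => h0 ((qr j y y' h).trans (qF j y' h.2.1 e))), ← qr j y y' h]
    obtain ⟨γ, a, z, hz, rfl⟩ := C.exists_pt y
    obtain ⟨γ', b, z', hz', rfl⟩ := C.exists_pt y'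
    obtain ⟨ξ, -, h1⟩ := frame (C.B14 hz) h.1
    obtain ⟨ξ', h2, -⟩ := h.2.2.2 γ a z γ' b z' (C.B14 hz) (C.B14 hz') rfl rfl ξ h1
    linear_combination q j (C.pt γ a z) * R.W_basic l j x₀ γ a z ξ γ' b z' ξ' h2
  have w0 : ∀ j, ∀ y ∈ Λ.O V (D.F 0), 0 ≤ D.W l j x₀ y * q j y / D.F j y := fun j y hy =>
    div_nonneg (mul_nonneg (D.W_nonneg l j x₀ y) (q0 j y hy)) (D.F_nonneg j y)
  have wl : ∀ j, ∀ y ∈ Λ.O V (D.F 0), D.W l j x₀ y * q j y / D.F j y ≤ D.ε j * q j y := by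
    intro j y hy
    have hε : 0 ≤ D.ε j := zero_le_one.trans (D.one_le j)
    refine div_le_of_le_mul₀ (D.F_nonneg j y) (mul_nonneg hε (q0 j y hy)) ?_
    rw [mul_right_comm]
    exact mul_le_mul_of_nonneg_right ((D.W_le l j x₀ y).trans (mul_le_mul_of_nonneg_left
      (mul_le_of_le_one_left (D.F_nonneg j y) (D.F_le j x₀)) hε)) (q0 j y hy)
  have qq : ∀ j γ a, ∀ z ∈ C.B 4 a, C.pt γ a z ∈ Λ.O V (D.F 0) →
      ContinuousAt (fun w => q j (C.pt γ a w)) z ∧ (0 < q j (C.pt γ a z) →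
        ContDiffAt ℝ ∞ (fun w => q j (C.pt γ a w)) z ∧
        (cHess (fun w => log (q j (C.pt γ a w))) z).PosSemidef) := by
    intro j γ a z hz h
    obtain ⟨ξ, -, h1⟩ := frame hz h
    exact quot g1 jb hz h h1 (hR.δ_le j) ((ev_O g1 hz h).mono fun w hw => hq j γ a w hw.1 hw.2 ξ)
      (R.Q_cont j a) (R.Q_psh j a) (R.Q_sm j a z hz ξ)
  have ww : ∀ j γ a, ∀ z ∈ C.B 4 a, C.pt γ a z ∈ Λ.O V (D.F 0) →
      0 < D.W l j x₀ (C.pt γ a z) * q j (C.pt γ a z) / D.F j (C.pt γ a z) →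
      ContDiffAt ℝ ∞ (fun w => D.W l j x₀ (C.pt γ a w) * q j (C.pt γ a w) / D.F j (C.pt γ a w)) z ∧
      (cHess (fun w => log (D.W l j x₀ (C.pt γ a w) * q j (C.pt γ a w) / D.F j (C.pt γ a w)))
        z).PosSemidef := by
    intro j γ a z hz h h0
    obtain ⟨ξ, -, h1⟩ := frame hz h
    have h2 : D.F j (C.pt γ a z) ≠ 0 := fun e => by simp [e] at h0
    refine (quot g1 jb hz h h1 (hR.δ_le j) ?_ (R.WQ_cont l j x₀ γ a) (R.WQ_psh l j x₀ γ a)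
      (R.WQ_sm l j x₀ γ a z hz ξ)).2 h0
    filter_upwards [ev_O g1 hz h,
      ((D.F_cont j).continuousAt.comp (C.continuousAt_pt hz γ)).eventually_ne h2] with w h3 h4
    rw [div_mul_eq_mul_div, mul_assoc, hq j γ a w h3.1 h3.2 ξ, ← R.WQ_eq l j x₀ γ a w h3.1 ξ]
    exact mul_div_cancel_right₀ _ h4
  have qc : ∀ j, ∀ y ∈ Λ.O V (D.F 0), ContinuousAt (q j) y := by
    intro j y hy
    obtain ⟨γ, a, z, hz, rfl⟩ := C.exists_pt y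
    rw [ContinuousAt, ← C.map_pt' (C.B14 hz), tendsto_map'_iff]
    exact (qq j γ a z (C.B14 hz) hy).1
  refine ⟨⟨q, fun j y => D.W l j x₀ y * q j y / D.F j y, hq, fun j y hy => ?_, wl,
    fun j => ⟨fun y hy => (qc j y hy).continuousWithinAt, q0 j,
      fun y hy => (g2.loc y hy).mono fun x hx e => qr j _ _ (hx e),
      fun y hy h γ a z hz e => ((qq j γ a z hz (e ▸ hy)).2 (e ▸ h)).1,
      fun γ a z hz h => ((qq j γ a z hz h.1).2 h.2).2⟩,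
    fun j => ⟨fun y hy => ?_, w0 j, fun y hy => (g2.loc y hy).mono fun x hx e => wr j _ _ (hx e),
      fun y hy h γ a z hz e => (ww j γ a z hz (e ▸ hy) (e ▸ h)).1,
      fun γ a z hz h => (ww j γ a z hz h.1 h.2).2⟩, fun y hy => ?_, qr, wr⟩⟩
  · by_cases h : D.F j y = 0
    · rw [h, qF j y hy h, mul_zero, mul_zero]
    · exact div_mul_cancel₀ _ h
  · by_cases h : D.F j y = 0
    · have h1 := ((qc j y hy).continuousWithinAt (s := Λ.O V (D.F 0))).tendsto.const_mul (D.ε j)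
      rw [qF j y hy h, mul_zero] at h1
      rw [ContinuousWithinAt, h, div_zero]
      exact squeeze_zero' (eventually_mem_nhdsWithin.mono (w0 j))
        (eventually_mem_nhdsWithin.mono (wl j)) h1
    · exact ((((D.W_cont l j).comp (Continuous.prodMk_right x₀)).continuousAt.mul
        (qc j y hy)).div (D.F_cont j).continuousAt h).continuousWithinAt
  · obtain ⟨γ, a, z, hz, rfl⟩ := C.exists_pt y
    obtain ⟨ξ, h⟩ := hR.F_imm 0 a z (C.B14 hz) (F_pt D 0 γ a z ▸ hy.1)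
    rw [← hq 0 γ a z (C.B14 hz) hy ξ] at h
    exact (q0 0 _ hy).lt_of_ne fun e => by simp [← e] at h

end Vale.Agent.P284Z.L
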